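import Crest.Agent.R140.Defs

/-!
# Row 140, module C4a (helper798): the subdivision norm `M.inf`

For a spreading-invariant list norm `M`, replacing atoms `c` by `k` atoms `c / k` does not increase
the norm (average over the position inside the blocks), so the infimum over `k` is again such a
norm, and it does not see subdivisions.
-/

set_option autoImplicit false

open Finset

namespace Crest.Agent.R140

noncomputable section

/-- subdivision of every atom into `k` atoms -/
def blow (k : ℕ) (l : List ℝ) : List ℝ := l.flatMap (fun c => List.replicate k (c / k))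

@[simp] theorem blow_nil (k : ℕ) : blow k [] = [] := rfl

theorem blow_cons (k : ℕ) (c : ℝ) (l : List ℝ) :
    blow k (c :: l) = List.replicate k (c / k) ++ blow k l := rfl

theorem blow_append (k : ℕ) (l l' : List ℝ) : blow k (l ++ l') = blow k l ++ blow k l' := by
  simp [blow]

theorem blow_one (l : List ℝ) : blow 1 l = l := by
  induction l with
  | nil => rfl
  | cons c l ih => rw [blow_cons, ih]; simp

theorem blow_replicate (k n : ℕ) (x : ℝ) :
    blow k (List.replicate n x) = List.replicate (n * k) (x / k) := by
  induction n with
  | zero => simp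
  | succ n ih =>
    rw [List.replicate_succ, blow_cons, ih, List.replicate_append_replicate]
    congr 1
    ring

theorem blow_blow (k m : ℕ) (l : List ℝ) : blow k (blow m l) = blow (m * k) l := by
  induction l with
  | nil => rfl
  | cons c l ih =>
    rw [blow_cons, blow_append, ih, blow_replicate, blow_cons]
    congr 2
    rw [div_div]
    push_cast
    rfl

theorem blow_map (k : ℕ) (t : ℝ) (l : List ℝ) :
    blow k (l.map (fun x => t * x)) = (blow k l).map (fun x => t * x) := by
  induction l with
  | nil => rfl
  | cons c l ih =>
    rw [List.map_cons, blow_cons, blow_cons, List.map_append, ih, List.map_replicate]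
    congr 2
    ring

theorem blow_length (k : ℕ) (l : List ℝ) : (blow k l).length = l.length * k := by
  induction l with
  | nil => simp
  | cons c l ih =>
    rw [blow_cons, List.length_append, ih, List.length_replicate, List.length_cons]
    ring

theorem blow_zipWith (k : ℕ) (l l' : List ℝ) (h : l.length = l'.length) :
    blow k (List.zipWith (fun x y => x + y) l l') =
      List.zipWith (fun x y => x + y) (blow k l) (blow k l') := by
  induction l generalizing l' with
  | nil => simp
  | cons c l ih =>
    cases l' with
    | nil => simp at h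
    | cons c' l' =>
      rw [List.zipWith_cons_cons, blow_cons, blow_cons, blow_cons,
        List.zipWith_append (by simp), ih l' (by simpa using h)]
      congr 1
      rw [List.zipWith_replicate]
      simp only [min_self]
      congr 1
      ring

/-! ### zero insertion -/

theorem SprNorm.N_zeros (M : SprNorm) (n : ℕ) (A B : List ℝ) :
    M.N (A ++ (List.replicate n 0 ++ B)) = M.N (A ++ B) := by
  induction n with
  | zero => simp
  | succ n ih =>
    rw [List.replicate_succ, List.cons_append, M.zero, ih]

theorem SprNorm.N_replicate_zero (M : SprNorm) (n : ℕ) : M.N (List.replicate n 0) = 0 := by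
  have h := M.smul 0 (List.replicate n (0 : ℝ))
  rw [List.map_replicate, abs_zero, zero_mul, zero_mul] at h
  exact h

/-- the block with the atom `c` at position `j` of `k` -/
def slot (k j : ℕ) (c : ℝ) : List ℝ := List.replicate j 0 ++ c :: List.replicate (k - 1 - j) 0

/-- every atom placed at position `j` of a block of length `k` -/
def ins (k j : ℕ) (l : List ℝ) : List ℝ := l.flatMap (slot k j)

theorem ins_cons (k j : ℕ) (c : ℝ) (l : List ℝ) :
    ins k j (c :: l) = slot k j c ++ ins k j l := rfl

theorem slot_length {k j : ℕ} (h : j < k) (c : ℝ) : (slot k j c).length = k := by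
  simp only [slot, List.length_append, List.length_replicate, List.length_cons]
  omega

theorem ins_length {k j : ℕ} (h : j < k) (l : List ℝ) : (ins k j l).length = l.length * k := by
  induction l with
  | nil => simp [ins]
  | cons c l ih =>
    rw [ins_cons, List.length_append, ih, slot_length h, List.length_cons]
    ring

theorem SprNorm.N_ins (M : SprNorm) (k j : ℕ) (Q : List ℝ) : ∀ A B : List ℝ,
    M.N (A ++ (ins k j Q ++ B)) = M.N (A ++ (Q ++ B)) := by
  induction Q with
  | nil => intro A B; rfl
  | cons c Q ih =>
    intro A B
    have e1 : A ++ (ins k j (c :: Q) ++ B) = A ++ (List.replicate j 0 ++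
        (c :: (List.replicate (k - 1 - j) 0 ++ (ins k j Q ++ B)))) := by
      rw [ins_cons, slot]; simp
    have e2 : A ++ (c :: (List.replicate (k - 1 - j) 0 ++ (ins k j Q ++ B))) =
        (A ++ [c]) ++ (List.replicate (k - 1 - j) 0 ++ (ins k j Q ++ B)) := by simp
    have e3 : A ++ (c :: Q ++ B) = (A ++ [c]) ++ (Q ++ B) := by simp
    rw [e1, M.N_zeros, e2, M.N_zeros, ih, e3]

/-! ### sums of lists -/

/-- entrywise sum of `f 0, …, f (k - 1)` (lists of length `n`) -/
def lsum (n : ℕ) (f : ℕ → List ℝ) : ℕ → List ℝ
  | 0 => List.replicate n 0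
  | k + 1 => List.zipWith (fun x y => x + y) (lsum n f k) (f k)

theorem lsum_length (n : ℕ) (f : ℕ → List ℝ) (k : ℕ) (h : ∀ j < k, (f j).length = n) :
    (lsum n f k).length = n := by
  induction k with
  | zero => simp [lsum]
  | succ k ih =>
    rw [lsum, List.length_zipWith, ih (fun j hj => h j (by omega)), h k (by omega), min_self]

theorem SprNorm.N_lsum_le (M : SprNorm) (n : ℕ) (f : ℕ → List ℝ) (k : ℕ)
    (h : ∀ j < k, (f j).length = n) : M.N (lsum n f k) ≤ ∑ j ∈ range k, M.N (f j) := by
  induction k with
  | zero => simp [lsum, M.N_replicate_zero]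
  | succ k ih =>
    rw [lsum, Finset.sum_range_succ]
    refine (M.add _ _ ?_).trans (add_le_add (ih fun j hj => h j (by omega)) le_rfl)
    rw [lsum_length n f k (fun j hj => h j (by omega)), h k (by omega)]

theorem lsum_append (n m : ℕ) (f g : ℕ → List ℝ) (k : ℕ) (hf : ∀ j < k, (f j).length = n)
    (hg : ∀ j < k, (g j).length = m) :
    lsum (n + m) (fun j => f j ++ g j) k = lsum n f k ++ lsum m g k := by
  induction k with
  | zero => simp [lsum, List.replicate_append_replicate]
  | succ k ih =>
    rw [lsum, lsum, lsum, ih (fun j hj => hf j (by omega)) (fun j hj => hg j (by omega)),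
      List.zipWith_append]
    rw [lsum_length n f k (fun j hj => hf j (by omega)), hf k (by omega)]

theorem lsum_congr (n : ℕ) (f g : ℕ → List ℝ) (k : ℕ) (h : ∀ j < k, f j = g j) :
    lsum n f k = lsum n g k := by
  induction k with
  | zero => rfl
  | succ k ih => rw [lsum, lsum, ih (fun j hj => h j (by omega)), h k (by omega)]

theorem lsum_const (P : List ℝ) (k : ℕ) :
    lsum P.length (fun _ => P) k = P.map (fun x => (k : ℝ) * x) := by
  induction k with
  | zero =>
    rw [lsum]
    simp
  | succ k ih =>
    rw [lsum, ih]
    conv_lhs => rw [← List.map_id P]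
    rw [List.map_id, List.zipWith_map_left]
    have : ∀ Q : List ℝ, List.zipWith (fun a b => (k : ℝ) * a + b) Q Q =
        Q.map (fun x => ((k + 1 : ℕ) : ℝ) * x) := by
      intro Q
      induction Q with
      | nil => rfl
      | cons c Q ihQ =>
        rw [List.zipWith_cons_cons, List.map_cons, ihQ]
        congr 1
        push_cast; ring
    exact this P

theorem lsum_slot_aux (k : ℕ) (c : ℝ) : ∀ i ≤ k, lsum k (fun j => slot k j c) i =
    List.replicate i c ++ List.replicate (k - i) 0 := by
  intro i
  induction i with
  | zero => intro _; simp [lsum]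
  | succ i ih =>
    intro h
    have e : k - i = (k - (i + 1)) + 1 := by omega
    have e' : k - 1 - i = k - (i + 1) := by omega
    rw [lsum, ih (by omega), slot, e, List.replicate_succ, e', List.zipWith_append (by simp),
      List.zipWith_cons_cons, List.zipWith_replicate, List.zipWith_replicate]
    simp only [min_self, add_zero, zero_add]
    rw [List.replicate_succ']
    simp

theorem lsum_slot (k : ℕ) (c : ℝ) : lsum k (fun j => slot k j c) k = List.replicate k c := by
  rw [lsum_slot_aux k c k le_rfl]
  simp

theorem lsum_ins (k : ℕ) (Q : List ℝ) : lsum (Q.length * k) (fun j => ins k j Q) k =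
    (blow k Q).map (fun x => (k : ℝ) * x) := by
  induction Q with
  | nil =>
    have : ∀ i, lsum 0 (fun j => ins k j []) i = [] := by
      intro i
      induction i with
      | zero => rfl
      | succ i ih => rw [lsum, ih]; rfl
    simpa using this k
  | cons c Q ih =>
    rcases Nat.eq_zero_or_pos k with hk | hk
    · subst hk
      simp [lsum, blow]
    have e : (c :: Q).length * k = k + Q.length * k := by
      rw [List.length_cons]; ring
    rw [e]
    have := lsum_append k (Q.length * k) (fun j => slot k j c) (fun j => ins k j Q) k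
      (fun j hj => slot_length hj c) (fun j hj => ins_length hj Q)
    have e2 : (fun j => ins k j (c :: Q)) = fun j => slot k j c ++ ins k j Q := by
      funext j; exact ins_cons k j c Q
    rw [e2, this, ih, lsum_slot, blow_cons, List.map_append, List.map_replicate]
    congr 2
    have hk' : (k : ℝ) ≠ 0 := by exact_mod_cast hk.ne'
    field_simp

/-- subdividing the atoms of a block does not increase the norm -/
theorem SprNorm.blow_le (M : SprNorm) (P Q R : List ℝ) {k : ℕ} (hk : 0 < k) :
    M.N (P ++ (blow k Q ++ R)) ≤ M.N (P ++ (Q ++ R)) := by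
  have hk' : (0 : ℝ) < k := by exact_mod_cast hk
  have hlen : ∀ j < k, (P ++ (ins k j Q ++ R)).length = P.length + (Q.length * k + R.length) := by
    intro j hj
    rw [List.length_append, List.length_append, ins_length hj]
  have h1 := M.N_lsum_le (P.length + (Q.length * k + R.length))
    (fun j => P ++ (ins k j Q ++ R)) k hlen
  rw [lsum_append P.length (Q.length * k + R.length) (fun _ => P) (fun j => ins k j Q ++ R) k
    (fun j _ => rfl) (fun j hj => by rw [List.length_append, ins_length hj]),
    lsum_append (Q.length * k) R.length (fun j => ins k j Q) (fun _ => R) k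
      (fun j hj => ins_length hj Q) (fun j _ => rfl), lsum_const, lsum_ins, lsum_const,
    ← List.map_append, ← List.map_append, M.smul, abs_of_pos hk'] at h1
  have h2 : ∑ j ∈ range k, M.N (P ++ (ins k j Q ++ R)) = k * M.N (P ++ (Q ++ R)) := by
    rw [Finset.sum_congr rfl (fun j _ => M.N_ins k j Q P R), Finset.sum_const, Finset.card_range,
      nsmul_eq_mul]
  rw [h2] at h1
  exact le_of_mul_le_mul_left h1 hk'

theorem SprNorm.blow_le' (M : SprNorm) (Q : List ℝ) {k : ℕ} (hk : 0 < k) :
    M.N (blow k Q) ≤ M.N Q := by
  have := M.blow_le [] Q [] hk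
  simpa using this

/-! ### the infimum over subdivisions -/

/-- the value of the subdivision norm -/
def SprNorm.infN (M : SprNorm) (l : List ℝ) : ℝ := ⨅ k : ℕ, M.N (blow (k + 1) l)

theorem SprNorm.infN_bdd (M : SprNorm) (l : List ℝ) :
    BddBelow (Set.range fun k : ℕ => M.N (blow (k + 1) l)) :=
  ⟨0, by rintro _ ⟨k, rfl⟩; exact M.nonneg _⟩

theorem SprNorm.infN_nonneg (M : SprNorm) (l : List ℝ) : 0 ≤ M.infN l :=
  le_ciInf fun _ => M.nonneg _

theorem SprNorm.infN_le (M : SprNorm) (l : List ℝ) {k : ℕ} (hk : 0 < k) :
    M.infN l ≤ M.N (blow k l) := by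
  obtain ⟨k, rfl⟩ : ∃ j, k = j + 1 := ⟨k - 1, by omega⟩
  exact ciInf_le (M.infN_bdd l) k

theorem SprNorm.infN_le_self (M : SprNorm) (l : List ℝ) : M.infN l ≤ M.N l := by
  have := M.infN_le l Nat.one_pos
  rwa [blow_one] at this

theorem SprNorm.le_infN (M : SprNorm) (l : List ℝ) (a : ℝ)
    (h : ∀ k : ℕ, 0 < k → a ≤ M.N (blow k l)) : a ≤ M.infN l :=
  le_ciInf fun k => h (k + 1) k.succ_pos

theorem SprNorm.exists_infN (M : SprNorm) (l : List ℝ) {ε : ℝ} (hε : 0 < ε) :
    ∃ k : ℕ, 0 < k ∧ M.N (blow k l) ≤ M.infN l + ε := by
  obtain ⟨k, hk⟩ := exists_lt_of_ciInf_lt (show M.infN l < M.infN l + ε by linarith)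
  exact ⟨k + 1, k.succ_pos, hk.le⟩

/-- subdividing further does not increase the norm -/
theorem SprNorm.blow_mul_le (M : SprNorm) (l : List ℝ) (k : ℕ) {m : ℕ} (hm : 0 < m) :
    M.N (blow (k * m) l) ≤ M.N (blow k l) := by
  rw [← blow_blow]
  exact M.blow_le' _ hm

/-- The subdivision norm of a spreading invariant list norm. -/
def SprNorm.inf (M : SprNorm) : SubNorm where
  N := M.infN
  nonneg := M.infN_nonneg
  smul t l := by
    unfold SprNorm.infN
    rw [Real.mul_iInf_of_nonneg (abs_nonneg t)]
    congr 1
    funext k
    rw [blow_map, M.smul]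
  add l l' h := by
    refine le_of_forall_pos_le_add fun ε hε => ?_
    obtain ⟨k, hk, h1⟩ := M.exists_infN l (half_pos hε)
    obtain ⟨m, hm, h2⟩ := M.exists_infN l' (half_pos hε)
    have h3 := M.infN_le (List.zipWith (fun x y => x + y) l l') (Nat.mul_pos hk hm)
    rw [blow_zipWith _ _ _ h] at h3
    have h4 := M.add (blow (k * m) l) (blow (k * m) l') (by
      rw [blow_length, blow_length, h])
    have h5 := M.blow_mul_le l k hm
    have h6 := M.blow_mul_le l' m hk
    rw [mul_comm m k] at h6
    linarith
  zero l l' := by
    unfold SprNorm.infN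
    congr 1
    funext k
    rw [blow_append, blow_cons, blow_append, zero_div, M.N_zeros]
  single := by
    refine (M.infN_le_self [1]).trans M.single
  sub A B c k hk := by
    have key : ∀ m : ℕ, blow m (A ++ List.replicate k (c / k) ++ B) =
        blow m A ++ (List.replicate (k * m) (c / (k * m : ℕ)) ++ blow m B) := by
      intro m
      rw [blow_append, blow_append, blow_replicate, List.append_assoc, div_div]
      push_cast
      rfl
    apply le_antisymm
    · refine M.le_infN _ _ fun m hm => ?_
      have h1 := M.infN_le (A ++ List.replicate k (c / k) ++ B) hm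
      rw [key m] at h1
      refine h1.trans ?_
      have h2 := M.blow_le (blow m A) (List.replicate m (c / m)) (blow m B) hk
      rw [blow_replicate, div_div] at h2
      rw [blow_append, blow_cons]
      refine le_trans (le_of_eq ?_) h2
      rw [mul_comm k m]
      push_cast
      rfl
    · refine M.le_infN _ _ fun m hm => ?_
      rw [key m]
      have h1 := M.infN_le (A ++ c :: B) (Nat.mul_pos hk hm)
      rw [blow_append, blow_cons] at h1
      refine h1.trans ?_
      rw [mul_comm k m, ← blow_blow, ← blow_blow]
      have h2 := M.blow_le [] (blow m A)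
        (List.replicate (m * k) (c / (m * k : ℕ)) ++ blow k (blow m B)) hk
      simp only [List.nil_append] at h2
      refine h2.trans ?_
      have h3 := M.blow_le (blow m A ++ List.replicate (m * k) (c / (m * k : ℕ))) (blow m B) [] hk
      simp only [List.append_nil, List.append_assoc] at h3
      exact h3

theorem SprNorm.inf_N (M : SprNorm) (l : List ℝ) : M.inf.N l = M.infN l := rfl

/-- separation passes to the subdivision norm -/
theorem SprNorm.inf_sep (M : SprNorm) {θ : ℝ}
    (h : ∀ m : ℕ, θ * m ≤ M.N (List.replicate m 1 ++ List.replicate m (-1))) :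
    θ ≤ M.inf.N [1, -1] := by
  refine M.le_infN _ _ fun k hk => ?_
  have hk' : (0 : ℝ) < k := by exact_mod_cast hk
  have h1 := h k
  have e : List.replicate k (1 : ℝ) ++ List.replicate k (-1) =
      (blow k [1, -1]).map (fun x => (k : ℝ) * x) := by
    rw [blow_cons, blow_cons, blow_nil, List.append_nil, List.map_append, List.map_replicate,
      List.map_replicate]
    congr 2 <;> field_simp
  rw [e, M.smul, abs_of_pos hk'] at h1
  rw [mul_comm θ] at h1
  exact le_of_mul_le_mul_left h1 hk'

end

end Crest.Agent.R140
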