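import Crest.Agent.R140.Blow
import Crest.Agent.R140.C3Defs

/-!
# Row 140, module C4a, second half (helper798): the group inequality passes from `M` to `M.inf`
-/

set_option autoImplicit false

open Finset

namespace Crest.Agent.R140

noncomputable section

section

variable {Λ : Type} [LinearOrder Λ]

/-- the list of values of a finitely supported integer function -/
def lst (c : Λ →₀ ℤ) : List ℝ := (c.support.sort (· ≤ ·)).map (fun x => ((c x : ℤ) : ℝ))

theorem SprNorm.fnZ_eq (M : SprNorm) (c : Λ →₀ ℤ) : M.fnZ c = M.N (lst c) := rfl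

/-- every atom replaced by `k` copies -/
def blowZ (k : ℕ) (c : Λ →₀ ℤ) : (Λ ×ₗ Fin k) →₀ ℤ :=
  ∑ j : Fin k, c.mapDomain (fun x => toLex (x, j))

theorem blowZ_apply (k : ℕ) (c : Λ →₀ ℤ) (x : Λ) (j : Fin k) :
    blowZ k c (toLex (x, j)) = c x := by
  unfold blowZ
  rw [Finsupp.finsetSum_apply, Finset.sum_eq_single j]
  · refine Finsupp.mapDomain_apply (f := fun x => toLex (x, j)) ?_ c x
    intro a b hab
    simpa using hab
  · intro j' _ hj
    refine Finsupp.mapDomain_of_notMem_range _ _ ?_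
    rintro ⟨y, hy⟩
    have : j' = j := by
      have := congrArg (fun a => (ofLex a).2) hy
      simpa using this
    exact hj this
  · intro h
    exact absurd (Finset.mem_univ j) h

theorem blowZ_add (k : ℕ) (c d : Λ →₀ ℤ) : blowZ k (c + d) = blowZ k c + blowZ k d := by
  simp only [blowZ, Finsupp.mapDomain_add, Finset.sum_add_distrib]

theorem blowZ_zero (k : ℕ) : blowZ k (0 : Λ →₀ ℤ) = 0 := by
  simp [blowZ]

theorem blowZ_neg (k : ℕ) (c : Λ →₀ ℤ) : blowZ k (-c) = -blowZ k c := by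
  have := blowZ_add k c (-c)
  rw [add_neg_cancel, blowZ_zero] at this
  exact (neg_eq_of_add_eq_zero_right this.symm).symm

/-- the order automorphism acting on the first coordinate -/
def liftIso (k : ℕ) (h : Λ ≃o Λ) : (Λ ×ₗ Fin k) ≃o (Λ ×ₗ Fin k) :=
  Prod.Lex.prodLexCongr h (OrderIso.refl (Fin k))

theorem liftIso_apply (k : ℕ) (h : Λ ≃o Λ) (x : Λ) (j : Fin k) :
    liftIso k h (toLex (x, j)) = toLex (h x, j) := rfl

theorem blowZ_mapDomain (k : ℕ) (c : Λ →₀ ℤ) (h : Λ ≃o Λ) :
    blowZ k (c.mapDomain h) = (blowZ k c).mapDomain (liftIso k h) := by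
  unfold blowZ
  rw [Finsupp.mapDomain_finsetSum]
  refine Finset.sum_congr rfl fun j _ => ?_
  rw [← Finsupp.mapDomain_comp, ← Finsupp.mapDomain_comp]
  rfl

theorem bw_blowZ {S : Type} (k : ℕ) (h : S → Λ ≃o Λ) (m : S → Λ →₀ ℤ) (w : List S) :
    bw (fun s => liftIso k (h s)) (fun s => blowZ k (m s)) w = blowZ k (bw h m w) := by
  induction w with
  | nil => simp only [bw]; exact (blowZ_zero k).symm
  | cons s w ih => simp only [bw]; rw [ih, blowZ_add, blowZ_mapDomain]

theorem sort_blowZ (k : ℕ) (c : Λ →₀ ℤ) :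
    (blowZ k c).support.sort (· ≤ ·) = (c.support.sort (· ≤ ·)).flatMap
      (fun x => (List.finRange k).map (fun j => toLex (x, j))) := by
  classical
  set L : List (Λ ×ₗ Fin k) := (c.support.sort (· ≤ ·)).flatMap
      (fun x => (List.finRange k).map (fun j => toLex (x, j))) with hL
  have hlt : L.Pairwise (· < ·) := by
    rw [hL, List.pairwise_flatMap]
    constructor
    · intro x _
      rw [List.pairwise_map]
      refine (List.pairwise_lt_finRange k).imp fun {a b} hab => ?_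
      rw [Prod.Lex.lt_iff]
      right
      exact ⟨rfl, hab⟩
    · refine (Finset.sortedLT_sort c.support).pairwise.imp fun {a b} hab => ?_
      intro x hx y hy
      obtain ⟨i, -, rfl⟩ := List.mem_map.1 hx
      obtain ⟨j, -, rfl⟩ := List.mem_map.1 hy
      rw [Prod.Lex.lt_iff]
      left
      exact hab
  have hnd : L.Nodup := hlt.imp fun h => h.ne
  have hle : L.Pairwise (· ≤ ·) := hlt.imp fun h => h.le
  have hfin : L.toFinset = (blowZ k c).support := by
    ext a
    obtain ⟨⟨x, j⟩, rfl⟩ := toLex.surjective a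
    rw [List.mem_toFinset, Finsupp.mem_support_iff, blowZ_apply, hL, List.mem_flatMap]
    constructor
    · rintro ⟨y, hy, h2⟩
      obtain ⟨i, -, hi⟩ := List.mem_map.1 h2
      have : y = x := by
        have := congrArg (fun a => (ofLex a).1) hi
        simpa using this
      subst this
      rw [Finset.mem_sort] at hy
      exact Finsupp.mem_support_iff.1 hy
    · intro hx
      refine ⟨x, ?_, List.mem_map.2 ⟨j, List.mem_finRange j, rfl⟩⟩
      rw [Finset.mem_sort]
      exact Finsupp.mem_support_iff.2 hx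
  rw [← hfin]
  exact (List.toFinset_sort (· ≤ ·) hnd).2 hle

theorem lst_blowZ {k : ℕ} (hk : 0 < k) (c : Λ →₀ ℤ) :
    lst (blowZ k c) = (blow k (lst c)).map (fun x => (k : ℝ) * x) := by
  have hk' : (k : ℝ) ≠ 0 := by exact_mod_cast hk.ne'
  unfold lst
  rw [sort_blowZ, List.map_flatMap]
  unfold blow
  rw [List.flatMap_map, List.map_flatMap]
  congr 1
  funext x
  rw [List.map_map, List.map_replicate]
  have h1 : (k : ℝ) * (((c x : ℤ) : ℝ) / k) = ((c x : ℤ) : ℝ) := by field_simp
  rw [h1]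
  have h2 : ((fun a => ((blowZ k c a : ℤ) : ℝ)) ∘ fun j : Fin k => toLex (x, j)) =
      fun _ => ((c x : ℤ) : ℝ) := by
    funext j
    simp only [Function.comp]
    rw [blowZ_apply]
  rw [h2, List.map_const']
  simp

theorem SprNorm.fnZ_blowZ (M : SprNorm) {k : ℕ} (hk : 0 < k) (c : Λ →₀ ℤ) :
    M.fnZ (blowZ k c) = k * M.N (blow k (lst c)) := by
  rw [M.fnZ_eq, lst_blowZ hk, M.smul, abs_of_nonneg (Nat.cast_nonneg k)]

theorem SprNorm.inf_fnZ_le (M : SprNorm) {k : ℕ} (hk : 0 < k) (c : Λ →₀ ℤ) :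
    M.inf.fnZ c ≤ M.N (blow k (lst c)) := M.infN_le (lst c) hk

end

theorem SprNorm.blow_dvd_le (M : SprNorm) (l : List ℝ) {k m : ℕ} (h : k ∣ m) (hm : 0 < m) :
    M.N (blow m l) ≤ M.N (blow k l) := by
  obtain ⟨d, rfl⟩ := h
  exact M.blow_mul_le l k (Nat.pos_of_mul_pos_left hm)

/-- The group inequality at length `t` passes from `M` to `M.inf`. -/
theorem SprNorm.inf_group (M : SprNorm) {p K : ℝ} (hp : 0 < p) (hK : 0 ≤ K) (t : ℕ)
    (hM : ∀ (Λ : Type) [LinearOrder Λ] (S : Type) [Fintype S] [Nonempty S] (inv : S → S)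
      (h : S → Λ ≃o Λ) (m : S → Λ →₀ ℤ), (∀ s, inv (inv s) = s) →
      (∀ s, h (inv s) = (h s).symm) → (∀ s, m (inv s) = -(m s).mapDomain (h s).symm) →
      (∑ w : Fin t → S, M.fnZ (bw h m (List.ofFn w)) ^ p) / (Fintype.card S : ℝ) ^ t ≤
        K ^ p * t * ((∑ s, M.fnZ (m s) ^ p) / Fintype.card S)) :
    ∀ (Λ : Type) [LinearOrder Λ] (S : Type) [Fintype S] [Nonempty S] (inv : S → S)
      (h : S → Λ ≃o Λ) (m : S → Λ →₀ ℤ), (∀ s, inv (inv s) = s) →
      (∀ s, h (inv s) = (h s).symm) → (∀ s, m (inv s) = -(m s).mapDomain (h s).symm) →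
      (∑ w : Fin t → S, M.inf.fnZ (bw h m (List.ofFn w)) ^ p) / (Fintype.card S : ℝ) ^ t ≤
        K ^ p * t * ((∑ s, M.inf.fnZ (m s) ^ p) / Fintype.card S) := by
  intro Λ _ S _ _ inv h m h1 h2 h3
  have hn : (0 : ℝ) < Fintype.card S := by exact_mod_cast Fintype.card_pos
  have hKp : 0 ≤ K ^ p * t := mul_nonneg (Real.rpow_nonneg hK p) (Nat.cast_nonneg t)
  -- level `k`
  have key : ∀ k : ℕ, 0 < k →
      (∑ w : Fin t → S, M.inf.fnZ (bw h m (List.ofFn w)) ^ p) / (Fintype.card S : ℝ) ^ t ≤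
        K ^ p * t * ((∑ s, M.N (blow k (lst (m s))) ^ p) / Fintype.card S) := by
    intro k hk
    have hk' : (0 : ℝ) < k := by exact_mod_cast hk
    have hkp : (0 : ℝ) < (k : ℝ) ^ p := Real.rpow_pos_of_pos hk' p
    have h4 := hM (Λ ×ₗ Fin k) S inv (fun s => liftIso k (h s)) (fun s => blowZ k (m s)) h1
      (fun s => by
        rw [h2 s]
        rfl)
      (fun s => by
        rw [h3 s, blowZ_neg, blowZ_mapDomain]
        rfl)
    have e1 : ∀ w : Fin t → S, M.fnZ (bw (fun s => liftIso k (h s)) (fun s => blowZ k (m s))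
        (List.ofFn w)) ^ p = (k : ℝ) ^ p * M.N (blow k (lst (bw h m (List.ofFn w)))) ^ p := by
      intro w
      rw [bw_blowZ, M.fnZ_blowZ hk, Real.mul_rpow hk'.le (M.nonneg _)]
    have e2 : ∀ s, M.fnZ (blowZ k (m s)) ^ p = (k : ℝ) ^ p * M.N (blow k (lst (m s))) ^ p := by
      intro s
      rw [M.fnZ_blowZ hk, Real.mul_rpow hk'.le (M.nonneg _)]
    rw [Finset.sum_congr rfl (fun w _ => e1 w), Finset.sum_congr rfl (fun s _ => e2 s),
      ← Finset.mul_sum, ← Finset.mul_sum, mul_div_assoc, mul_div_assoc, mul_left_comm] at h4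
    have h5 := le_of_mul_le_mul_left h4 hkp
    refine le_trans ?_ h5
    refine div_le_div_of_nonneg_right ?_ (pow_nonneg hn.le t)
    refine Finset.sum_le_sum fun w _ => ?_
    exact Real.rpow_le_rpow (M.inf.nonneg _) (M.inf_fnZ_le hk _) hp.le
  -- with an error
  have key2 : ∀ ε : ℝ, 0 < ε →
      (∑ w : Fin t → S, M.inf.fnZ (bw h m (List.ofFn w)) ^ p) / (Fintype.card S : ℝ) ^ t ≤
        K ^ p * t * ((∑ s, (M.inf.fnZ (m s) + ε) ^ p) / Fintype.card S) := by
    intro ε hε
    choose k hk0 hk using fun s => M.exists_infN (lst (m s)) hε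
    have hprod : 0 < ∏ s, k s := Finset.prod_pos fun s _ => hk0 s
    refine (key _ hprod).trans ?_
    refine mul_le_mul_of_nonneg_left ?_ hKp
    refine div_le_div_of_nonneg_right ?_ hn.le
    refine Finset.sum_le_sum fun s _ => ?_
    refine Real.rpow_le_rpow (M.nonneg _) ?_ hp.le
    exact (M.blow_dvd_le _ (Finset.dvd_prod_of_mem k (Finset.mem_univ s)) hprod).trans (hk s)
  have hcont : Continuous fun ε : ℝ =>
      K ^ p * t * ((∑ s, (M.inf.fnZ (m s) + ε) ^ p) / Fintype.card S) := by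
    refine continuous_const.mul (Continuous.div_const ?_ _)
    refine continuous_finsetSum _ fun s _ => ?_
    exact (continuous_const.add continuous_id).rpow_const fun _ => Or.inr hp.le
  have hlim := (hcont.tendsto 0).mono_left (nhdsWithin_le_nhds (s := Set.Ioi 0))
  simp only [add_zero] at hlim
  refine ge_of_tendsto hlim ?_
  filter_upwards [self_mem_nhdsWithin] with ε hε
  exact key2 ε hε

end

end Crest.Agent.R140
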