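import Mathlib

set_option autoImplicit false

namespace Crest.Agent.R140

open Finset

/-- one-dimensional count: at least `R - |c|` points of `{0,…,R-1}` stay in the box after the
translation by `c`. -/
lemma box_count_one (R : ℕ) (c : ℤ) :
    (R : ℝ) - |(c : ℝ)| ≤
      ((Finset.univ.filter (fun u : Fin R => 0 ≤ (u : ℤ) + c ∧ (u : ℤ) + c < R)).card : ℝ) := by
  have h1 : (Finset.univ.filter (fun u : Fin R => 0 ≤ (u : ℤ) + c ∧ (u : ℤ) + c < R)).card =
      ((Finset.Ico (0 : ℤ) R) ∩ (Finset.Ico (-c) (R - c))).card := by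
    refine Finset.card_bij (fun u _ => (u : ℤ)) ?_ ?_ ?_
    · intro u hu
      simp only [Finset.mem_filter, Finset.mem_univ, true_and] at hu
      simp only [Finset.mem_inter, Finset.mem_Ico]
      have := u.2
      refine ⟨⟨by positivity, by exact_mod_cast this⟩, by omega, by omega⟩
    · intro u _ v _ h
      ext
      exact_mod_cast h
    · intro x hx
      simp only [Finset.mem_inter, Finset.mem_Ico] at hx
      obtain ⟨⟨h0, h2⟩, h3, h4⟩ := hx
      refine ⟨⟨x.toNat, by omega⟩, ?_, ?_⟩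
      · simp only [Finset.mem_filter, Finset.mem_univ, true_and]
        have : ((x.toNat : ℕ) : ℤ) = x := Int.toNat_of_nonneg h0
        rw [this]
        constructor <;> omega
      · exact Int.toNat_of_nonneg h0
  rw [h1, Finset.Ico_inter_Ico, Int.card_Ico]
  have h5 : (R : ℤ) - |c| ≤ ((min (R : ℤ) (R - c) - max 0 (-c)).toNat : ℤ) := by
    rcases le_total 0 c with h | h
    · rw [abs_of_nonneg h, max_eq_left (by omega), min_eq_right (by omega)]
      omega
    · rw [abs_of_nonpos h, max_eq_right (by omega), min_eq_left (by omega)]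
      omega
  have h6 : ((((R : ℤ) - |c| : ℤ)) : ℝ) ≤ ((((min (R : ℤ) (R - c) - max 0 (-c)).toNat : ℤ)) : ℝ) := by
    exact_mod_cast h5
  push_cast at h6
  exact_mod_cast h6

/-- `∏ (1 - a i) ≥ 1 - ∑ a i` for `a i ≥ 0` with truncated factors. -/
lemma one_sub_sum_le_prod_max {ι : Type*} (s : Finset ι) (a : ι → ℝ) (ha : ∀ i ∈ s, 0 ≤ a i) :
    1 - ∑ i ∈ s, a i ≤ ∏ i ∈ s, max (1 - a i) 0 := by
  classical
  induction s using Finset.induction_on with
  | empty => simp
  | insert i s hi ih =>
    rw [Finset.sum_insert hi, Finset.prod_insert hi]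
    have h1 := ih (fun j hj => ha j (Finset.mem_insert_of_mem hj))
    have h2 := ha i (Finset.mem_insert_self i s)
    have h3 : 0 ≤ ∑ j ∈ s, a j := Finset.sum_nonneg (fun j hj => ha j (Finset.mem_insert_of_mem hj))
    have h4 : 0 ≤ ∏ j ∈ s, max (1 - a j) 0 := Finset.prod_nonneg (fun _ _ => le_max_right _ _)
    have h5 : ∏ j ∈ s, max (1 - a j) 0 ≤ 1 := by
      refine Finset.prod_le_one (fun _ _ => le_max_right _ _) (fun j hj => ?_)
      exact max_le (by linarith [ha j (Finset.mem_insert_of_mem hj)]) zero_le_one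
    rcases le_total (1 - a i) 0 with h | h
    · rw [max_eq_right h, zero_mul]
      linarith
    · rw [max_eq_left h]
      nlinarith

/-- **box count**: a box of side `R` translated by `c` overlaps itself in at least the
proportion `1 - |c|₁/R`. -/
lemma box_count (N R : ℕ) (hR : 0 < R) (c : Fin N → ℤ) :
    (R : ℝ) ^ N * (1 - (∑ i, |(c i : ℝ)|) / R) ≤
      ((Finset.univ.filter (fun u : Fin N → Fin R =>
        ∀ i, 0 ≤ (u i : ℤ) + c i ∧ (u i : ℤ) + c i < R)).card : ℝ) := by
  classical
  have hR' : (0 : ℝ) < R := by exact_mod_cast hR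
  have h1 : (Finset.univ.filter (fun u : Fin N → Fin R =>
        ∀ i, 0 ≤ (u i : ℤ) + c i ∧ (u i : ℤ) + c i < R)) =
      Fintype.piFinset (fun i => Finset.univ.filter
        (fun u : Fin R => 0 ≤ (u : ℤ) + c i ∧ (u : ℤ) + c i < R)) := by
    ext u
    simp [Fintype.mem_piFinset]
  rw [h1, Fintype.card_piFinset]
  push_cast
  have h2 : ∀ i, (R : ℝ) * max (1 - |(c i : ℝ)| / R) 0 ≤
      ((Finset.univ.filter (fun u : Fin R => 0 ≤ (u : ℤ) + c i ∧ (u : ℤ) + c i < R)).card : ℝ) := by
    intro i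
    rcases le_total (1 - |(c i : ℝ)| / R) 0 with h | h
    · rw [max_eq_right h, mul_zero]
      positivity
    · rw [max_eq_left h]
      have := box_count_one R (c i)
      have h3 : (R : ℝ) * (1 - |(c i : ℝ)| / R) = (R : ℝ) - |(c i : ℝ)| := by
        field_simp
      rw [h3]
      exact this
  calc (R : ℝ) ^ N * (1 - (∑ i, |(c i : ℝ)|) / R)
      = (R : ℝ) ^ N * (1 - ∑ i, |(c i : ℝ)| / R) := by rw [Finset.sum_div]
    _ ≤ (R : ℝ) ^ N * ∏ i, max (1 - |(c i : ℝ)| / R) 0 := by
        refine mul_le_mul_of_nonneg_left ?_ (by positivity)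
        exact one_sub_sum_le_prod_max _ _ (fun i _ => by positivity)
    _ = ∏ i : Fin N, ((R : ℝ) * max (1 - |(c i : ℝ)| / R) 0) := by
        rw [Finset.prod_mul_distrib, Finset.prod_const, Finset.card_univ, Fintype.card_fin]
    _ ≤ _ := by
        refine Finset.prod_le_prod (fun i _ => ?_) (fun i _ => h2 i)
        exact mul_nonneg hR'.le (le_max_right _ _)

end Crest.Agent.R140
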