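import Mathlib
import Crest.Prelude.Def_MarkovType

set_option autoImplicit false
open Crest.AnalysisR

namespace Crest.Agent.R140

open Finset

/-- average over all words of length `t` in the alphabet `S` (recursive form). -/
noncomputable def wordAvg {S : Type} [Fintype S] : ℕ → (List S → ℝ) → ℝ
  | 0, F => F []
  | t + 1, F => ((Fintype.card S : ℝ))⁻¹ * ∑ s : S, wordAvg t (fun w => F (s :: w))

section wordAvg

variable {S : Type} [Fintype S]

@[simp] lemma wordAvg_zero (F : List S → ℝ) : wordAvg 0 F = F [] := rfl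

lemma wordAvg_succ (t : ℕ) (F : List S → ℝ) :
    wordAvg (t + 1) F = ((Fintype.card S : ℝ))⁻¹ * ∑ s : S, wordAvg t (fun w => F (s :: w)) := rfl

lemma wordAvg_congr (t : ℕ) (F G : List S → ℝ) (h : ∀ w : List S, w.length = t → F w = G w) :
    wordAvg t F = wordAvg t G := by
  induction t generalizing F G with
  | zero => exact h [] rfl
  | succ t ih =>
    rw [wordAvg_succ, wordAvg_succ]
    congr 1
    refine Finset.sum_congr rfl (fun s _ => ih _ _ (fun w hw => h _ (by simp [hw])))

lemma wordAvg_mono (t : ℕ) (F G : List S → ℝ) (h : ∀ w : List S, w.length = t → F w ≤ G w) :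
    wordAvg t F ≤ wordAvg t G := by
  induction t generalizing F G with
  | zero => exact h [] rfl
  | succ t ih =>
    rw [wordAvg_succ, wordAvg_succ]
    refine mul_le_mul_of_nonneg_left ?_ (by positivity)
    exact Finset.sum_le_sum (fun s _ => ih _ _ (fun w hw => h _ (by simp [hw])))

lemma wordAvg_add (t : ℕ) (F G : List S → ℝ) :
    wordAvg t (fun w => F w + G w) = wordAvg t F + wordAvg t G := by
  induction t generalizing F G with
  | zero => rfl
  | succ t ih =>
    rw [wordAvg_succ, wordAvg_succ, wordAvg_succ, ← mul_add, ← Finset.sum_add_distrib]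
    congr 1
    exact Finset.sum_congr rfl (fun s _ => ih _ _)

lemma wordAvg_mul_left (t : ℕ) (c : ℝ) (F : List S → ℝ) :
    wordAvg t (fun w => c * F w) = c * wordAvg t F := by
  induction t generalizing F with
  | zero => rfl
  | succ t ih =>
    rw [wordAvg_succ, wordAvg_succ, mul_left_comm]
    congr 1
    rw [Finset.mul_sum]
    exact Finset.sum_congr rfl (fun s _ => ih _)

lemma wordAvg_sub (t : ℕ) (F G : List S → ℝ) :
    wordAvg t (fun w => F w - G w) = wordAvg t F - wordAvg t G := by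
  have h1 := wordAvg_add t F (fun w => (-1) * G w)
  rw [wordAvg_mul_left] at h1
  rw [wordAvg_congr t (fun w => F w - G w) (fun w => F w + (-1) * G w) (fun w _ => by ring), h1]
  ring

lemma wordAvg_const [Nonempty S] (t : ℕ) (c : ℝ) : wordAvg (S := S) t (fun _ => c) = c := by
  induction t with
  | zero => rfl
  | succ t ih =>
    rw [wordAvg_succ]
    simp only [ih, Finset.sum_const, Finset.card_univ, nsmul_eq_mul]
    have : (Fintype.card S : ℝ) ≠ 0 := by exact_mod_cast Fintype.card_ne_zero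
    field_simp

lemma wordAvg_nonneg (t : ℕ) (F : List S → ℝ) (h : ∀ w : List S, w.length = t → 0 ≤ F w) :
    0 ≤ wordAvg t F := by
  induction t generalizing F with
  | zero => exact h [] rfl
  | succ t ih =>
    rw [wordAvg_succ]
    exact mul_nonneg (by positivity) (Finset.sum_nonneg (fun s _ => ih _ (fun w hw => h _ (by simp [hw]))))

lemma wordAvg_sum {ι : Type*} (A : Finset ι) (t : ℕ) (F : ι → List S → ℝ) :
    wordAvg t (fun w => ∑ i ∈ A, F i w) = ∑ i ∈ A, wordAvg t (F i) := by
  classical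
  induction A using Finset.induction_on with
  | empty =>
    simp only [Finset.sum_empty]
    have := wordAvg_mul_left (S := S) t 0 (fun _ => 0)
    simpa using this
  | insert a A ha ih =>
    simp only [Finset.sum_insert ha]
    rw [wordAvg_add, ih]

/-- Jensen for the word average: the `p`-th power of the mean is at most the mean of the
`p`-th powers. -/
lemma wordAvg_rpow_le [Nonempty S] (t : ℕ) {p : ℝ} (hp : 1 ≤ p) (F : List S → ℝ)
    (h : ∀ w : List S, 0 ≤ F w) :
    (wordAvg t F) ^ p ≤ wordAvg t (fun w => (F w) ^ p) := by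
  induction t generalizing F with
  | zero => exact le_refl _
  | succ t ih =>
    rw [wordAvg_succ, wordAvg_succ]
    have hc : (0 : ℝ) < (Fintype.card S : ℝ) := by exact_mod_cast Fintype.card_pos
    have h1 : ((Fintype.card S : ℝ)⁻¹ * ∑ s : S, wordAvg t (fun w => F (s :: w))) ^ p ≤
        ∑ s : S, (Fintype.card S : ℝ)⁻¹ * (wordAvg t (fun w => F (s :: w))) ^ p := by
      rw [Finset.mul_sum]
      refine Real.rpow_arith_mean_le_arith_mean_rpow Finset.univ (fun _ => (Fintype.card S : ℝ)⁻¹)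
        (fun s => wordAvg t (fun w => F (s :: w))) (fun _ _ => by positivity) ?_
        (fun s _ => wordAvg_nonneg t _ (fun w _ => h _)) hp
      rw [Finset.sum_const, Finset.card_univ, nsmul_eq_mul]
      field_simp
    refine h1.trans ?_
    rw [← Finset.mul_sum]
    refine mul_le_mul_of_nonneg_left (Finset.sum_le_sum (fun s _ => ih _ (fun w => h _))) (by positivity)

end wordAvg

/-- `Path J w v v'`: some path from `v` to `v'` whose successive steps are labelled by the letters
of the word `w` and have positive weight. -/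
def Path {V S : Type} (J : S → V → V → ℝ) : List S → V → V → Prop
  | [], v, v' => v = v'
  | s :: w, v, v'' => ∃ v', 0 < J s v v' ∧ Path J w v' v''

section chain

variable {X : Type*} [NormedAddCommGroup X] {V S : Type} [Fintype V] [DecidableEq V] [Fintype S]

/-- word matrices of the substochastic kernels `J s v v' / ρ v`. -/
noncomputable def wordMat (J : S → V → V → ℝ) (ρ : V → ℝ) : List S → Matrix V V ℝ
  | [] => 1
  | s :: w => (Matrix.of fun v v' => J s v v' / ρ v) * wordMat J ρ w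

omit [Fintype S] in
lemma wordMat_nonneg (J : S → V → V → ℝ) (ρ : V → ℝ) (hJ0 : ∀ s v v', 0 ≤ J s v v')
    (hρ0 : ∀ v, 0 ≤ ρ v) (w : List S) (v v' : V) : 0 ≤ wordMat J ρ w v v' := by
  induction w generalizing v v' with
  | nil =>
    simp only [wordMat, Matrix.one_apply]
    split_ifs <;> norm_num
  | cons s w ih =>
    simp only [wordMat, Matrix.mul_apply, Matrix.of_apply]
    exact Finset.sum_nonneg (fun i _ => mul_nonneg (div_nonneg (hJ0 _ _ _) (hρ0 _)) (ih _ _))

omit [Fintype S] in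
lemma wordMat_pos_path (J : S → V → V → ℝ) (ρ : V → ℝ) (hJ0 : ∀ s v v', 0 ≤ J s v v')
    (w : List S) (v v' : V) (h : wordMat J ρ w v v' ≠ 0) :
    Path J w v v' := by
  induction w generalizing v v' with
  | nil =>
    simp only [wordMat, Matrix.one_apply] at h
    by_contra hne
    exact h (if_neg hne)
  | cons s w ih =>
    simp only [wordMat, Matrix.mul_apply, Matrix.of_apply] at h
    obtain ⟨u, -, hu⟩ := Finset.exists_ne_zero_of_sum_ne_zero h
    refine ⟨u, ?_, ih _ _ (right_ne_zero_of_mul hu)⟩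
    have h2 := left_ne_zero_of_mul hu
    rcases (hJ0 s v u).lt_or_eq with h3 | h3
    · exact h3
    · exact absurd (by rw [← h3, zero_div]) h2

omit [Fintype S] [DecidableEq V] in
lemma J_div_mul (J : S → V → V → ℝ) (ρ : V → ℝ) (hJ0 : ∀ s v v', 0 ≤ J s v v')
    (hρ : ∀ s v, ∑ v', J s v v' ≤ ρ v) (s : S) (v v' : V) :
    ρ v * (J s v v' / ρ v) = J s v v' := by
  by_cases h : ρ v = 0
  · have h1 : J s v v' ≤ ∑ v', J s v v' :=
      Finset.single_le_sum (f := fun v' => J s v v') (fun i _ => hJ0 s v i) (Finset.mem_univ v')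
    have h2 := hρ s v
    have h3 := hJ0 s v v'
    rw [h] at h2 ⊢
    have : J s v v' = 0 := le_antisymm (h1.trans h2) h3
    rw [this]; simp
  · field_simp

omit [Fintype S] in
/-- row sums of the word matrices are at most one. -/
lemma wordMat_row_le (J : S → V → V → ℝ) (ρ : V → ℝ) (hJ0 : ∀ s v v', 0 ≤ J s v v')
    (hρ0 : ∀ v, 0 ≤ ρ v)
    (hρ : ∀ s v, ∑ v', J s v v' ≤ ρ v) (w : List S) (v : V) :
    ∑ v', wordMat J ρ w v v' ≤ 1 := by
  induction w generalizing v with
  | nil => simp [wordMat, Matrix.one_apply]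
  | cons s w ih =>
    simp only [wordMat, Matrix.mul_apply, Matrix.of_apply]
    rw [Finset.sum_comm]
    calc ∑ y, ∑ x, J s v y / ρ v * wordMat J ρ w y x
        = ∑ y, J s v y / ρ v * ∑ x, wordMat J ρ w y x := by
          refine Finset.sum_congr rfl (fun y _ => ?_)
          rw [Finset.mul_sum]
      _ ≤ ∑ y, J s v y / ρ v * 1 := by
          refine Finset.sum_le_sum (fun y _ => mul_le_mul_of_nonneg_left (ih y)
            (div_nonneg (hJ0 _ _ _) (hρ0 _)))
      _ = (∑ y, J s v y) / ρ v := by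
          simp only [mul_one]
          rw [Finset.sum_div]
      _ ≤ 1 := by
          exact div_le_one_of_le₀ (hρ s v) (hρ0 v)

/-- the loss of mass along a word. -/
lemma wordMat_mass (J : S → V → V → ℝ) (ρ : V → ℝ) (inv : S → S)
    (hJ0 : ∀ s v v', 0 ≤ J s v v') (hJs : ∀ s v v', J s v v' = J (inv s) v' v)
    (hρ0 : ∀ v, 0 ≤ ρ v)
    (hρ : ∀ s v, ∑ v', J s v v' ≤ ρ v) (w : List S) :
    ∑ v, ρ v - w.length * ∑ v, ∑ s, (ρ v - ∑ v', J s v v') ≤
      ∑ v, ρ v * ∑ v', wordMat J ρ w v v' := by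
  induction w with
  | nil => simp [wordMat, Matrix.one_apply]
  | cons s w ih =>
    have e1 : ∑ v, ρ v * ∑ v', wordMat J ρ (s :: w) v v' =
        ∑ y, (∑ v', J (inv s) y v') * ∑ x, wordMat J ρ w y x := by
      simp only [wordMat, Matrix.mul_apply, Matrix.of_apply]
      calc ∑ v, ρ v * ∑ v', ∑ y, J s v y / ρ v * wordMat J ρ w y v'
          = ∑ v, ∑ y, J s v y * ∑ v', wordMat J ρ w y v' := by
            refine Finset.sum_congr rfl (fun v _ => ?_)
            rw [Finset.sum_comm, Finset.mul_sum]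
            refine Finset.sum_congr rfl (fun y _ => ?_)
            rw [← Finset.mul_sum, ← mul_assoc, J_div_mul J ρ hJ0 hρ]
        _ = ∑ y, ∑ v, J s v y * ∑ v', wordMat J ρ w y v' := Finset.sum_comm
        _ = _ := by
            refine Finset.sum_congr rfl (fun y _ => ?_)
            rw [← Finset.sum_mul]
            congr 1
            exact Finset.sum_congr rfl (fun v _ => hJs s v y)
    rw [e1]
    have e2 : ∑ y, ρ y * (∑ x, wordMat J ρ w y x) - ∑ v, ∑ s, (ρ v - ∑ v', J s v v') ≤
        ∑ y, (∑ v', J (inv s) y v') * ∑ x, wordMat J ρ w y x := by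
      rw [← Finset.sum_sub_distrib]
      refine Finset.sum_le_sum (fun y _ => ?_)
      have a1 := wordMat_row_le J ρ hJ0 hρ0 hρ w y
      have a0 : 0 ≤ ∑ x, wordMat J ρ w y x :=
        Finset.sum_nonneg (fun x _ => wordMat_nonneg J ρ hJ0 hρ0 w y x)
      have a2 : ρ y - ∑ v', J (inv s) y v' ≤ ∑ s, (ρ y - ∑ v', J s y v') :=
        Finset.single_le_sum (f := fun s => ρ y - ∑ v', J s y v')
          (fun i _ => sub_nonneg.2 (hρ i y)) (Finset.mem_univ (inv s))
      have a3 : 0 ≤ ρ y - ∑ v', J (inv s) y v' := sub_nonneg.2 (hρ _ _)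
      nlinarith
    have e3 : ((s :: w).length : ℝ) = (w.length : ℝ) + 1 := by simp
    rw [e3]
    nlinarith

lemma wordAvg_wordMat (J : S → V → V → ℝ) (ρ : V → ℝ) (t : ℕ) (v v' : V) :
    ((Matrix.of fun v v' => (Fintype.card S : ℝ)⁻¹ * ∑ s, J s v v' / ρ v : Matrix V V ℝ) ^ t) v v' =
      wordAvg t (fun w => wordMat J ρ w v v') := by
  induction t generalizing v v' with
  | zero => simp [wordMat]
  | succ t ih =>
    rw [pow_succ', Matrix.mul_apply, wordAvg_succ]
    simp only [wordMat, Matrix.mul_apply, Matrix.of_apply]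
    have : ∀ s : S, wordAvg t (fun w => ∑ j, J s v j / ρ v * wordMat J ρ w j v') =
        ∑ j, J s v j / ρ v * wordAvg t (fun w => wordMat J ρ w j v') := by
      intro s
      rw [wordAvg_sum]
      exact Finset.sum_congr rfl (fun j _ => wordAvg_mul_left t _ _)
    simp only [this]
    rw [Finset.sum_comm, Finset.mul_sum]
    refine Finset.sum_congr rfl (fun j _ => ?_)
    rw [ih, ← Finset.sum_mul]
    ring

/-- entrywise monotonicity of powers of nonnegative matrices. -/
lemma pow_entry_mono (A B : Matrix V V ℝ) (hA : ∀ i j, 0 ≤ A i j) (hAB : ∀ i j, A i j ≤ B i j)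
    (t : ℕ) (i j : V) : 0 ≤ (A ^ t) i j ∧ (A ^ t) i j ≤ (B ^ t) i j := by
  induction t generalizing i j with
  | zero =>
    simp only [pow_zero, Matrix.one_apply]
    constructor
    · split_ifs <;> norm_num
    · exact le_refl _
  | succ t ih =>
    rw [pow_succ', pow_succ', Matrix.mul_apply, Matrix.mul_apply]
    constructor
    · exact Finset.sum_nonneg (fun k _ => mul_nonneg (hA _ _) (ih _ _).1)
    · refine Finset.sum_le_sum (fun k _ => ?_)
      exact mul_le_mul (hAB _ _) (ih _ _).2 (ih _ _).1 ((hA _ _).trans (hAB _ _))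

/-- **Abstract chain inequality.**  `J s` are nonnegative kernels on a finite set `V`, symmetric up
to the involution `inv`, with all row sums at most `ρ`. If the displacement of `f` along every
path labelled by the word `w` is a function `D w v` of the word and the starting point, Markov type
gives the displayed inequality with an explicit loss term. -/
theorem chain_ineq {p K : ℝ} (hX : HasMarkovType X p K) (hp : 1 < p) (hK : 0 < K) [Nonempty S]
    (inv : S → S) (J : S → V → V → ℝ)
    (hJ0 : ∀ s v v', 0 ≤ J s v v') (hJs : ∀ s v v', J s v v' = J (inv s) v' v)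
    (hinv : ∀ s, inv (inv s) = s)
    (ρ : V → ℝ) (hρ : ∀ s v, ∑ v', J s v v' ≤ ρ v)
    (f : V → X) (t : ℕ) (ht : 1 ≤ t) (D : List S → V → ℝ)
    (hD : ∀ w v v', w.length = t → Path J w v v' → ‖f v' - f v‖ ^ p = D w v)
    (hD0 : ∀ w v, w.length = t → 0 ≤ D w v) (B : ℝ) (hDB : ∀ w v, w.length = t → D w v ≤ B) :
    wordAvg t (fun w => ∑ v, ρ v * D w v) ≤
      K ^ p * t * ((Fintype.card S : ℝ)⁻¹ * ∑ s, ∑ v, ∑ v', J s v v' * ‖f v' - f v‖ ^ p)
        + B * t * ∑ v, ∑ s, (ρ v - ∑ v', J s v v') := by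
  classical
  have hρ0 : ∀ v, 0 ≤ ρ v := fun v =>
    (Finset.sum_nonneg (fun v' _ => hJ0 (Classical.arbitrary S) v v')).trans (hρ _ v)
  have hc : (0 : ℝ) < (Fintype.card S : ℝ) := by exact_mod_cast Fintype.card_pos
  set c : ℝ := (Fintype.card S : ℝ)⁻¹ with hcdef
  have hc0 : 0 < c := by positivity
  -- loss estimate for one word
  have hB0 : IsEmpty V ∨ 0 ≤ B := by
    rcases isEmpty_or_nonempty V with h | ⟨⟨v⟩⟩
    · exact Or.inl h
    · right
      have h1 := hD0 (List.replicate t (Classical.arbitrary S)) v (by simp)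
      have h2 := hDB (List.replicate t (Classical.arbitrary S)) v (by simp)
      linarith
  have hloss : ∀ w : List S, w.length = t →
      ∑ v, ρ v * D w v ≤ ∑ v, ∑ v', ρ v * (wordMat J ρ w v v' * ‖f v' - f v‖ ^ p)
        + B * t * ∑ v, ∑ s, (ρ v - ∑ v', J s v v') := by
    intro w hw
    rcases hB0 with hV | hB
    · simp
    have hm := wordMat_mass J ρ inv hJ0 hJs hρ0 hρ w
    rw [hw] at hm
    have e1 : ∀ v, ∑ v', ρ v * (wordMat J ρ w v v' * ‖f v' - f v‖ ^ p) =
        ρ v * D w v * ∑ v', wordMat J ρ w v v' := by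
      intro v
      rw [Finset.mul_sum]
      refine Finset.sum_congr rfl (fun v' _ => ?_)
      by_cases h : wordMat J ρ w v v' = 0
      · rw [h]; ring
      · rw [hD w v v' hw (wordMat_pos_path J ρ hJ0 w v v' h)]; ring
    simp only [e1]
    have e2 : ∑ v, ρ v * D w v - ∑ v, ρ v * D w v * ∑ v', wordMat J ρ w v v' ≤
        B * (∑ v, ρ v - ∑ v, ρ v * ∑ v', wordMat J ρ w v v') := by
      rw [← Finset.sum_sub_distrib, ← Finset.sum_sub_distrib, Finset.mul_sum]
      refine Finset.sum_le_sum (fun v _ => ?_)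
      have a1 := wordMat_row_le J ρ hJ0 hρ0 hρ w v
      have a2 : ρ v * D w v - ρ v * D w v * ∑ v', wordMat J ρ w v v' =
        D w v * (ρ v * (1 - ∑ v', wordMat J ρ w v v')) := by ring
      have a3 : B * (ρ v - ρ v * ∑ v', wordMat J ρ w v v') =
        B * (ρ v * (1 - ∑ v', wordMat J ρ w v v')) := by ring
      rw [a2, a3]
      exact mul_le_mul_of_nonneg_right (hDB w v hw) (mul_nonneg (hρ0 v) (by linarith))
    have e3 : B * (∑ v, ρ v - ∑ v, ρ v * ∑ v', wordMat J ρ w v v') ≤
        B * (t * ∑ v, ∑ s, (ρ v - ∑ v', J s v v')) := by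
      refine mul_le_mul_of_nonneg_left (by linarith) hB
    linarith [mul_assoc B (t : ℝ) (∑ v, ∑ s, (ρ v - ∑ v', J s v v'))]
  have h1 : wordAvg t (fun w => ∑ v, ρ v * D w v) ≤
      wordAvg t (fun w => ∑ v, ∑ v', ρ v * (wordMat J ρ w v v' * ‖f v' - f v‖ ^ p))
        + B * t * ∑ v, ∑ s, (ρ v - ∑ v', J s v v') := by
    have h2 := wordAvg_mono t _ _ hloss
    rw [wordAvg_add, wordAvg_const] at h2
    exact h2
  refine h1.trans ?_
  gcongr
  -- the total mass
  set R : ℝ := ∑ v, ρ v with hR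
  have hR0 : 0 ≤ R := Finset.sum_nonneg (fun v _ => hρ0 v)
  have hJJ : 0 ≤ ∑ s, ∑ v, ∑ v', J s v v' * ‖f v' - f v‖ ^ p :=
    Finset.sum_nonneg (fun s _ => Finset.sum_nonneg (fun v _ => Finset.sum_nonneg
      (fun v' _ => mul_nonneg (hJ0 _ _ _) (Real.rpow_nonneg (norm_nonneg _) _))))
  rcases hR0.eq_or_lt with hR1 | hR1
  · -- zero mass
    have hz : ∀ v, ρ v = 0 := by
      intro v
      have := (Finset.sum_eq_zero_iff_of_nonneg (fun v _ => hρ0 v)).1 hR1.symm
      exact this v (Finset.mem_univ v)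
    simp only [hz, zero_mul, Finset.sum_const_zero]
    rw [wordAvg_const]
    have : 0 ≤ K ^ p := Real.rpow_nonneg hK.le _
    positivity
  -- the chain
  let A : V → V → ℝ := fun v v' => c * ∑ s, J s v v'
  let Q : Matrix V V ℝ := Matrix.of fun v v' => c * ∑ s, J s v v' / ρ v
  let P : Matrix V V ℝ := Matrix.of fun v v' =>
    Q v v' + if v = v' then 1 - ∑ y, Q v y else 0
  have hQ0 : ∀ v v', 0 ≤ Q v v' := fun v v' =>
    mul_nonneg hc0.le (Finset.sum_nonneg (fun s _ => div_nonneg (hJ0 _ _ _) (hρ0 _)))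
  have hQρ : ∀ v v', ρ v * Q v v' = A v v' := by
    intro v v'
    simp only [Q, A, Matrix.of_apply]
    rw [mul_left_comm, Finset.mul_sum]
    congr 1
    exact Finset.sum_congr rfl (fun s _ => J_div_mul J ρ hJ0 hρ s v v')
  have hQ1 : ∀ v, ∑ y, Q v y ≤ 1 := by
    intro v
    simp only [Q, Matrix.of_apply]
    rw [← Finset.mul_sum, Finset.sum_comm]
    have : ∀ s, ∑ y, J s v y / ρ v ≤ 1 := by
      intro s
      rw [← Finset.sum_div]
      exact div_le_one_of_le₀ (hρ s v) (hρ0 v)
    calc c * ∑ s, ∑ y, J s v y / ρ v ≤ c * ∑ s : S, 1 :=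
          mul_le_mul_of_nonneg_left (Finset.sum_le_sum (fun s _ => this s)) hc0.le
      _ = 1 := by
          rw [Finset.sum_const, Finset.card_univ, nsmul_eq_mul, mul_one, hcdef]
          field_simp
  have hPnn : ∀ i j, 0 ≤ P i j := by
    intro i j
    simp only [P, Matrix.of_apply]
    refine add_nonneg (hQ0 i j) ?_
    split_ifs
    · linarith [hQ1 i]
    · exact le_refl _
  have hPQ : ∀ i j, Q i j ≤ P i j := by
    intro i j
    simp only [P, Matrix.of_apply]
    have : 0 ≤ (if i = j then 1 - ∑ y, Q i y else 0) := by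
      split_ifs
      · linarith [hQ1 i]
      · exact le_refl _
    simp only [Q, Matrix.of_apply] at this ⊢
    linarith
  have hP1 : ∀ i, ∑ j, P i j = 1 := by
    intro i
    simp only [P, Matrix.of_apply]
    rw [Finset.sum_add_distrib]
    simp
  have hAs : ∀ v v', A v v' = A v' v := by
    intro v v'
    simp only [A]
    congr 1
    let e : S ≃ S := ⟨inv, inv, hinv, hinv⟩
    rw [← Equiv.sum_comp e (fun s => J s v' v)]
    refine Finset.sum_congr rfl (fun s _ => ?_)
    exact hJs s v v'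
  have hrev : ∀ i j, ρ i / R * P i j = ρ j / R * P j i := by
    intro i j
    have h3 : ρ i * P i j = ρ j * P j i := by
      simp only [P, Matrix.of_apply]
      rw [mul_add, mul_add]
      have q1 := hQρ i j
      have q2 := hQρ j i
      simp only [Q, Matrix.of_apply] at q1 q2 ⊢
      rw [q1, q2, hAs i j]
      congr 1
      by_cases hij : i = j
      · subst hij; rfl
      · rw [if_neg hij, if_neg (Ne.symm hij)]; simp
    rw [div_mul_eq_mul_div, div_mul_eq_mul_div, h3]
  have hMT := hX V (fun v => ρ v / R) P (fun i => div_nonneg (hρ0 i) hR0)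
    (by rw [← Finset.sum_div]; exact div_self hR1.ne') hPnn hP1 hrev f t ht
  -- right side
  have hRHS : ∑ i, ∑ j, ρ i / R * P i j * ‖f j - f i‖ ^ p ≤
      R⁻¹ * (c * ∑ s, ∑ v, ∑ v', J s v v' * ‖f v' - f v‖ ^ p) := by
    have h4 : ∀ i j, ρ i / R * P i j * ‖f j - f i‖ ^ p ≤ R⁻¹ * (A i j * ‖f j - f i‖ ^ p)
        ∨ i = j := by
      intro i j
      by_cases hij : i = j
      · exact Or.inr hij
      left
      simp only [P, Matrix.of_apply, if_neg hij, add_zero]
      have q1 := hQρ i j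
      simp only [Q, Matrix.of_apply] at q1
      rw [← q1]
      have : ρ i / R * (c * ∑ s, J s i j / ρ i) * ‖f j - f i‖ ^ p =
        R⁻¹ * (ρ i * (c * ∑ s, J s i j / ρ i) * ‖f j - f i‖ ^ p) := by
        rw [div_eq_mul_inv]; ring
      exact this.le
    have hp0 : p ≠ 0 := by linarith
    have h5 : ∀ i j, ρ i / R * P i j * ‖f j - f i‖ ^ p ≤ R⁻¹ * (A i j * ‖f j - f i‖ ^ p) := by
      intro i j
      rcases h4 i j with h | h
      · exact h
      · subst h
        rw [sub_self, norm_zero, Real.zero_rpow hp0]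
        simp
    refine (Finset.sum_le_sum (fun i _ => Finset.sum_le_sum (fun j _ => h5 i j))).trans ?_
    refine le_of_eq ?_
    simp only [A, mul_assoc, ← Finset.mul_sum]
    congr 2
    simp only [Finset.sum_mul]
    calc ∑ i, ∑ j, ∑ s, J s i j * ‖f j - f i‖ ^ p
        = ∑ i, ∑ s, ∑ j, J s i j * ‖f j - f i‖ ^ p :=
          Finset.sum_congr rfl (fun i _ => Finset.sum_comm)
      _ = ∑ s, ∑ i, ∑ j, J s i j * ‖f j - f i‖ ^ p := Finset.sum_comm
  -- left side
  have hLHS : R⁻¹ * wordAvg t (fun w => ∑ v, ∑ v', ρ v * (wordMat J ρ w v v' * ‖f v' - f v‖ ^ p)) ≤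
      ∑ i, ∑ j, ρ i / R * (P ^ t) i j * ‖f j - f i‖ ^ p := by
    have h6 : wordAvg t (fun w => ∑ v, ∑ v', ρ v * (wordMat J ρ w v v' * ‖f v' - f v‖ ^ p)) =
        ∑ v, ∑ v', ρ v * (Q ^ t) v v' * ‖f v' - f v‖ ^ p := by
      rw [wordAvg_sum]
      refine Finset.sum_congr rfl (fun v _ => ?_)
      rw [wordAvg_sum]
      refine Finset.sum_congr rfl (fun v' _ => ?_)
      have := wordAvg_wordMat J ρ t v v'
      simp only [Q]
      rw [this, mul_assoc, mul_comm (wordAvg t _) (_ : ℝ), ← wordAvg_mul_left, ← wordAvg_mul_left]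
      exact wordAvg_congr t _ _ (fun w _ => by ring)
    rw [h6, Finset.mul_sum]
    refine Finset.sum_le_sum (fun i _ => ?_)
    rw [Finset.mul_sum]
    refine Finset.sum_le_sum (fun j _ => ?_)
    have h7 := (pow_entry_mono Q P hQ0 hPQ t i j).2
    have h8 : R⁻¹ * (ρ i * (Q ^ t) i j * ‖f j - f i‖ ^ p) =
      (ρ i / R * ‖f j - f i‖ ^ p) * (Q ^ t) i j := by
      rw [div_eq_mul_inv]; ring
    have h9 : ρ i / R * (P ^ t) i j * ‖f j - f i‖ ^ p =
      (ρ i / R * ‖f j - f i‖ ^ p) * (P ^ t) i j := by ring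
    rw [h8, h9]
    exact mul_le_mul_of_nonneg_left h7
      (mul_nonneg (div_nonneg (hρ0 i) hR0) (Real.rpow_nonneg (norm_nonneg _) _))
  have hKp : 0 ≤ K ^ p := Real.rpow_nonneg hK.le _
  have hfin : R⁻¹ * wordAvg t (fun w => ∑ v, ∑ v', ρ v * (wordMat J ρ w v v' * ‖f v' - f v‖ ^ p)) ≤
      R⁻¹ * (K ^ p * t * (c * ∑ s, ∑ v, ∑ v', J s v v' * ‖f v' - f v‖ ^ p)) := by
    refine hLHS.trans (hMT.trans ?_)
    calc K ^ p * t * ∑ i, ∑ j, ρ i / R * P i j * ‖f j - f i‖ ^ p
        ≤ K ^ p * t * (R⁻¹ * (c * ∑ s, ∑ v, ∑ v', J s v v' * ‖f v' - f v‖ ^ p)) :=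
          mul_le_mul_of_nonneg_left hRHS (by positivity)
      _ = _ := by ring
  exact le_of_mul_le_mul_left hfin (inv_pos.2 hR1)

end chain

end Crest.Agent.R140
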