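import Mathlib
import Crest.Agent.R140.Chain

set_option autoImplicit false
open Crest.AnalysisR

namespace Crest.Agent.R140

open Finset

/-- the recursive word average is the average over `Fin t → S`. -/
lemma wordAvg_eq_sum {S : Type} [Fintype S] (t : ℕ) (F : List S → ℝ) :
    wordAvg t F = (∑ w : Fin t → S, F (List.ofFn w)) / (Fintype.card S : ℝ) ^ t := by
  induction t generalizing F with
  | zero => simp
  | succ t ih =>
    rw [wordAvg_succ]
    simp only [ih]
    rw [← (Fin.consEquiv (fun _ => S)).sum_comp, Fintype.sum_prod_type]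
    simp only [Fin.consEquiv, Equiv.coe_fn_mk]
    rw [← Finset.sum_div, pow_succ', div_eq_mul_inv, div_eq_mul_inv, mul_inv]
    have : ∀ (s : S) (w : Fin t → S), List.ofFn (Fin.cons (α := fun _ => S) s w) =
        s :: List.ofFn w := by
      intro s w
      rw [List.ofFn_succ]
      simp
    simp only [this]
    ring

/-- displacement along a path from a recursively defined displacement function. -/
lemma path_disp {X : Type*} [AddCommGroup X] {V S : Type} (J : S → V → V → ℝ) (f : V → X)
    (t : ℕ) (E : List S → V → X) (hE0 : ∀ v, E [] v = 0)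
    (hE : ∀ s w v v', w.length < t → 0 < J s v v' → E (s :: w) v = (f v' - f v) + E w v')
    (w : List S) (hw : w.length ≤ t) (v v' : V) (h : Path J w v v') :
    E w v = f v' - f v := by
  induction w generalizing v with
  | nil =>
    have h1 : v = v' := h
    rw [hE0, h1, sub_self]
  | cons s w ih =>
    obtain ⟨u, hu, hp⟩ := h
    have hlen : w.length < t := by
      rw [List.length_cons] at hw
      omega
    have h2 := ih (le_of_lt hlen) u hp
    rw [hE s w v u hlen hu, h2]
    abel

/-- **chain inequality**, displacement form. -/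
theorem chain_ineq_disp {X : Type*} [NormedAddCommGroup X] {V S : Type} [Fintype V]
    [DecidableEq V] [Fintype S] {p K : ℝ} (hX : HasMarkovType X p K) (hp : 1 < p) (hK : 0 < K)
    [Nonempty S] (inv : S → S) (J : S → V → V → ℝ)
    (hJ0 : ∀ s v v', 0 ≤ J s v v') (hJs : ∀ s v v', J s v v' = J (inv s) v' v)
    (hinv : ∀ s, inv (inv s) = s)
    (ρ : V → ℝ) (hρ : ∀ s v, ∑ v', J s v v' ≤ ρ v)
    (f : V → X) (t : ℕ) (ht : 1 ≤ t) (E : List S → V → X) (hE0 : ∀ v, E [] v = 0)
    (hE : ∀ s w v v', w.length < t → 0 < J s v v' → E (s :: w) v = (f v' - f v) + E w v')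
    (B : ℝ) (hB : ∀ w v, w.length = t → ‖E w v‖ ^ p ≤ B) :
    wordAvg t (fun w => ∑ v, ρ v * ‖E w v‖ ^ p) ≤
      K ^ p * t * ((Fintype.card S : ℝ)⁻¹ * ∑ s, ∑ v, ∑ v', J s v v' * ‖f v' - f v‖ ^ p)
        + B * t * ∑ v, ∑ s, (ρ v - ∑ v', J s v v') := by
  refine chain_ineq hX hp hK inv J hJ0 hJs hinv ρ hρ f t ht (fun w v => ‖E w v‖ ^ p) ?_ ?_ B ?_
  · intro w v v' hw hP
    rw [path_disp J f t E hE0 hE w hw.le v v' hP]
  · intro w v _
    exact Real.rpow_nonneg (norm_nonneg _) _
  · intro w v hw
    exact hB w v hw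

end Crest.Agent.R140
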