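import Crest.Agent.R140.C3J
import Crest.Agent.R140.ChainConv

/-! Row 140, part C3: finite level group inequality -/

set_option autoImplicit false

namespace Crest.Agent.R140.C3

open Crest.Agent.R140 Crest.AnalysisR

/-- spreading hypothesis -/
def SprH {Ω : Type} [Fintype Ω] (μ : Ω → ℝ) (ζ : Ω → ℕ → ℕ) (k n : ℕ) (ε : ℝ) : Prop :=
  ∀ j ≤ k, ∀ i i' : Fin j → ℕ, StrictMono i → StrictMono i' → (∀ a, i a < n) → (∀ a, i' a < n) →
    ∀ F : (Fin j → ℕ) → ℝ, (∀ z, |F z| ≤ 1) →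
      |∑ ω, μ ω * F (fun a => ζ ω (i a)) - ∑ ω, μ ω * F (fun a => ζ ω (i' a))| ≤ ε

/-- the functional on lists -/
noncomputable def QQ {X : Type*} [NormedAddCommGroup X] [NormedSpace ℝ X] (p : ℝ) {Ω A : Type}
    [Fintype Ω] [Fintype A] (μ : Ω → ℝ) (ζ : Ω → ℕ → ℕ) (w : A → ℝ) (x : A → ℕ → X)
    (l : List ℝ) : ℝ :=
  ∑ ω, μ ω * ∑ a, w a * ‖∑ j : Fin l.length, l.get j • x a (ζ ω j)‖ ^ p

/-- list of the coefficients of a finitely supported vector -/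
noncomputable def listOf {Λ : Type*} [LinearOrder Λ] (v : Λ →₀ ℤ) : List ℝ :=
  (v.support.sort (· ≤ ·)).map (fun q => (v q : ℝ))

section spr
variable {Ω : Type} [Fintype Ω] {μ : Ω → ℝ} {ζ : Ω → ℕ → ℕ} {k n : ℕ} {ε : ℝ}

theorem SprH.nonneg (H : SprH μ ζ k n ε) : 0 ≤ ε := by
  have := H 0 (Nat.zero_le _) (fun a => a.elim0) (fun a => a.elim0) (fun a => a.elim0)
    (fun a => a.elim0) (fun a => a.elim0) (fun a => a.elim0) (fun _ => 0) (fun _ => by simp)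
  exact (abs_nonneg _).trans this

theorem SprH.bdd (H : SprH μ ζ k n ε) {j : ℕ} (hj : j ≤ k) {i i' : Fin j → ℕ} (hi : StrictMono i)
    (hi' : StrictMono i') (hn : ∀ a, i a < n) (hn' : ∀ a, i' a < n) (G : (Fin j → ℕ) → ℝ) (M : ℝ)
    (hG : ∀ z, |G z| ≤ M) :
    |av μ (fun ω => G (fun a => ζ ω (i a))) - av μ (fun ω => G (fun a => ζ ω (i' a)))| ≤ M * ε := by
  have hM : 0 ≤ M := (abs_nonneg _).trans (hG (fun _ => 0))
  rcases hM.eq_or_lt with h0 | h0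
  · have : ∀ z, G z = 0 := fun z => by
      have := hG z
      rw [← h0] at this
      exact abs_eq_zero.mp (le_antisymm this (abs_nonneg _))
    simp [av, this, ← h0]
  · have h1 := H j hj i i' hi hi' hn hn' (fun z => G z / M) (fun z => by
      rw [abs_div, abs_of_pos h0, div_le_one h0]
      exact hG z)
    have h2 : ∀ i : Fin j → ℕ, ∑ ω, μ ω * (G (fun a => ζ ω (i a)) / M) =
        av μ (fun ω => G (fun a => ζ ω (i a))) / M := by
      intro i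
      unfold av
      rw [Finset.sum_div]
      exact Finset.sum_congr rfl fun _ _ => by ring
    rw [h2, h2, ← sub_div, abs_div, abs_of_pos h0, div_le_iff₀ h0] at h1
    linarith

end spr

section close
variable {Λ : Type} [LinearOrder Λ] {Ω : Type} [Fintype Ω] {μ : Ω → ℝ} {ζ : Ω → ℕ → ℕ} {k : ℕ}
  {ε : ℝ}

/-- configuration of `Q` inside `Q'` -/
def zr (Q Q' : Finset Λ) (ζ : Ω → ℕ → ℕ) (N : ℕ) (ω : Ω) : Fin Q.card → Fin (N + 1) :=
  fun j => zf ζ N ω (rkF Q' (Q.orderEmbOfFin rfl j))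

theorem rk_strictMono {Q Q' : Finset Λ} (hQ : Q ⊆ Q') :
    StrictMono (fun j : Fin Q.card => rkF Q' (Q.orderEmbOfFin rfl j)) := by
  intro a b hab
  exact rkF_strict (hQ (Finset.orderEmbOfFin_mem Q rfl a)) ((Q.orderEmbOfFin rfl).strictMono hab)

theorem rk_lt' {Q Q' : Finset Λ} (hQ : Q ⊆ Q') {n : ℕ} (hn : Q'.card ≤ n) (j : Fin Q.card) :
    rkF Q' (Q.orderEmbOfFin rfl j) < n :=
  (rkF_lt (hQ (Finset.orderEmbOfFin_mem Q rfl j))).trans_le hn

theorem close_z (H : SprH μ ζ k (2 * k) ε) (N : ℕ) {Q Q₁ Q₂ : Finset Λ} (h1 : Q ⊆ Q₁) (h2 : Q ⊆ Q₂)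
    (c1 : Q₁.card ≤ 2 * k) (c2 : Q₂.card ≤ 2 * k) (hk : Q.card ≤ k)
    (G : (Fin Q.card → Fin (N + 1)) → ℝ) (M : ℝ) (hG : ∀ z, |G z| ≤ M) :
    |av μ (fun ω => G (zr Q Q₁ ζ N ω)) - av μ (fun ω => G (zr Q Q₂ ζ N ω))| ≤ M * ε :=
  H.bdd hk (rk_strictMono h1) (rk_strictMono h2) (rk_lt' h1 c1) (rk_lt' h2 c2)
    (fun z => G (fun a => Fin.ofNat (N + 1) (z a))) M (fun z => hG _)

open Classical in
/-- law of a configuration -/
noncomputable def Pr (μ : Ω → ℝ) (Q Q' : Finset Λ) (ζ : Ω → ℕ → ℕ) (N : ℕ)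
    (z : Fin Q.card → Fin (N + 1)) : ℝ :=
  av μ (fun ω => if z = zr Q Q' ζ N ω then (1 : ℝ) else 0)

theorem sum_Pr (Q Q' : Finset Λ) (N : ℕ) (g : (Fin Q.card → Fin (N + 1)) → ℝ) :
    ∑ z, Pr μ Q Q' ζ N z * g z = av μ (fun ω => g (zr Q Q' ζ N ω)) := by
  classical
  unfold Pr
  rw [Finset.sum_congr rfl fun z _ => (av_mulR μ (g z) _).symm, ← av_sum]
  congr 1
  funext ω
  simp

theorem Pr_nonneg (hμ : ∀ ω, 0 ≤ μ ω) (Q Q' : Finset Λ) (N : ℕ) (z : Fin Q.card → Fin (N + 1)) :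
    0 ≤ Pr μ Q Q' ζ N z := by
  classical
  unfold Pr
  exact av_nonneg hμ fun ω => by split_ifs <;> norm_num

theorem sum_abs_Pr (H : SprH μ ζ k (2 * k) ε) (N : ℕ) {Q Q₁ Q₂ : Finset Λ} (h1 : Q ⊆ Q₁)
    (h2 : Q ⊆ Q₂) (c1 : Q₁.card ≤ 2 * k) (c2 : Q₂.card ≤ 2 * k) (hk : Q.card ≤ k) :
    ∑ z, |Pr μ Q Q₁ ζ N z - Pr μ Q Q₂ ζ N z| ≤ ε := by
  classical
  set σ : (Fin Q.card → Fin (N + 1)) → ℝ :=
    fun z => if 0 ≤ Pr μ Q Q₁ ζ N z - Pr μ Q Q₂ ζ N z then 1 else -1 with hσ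
  have e : ∀ z, |Pr μ Q Q₁ ζ N z - Pr μ Q Q₂ ζ N z| =
      Pr μ Q Q₁ ζ N z * σ z - Pr μ Q Q₂ ζ N z * σ z := by
    intro z
    rw [hσ]
    simp only
    split_ifs with h
    · rw [abs_of_nonneg h]; ring
    · rw [abs_of_neg (not_le.mp h)]; ring
  rw [Finset.sum_congr rfl fun z _ => e z, Finset.sum_sub_distrib, sum_Pr, sum_Pr]
  have := close_z H N h1 h2 c1 c2 hk σ 1 (fun z => by rw [hσ]; simp only; split_ifs <;> simp)
  rw [one_mul] at this
  exact (le_abs_self _).trans this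

end close

section lists
variable {Λ : Type} [LinearOrder Λ] {X : Type*} [NormedAddCommGroup X] [NormedSpace ℝ X]

theorem listOf_length (b : Λ →₀ ℤ) : (listOf b).length = b.support.card := by
  simp [listOf]

theorem sum_listOf (b : Λ →₀ ℤ) (y : ℕ → X) :
    ∑ j : Fin (listOf b).length, (listOf b).get j • y j =
      ∑ j : Fin b.support.card, (b (b.support.orderEmbOfFin rfl j) : ℝ) • y j := by
  refine Fintype.sum_equiv (finCongr (listOf_length b)) _ _ fun j => ?_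
  have h2 : (b.support.orderEmbOfFin rfl (finCongr (listOf_length b) j)) =
      (b.support.sort (· ≤ ·))[(j : ℕ)]'(by
        have := j.isLt.trans_eq (listOf_length b); simpa using this) := by
    rw [Finset.orderEmbOfFin_apply]
    rfl
  rw [h2, List.get_eq_getElem]
  have h3 : (listOf b)[(j : ℕ)]'(j.isLt) = ((b ((b.support.sort (· ≤ ·))[(j : ℕ)]'(by
        have := j.isLt.trans_eq (listOf_length b); simpa using this))) : ℝ) :=
    List.getElem_map (fun q => (b q : ℝ))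
  rw [h3]
  rfl

theorem sum_rank (b : Λ →₀ ℤ) (y : Λ → X) :
    b.sum (fun q c => (c : ℝ) • y q) =
      ∑ j : Fin b.support.card, (b (b.support.orderEmbOfFin rfl j) : ℝ) •
        y (b.support.orderEmbOfFin rfl j) := by
  rw [sum_orderEmb b.support (fun q => (b q : ℝ) • y q)]
  rfl

theorem list_close {Ω : Type} [Fintype Ω] {μ : Ω → ℝ} {ζ : Ω → ℕ → ℕ} {k : ℕ}
    {ε : ℝ} (H : SprH μ ζ k (2 * k) ε) {p : ℝ} (hp : 0 ≤ p) (x : ℕ → X) (hx : ∀ i, ‖x i‖ ≤ 1)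
    (b : Λ →₀ ℤ) (Q : Finset Λ) (hb : b.support ⊆ Q) (hQ : Q.card ≤ 2 * k)
    (hk : b.support.card ≤ k) :
    |av μ (fun ω => ‖b.sum (fun q c => (c : ℝ) • x (ζ ω (rkF Q q)))‖ ^ p) -
      av μ (fun ω => ‖∑ j : Fin (listOf b).length, (listOf b).get j • x (ζ ω j)‖ ^ p)| ≤
      l1 b ^ p * ε := by
  have e1 : (fun ω => ‖b.sum (fun q c => (c : ℝ) • x (ζ ω (rkF Q q)))‖ ^ p) =
      fun ω => (fun z : Fin b.support.card → ℕ =>
        ‖∑ j : Fin b.support.card, (b (b.support.orderEmbOfFin rfl j) : ℝ) • x (z j)‖ ^ p)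
        (fun j => ζ ω (rkF Q (b.support.orderEmbOfFin rfl j))) := by
    funext ω
    rw [sum_rank b (fun q => x (ζ ω (rkF Q q)))]
  have e2 : (fun ω => ‖∑ j : Fin (listOf b).length, (listOf b).get j • x (ζ ω j)‖ ^ p) =
      fun ω => (fun z : Fin b.support.card → ℕ =>
        ‖∑ j : Fin b.support.card, (b (b.support.orderEmbOfFin rfl j) : ℝ) • x (z j)‖ ^ p)
        (fun j => ζ ω (j : ℕ)) := by
    funext ω
    rw [sum_listOf b (fun i => x (ζ ω i))]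
  rw [e1, e2]
  refine H.bdd hk (rk_strictMono hb) (i' := fun j => (j : ℕ)) (fun a b hab => hab) (rk_lt' hb hQ)
    (fun a => by have := a.isLt; omega) (fun z : Fin b.support.card → ℕ =>
        ‖∑ j : Fin b.support.card, (b (b.support.orderEmbOfFin rfl j) : ℝ) • x (z j)‖ ^ p) _ ?_
  intro z
  beta_reduce
  rw [abs_of_nonneg (by positivity)]
  refine Real.rpow_le_rpow (norm_nonneg _) ?_ hp
  refine (norm_sum_le _ _).trans ?_
  unfold l1
  rw [← sum_orderEmb b.support (fun q => |(b q : ℝ)|)]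
  refine Finset.sum_le_sum fun j _ => ?_
  rw [norm_smul, Real.norm_eq_abs]
  have := mul_le_mul_of_nonneg_left (hx (z j)) (abs_nonneg ((b (b.support.orderEmbOfFin rfl j) : ℤ) : ℝ))
  simpa using this

end lists

end Crest.Agent.R140.C3
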