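import Mathlib

/-!
Row 140 (S0191), part C4: the refined norm `Ninf` of an abstract list norm and the
merging inequality (monotone push-forward).
-/

set_option autoImplicit false

namespace Crest.Agent.R140

/-- Abstract norm on finite real lists which is invariant under insertion of zeros. -/
structure ListNorm (N0 : List ℝ → ℝ) : Prop where
  nonneg : ∀ l, 0 ≤ N0 l
  add_le : ∀ l l' : List ℝ, l.length = l'.length →
    N0 (List.zipWith (· + ·) l l') ≤ N0 l + N0 l'
  smul : ∀ (c : ℝ) (l : List ℝ), N0 (l.map (c * ·)) = |c| * N0 l
  zero_ins : ∀ l l' : List ℝ, N0 (l ++ 0 :: l') = N0 (l ++ l')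
  le_l1 : ∀ l : List ℝ, N0 l ≤ (l.map (fun x => |x|)).sum

namespace ListNorm

variable {N0 : List ℝ → ℝ}

theorem zeros_ins (h : ListNorm N0) (A B : List ℝ) (k : ℕ) :
    N0 (A ++ (List.replicate k 0 ++ B)) = N0 (A ++ B) := by
  induction k with
  | zero => simp
  | succ k ih =>
    rw [List.replicate_succ, List.cons_append, h.zero_ins, ih]

/-- `Le N0 l l'` : replacing the block `l'` by the block `l` does not increase `N0`. -/
def Le (N0 : List ℝ → ℝ) (l l' : List ℝ) : Prop :=
  ∀ A B : List ℝ, N0 (A ++ (l ++ B)) ≤ N0 (A ++ (l' ++ B))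

theorem Le.refl (l : List ℝ) : Le N0 l l := fun _ _ => le_rfl

theorem Le.trans {l1 l2 l3 : List ℝ} (h1 : Le N0 l1 l2) (h2 : Le N0 l2 l3) : Le N0 l1 l3 :=
  fun A B => (h1 A B).trans (h2 A B)

theorem Le.append {l1 l2 m1 m2 : List ℝ} (h1 : Le N0 l1 l2) (h2 : Le N0 m1 m2) :
    Le N0 (l1 ++ m1) (l2 ++ m2) := by
  intro A B
  have e1 := h1 A (m1 ++ B)
  have e2 := h2 (A ++ l2) B
  simp only [List.append_assoc] at *
  exact e1.trans e2

theorem Le.flatMap {α : Type*} (l : List α) (f g : α → List ℝ)
    (H : ∀ c ∈ l, Le N0 (f c) (g c)) : Le N0 (l.flatMap f) (l.flatMap g) := by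
  induction l with
  | nil => exact Le.refl _
  | cons c l ih =>
    simp only [List.flatMap_cons]
    exact (H c (by simp)).append (ih (fun x hx => H x (by simp [hx])))

theorem Le.replicate {l l' : List ℝ} (H : Le N0 l l') (n : ℕ) :
    Le N0 ((List.replicate n l).flatten) ((List.replicate n l').flatten) := by
  induction n with
  | zero => exact Le.refl _
  | succ n ih =>
    simp only [List.replicate_succ, List.flatten_cons]
    exact H.append ih

theorem Le.whole {l l' : List ℝ} (H : Le N0 l l') : N0 l ≤ N0 l' := by
  simpa using H [] []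

theorem le_zeros (h : ListNorm N0) (k : ℕ) : Le N0 (List.replicate k 0) [] := by
  intro A B
  rw [h.zeros_ins]
  simp

theorem zeros_le (h : ListNorm N0) (k : ℕ) : Le N0 [] (List.replicate k 0) := by
  intro A B
  rw [h.zeros_ins]
  simp

theorem zipWith_add_map (a b : ℝ) (l : List ℝ) :
    List.zipWith (· + ·) (l.map (a * ·)) (l.map (b * ·)) = l.map ((a + b) * ·) := by
  induction l with
  | nil => simp
  | cons c l ih => simp only [List.map_cons, List.zipWith_cons_cons, ih]; rw [← add_mul]

theorem zipWith_add_one (a : ℝ) (l : List ℝ) :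
    List.zipWith (· + ·) (l.map (a * ·)) l = l.map ((a + 1) * ·) := by
  have := zipWith_add_map a 1 l
  simpa using this

theorem map_zero_mul (l : List ℝ) : l.map ((0 : ℝ) * ·) = List.replicate l.length 0 := by
  induction l with
  | nil => simp
  | cons c l ih =>
    simp only [List.map_cons, zero_mul, List.length_cons, List.replicate_succ]
    simp only [zero_mul] at ih
    rw [ih]

theorem zipWith_add_zeros (l : List ℝ) :
    List.zipWith (· + ·) l (List.replicate l.length 0) = l := by
  induction l with
  | nil => simp
  | cons c l ih => simp [List.replicate_succ, ih]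

theorem zipWith_zeros_add (l : List ℝ) :
    List.zipWith (· + ·) (List.replicate l.length 0) l = l := by
  induction l with
  | nil => simp
  | cons c l ih => simp [List.replicate_succ, ih]

/-- middle lists for the refinement lemma -/
theorem mid_refine (c : ℝ) (j r : ℕ) :
    List.zipWith (· + ·) (List.replicate j c ++ List.replicate (r + 1) (0 : ℝ))
      (List.replicate j 0 ++ c :: List.replicate r 0)
      = List.replicate (j + 1) c ++ List.replicate r 0 := by
  rw [List.zipWith_append (by simp)]
  have h1 : List.zipWith (· + ·) (List.replicate j c) (List.replicate j (0 : ℝ))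
      = List.replicate j c := by
    have := zipWith_add_zeros (List.replicate j c)
    simpa using this
  rw [h1, List.replicate_succ, List.zipWith_cons_cons]
  have h2 : List.zipWith (· + ·) (List.replicate r (0:ℝ)) (List.replicate r (0 : ℝ))
      = List.replicate r 0 := by
    have := zipWith_add_zeros (List.replicate r (0:ℝ))
    simpa using this
  rw [h2, zero_add]
  rw [List.replicate_succ', List.append_assoc]
  rfl

/-- Refinement of an atom into `k` equal atoms does not increase the norm. -/
theorem refine_le (h : ListNorm N0) (c : ℝ) (k : ℕ) (hk : 0 < k) :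
    Le N0 (List.replicate k (c / k)) [c] := by
  intro A B
  -- partial sums
  have key : ∀ j r : ℕ, j + r = k →
      N0 (A.map ((j : ℝ) * ·) ++ ((List.replicate j c ++ List.replicate r 0)
        ++ B.map ((j : ℝ) * ·))) ≤ j * N0 (A ++ ([c] ++ B)) := by
    intro j
    induction j with
    | zero =>
      intro r hr
      simp only [Nat.cast_zero, zero_mul, List.replicate_zero, List.nil_append]
      have h1 := map_zero_mul A
      have h2 := map_zero_mul B
      simp only [zero_mul] at h1 h2
      rw [h1, h2]
      have := h.le_l1 (List.replicate A.length 0 ++ (List.replicate r (0:ℝ)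
        ++ List.replicate B.length 0))
      simpa using this
    | succ j ih =>
      intro r hr
      have ih' := ih (r + 1) (by omega)
      have hU : N0 (A ++ ((List.replicate j 0 ++ c :: List.replicate r 0) ++ B))
          = N0 (A ++ ([c] ++ B)) := by
        simp only [List.append_assoc]
        rw [h.zeros_ins]
        rw [List.cons_append]
        have := h.zeros_ins (A ++ [c]) B r
        simpa using this
      have hadd := h.add_le
        (A.map ((j : ℝ) * ·) ++ ((List.replicate j c ++ List.replicate (r+1) 0)
          ++ B.map ((j : ℝ) * ·)))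
        (A ++ ((List.replicate j 0 ++ c :: List.replicate r 0) ++ B))
        (by simp; omega)
      rw [List.zipWith_append (by simp), List.zipWith_append (by simp),
        mid_refine, zipWith_add_one, zipWith_add_one] at hadd
      push_cast
      rw [hU] at hadd
      linarith
  have hk' := key k 0 (by omega)
  have hkR : (0 : ℝ) < k := by exact_mod_cast hk
  have e : A.map ((k : ℝ) * ·) ++ ((List.replicate k c ++ List.replicate 0 0)
        ++ B.map ((k : ℝ) * ·))
      = (A ++ (List.replicate k (c / k) ++ B)).map ((k : ℝ) * ·) := by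
    simp only [List.map_append, List.map_replicate, List.replicate_zero, List.append_nil]
    rw [mul_div_cancel₀ _ hkR.ne']
  rw [e, h.smul, abs_of_pos hkR] at hk'
  exact le_of_mul_le_mul_left hk' hkR

theorem replicate_flatten_singleton (n : ℕ) (c : ℝ) :
    (List.replicate n [c]).flatten = List.replicate n c := by
  induction n with
  | zero => simp
  | succ n ih => simp [List.replicate_succ, ih]

theorem replicate_flatten_replicate (n k : ℕ) (c : ℝ) :
    (List.replicate n (List.replicate k c)).flatten = List.replicate (n * k) c := by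
  induction n with
  | zero => simp
  | succ n ih =>
    rw [List.replicate_succ, List.flatten_cons, ih, ← List.replicate_add]
    congr 1; ring

theorem refine_rep (h : ListNorm N0) (c : ℝ) (n k : ℕ) (hk : 0 < k) :
    Le N0 (List.replicate (n * k) (c / k)) (List.replicate n c) := by
  have := (h.refine_le c k hk).replicate n
  rwa [replicate_flatten_singleton, replicate_flatten_replicate] at this

theorem rep_comm {α : Type*} (j : ℕ) (x : α) (l : List α) :
    List.replicate j x ++ x :: l = x :: (List.replicate j x ++ l) := by
  induction j with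
  | zero => simp
  | succ j ih => rw [List.replicate_succ, List.cons_append, ih]; rfl

/-- middle lists for the dropping lemma -/
theorem mid_drop (e : ℝ) (j r : ℕ) :
    List.zipWith (· + ·) (e :: (List.replicate j (0:ℝ) ++ (-e) :: List.replicate (r + 1) (0 : ℝ)))
      (List.replicate (j+1) 0 ++ e :: (-e) :: List.replicate r 0)
      = e :: (List.replicate (j + 1) 0 ++ (-e) :: List.replicate r 0) := by
  rw [List.replicate_succ (n := j), List.cons_append, List.zipWith_cons_cons,
    List.zipWith_append (by simp)]
  have h1 : ∀ r : ℕ, List.zipWith (· + ·) (List.replicate r (0:ℝ)) (List.replicate r (0 : ℝ))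
      = List.replicate r 0 := by
    intro r
    have := zipWith_add_zeros (List.replicate r (0:ℝ))
    simpa using this
  rw [h1, List.zipWith_cons_cons, List.replicate_succ (n := r), List.zipWith_cons_cons, h1]
  rw [add_zero, neg_add_cancel, zero_add]
  rw [rep_comm]
  rfl

/-- A pair `e, -e` may be dropped. -/
theorem drop_le (h : ListNorm N0) (e : ℝ) : Le N0 [] [e, -e] := by
  intro A B
  set T := N0 (A ++ ([e, -e] ++ B)) with hT
  have key : ∀ j r : ℕ,
      N0 (A.map (((j + 1 : ℕ) : ℝ) * ·) ++ ((e :: (List.replicate j 0 ++ (-e) ::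
        List.replicate r 0)) ++ B.map (((j + 1 : ℕ) : ℝ) * ·))) ≤ ((j + 1 : ℕ) : ℝ) * T := by
    intro j
    induction j with
    | zero =>
      intro r
      have := h.zeros_ins (A ++ [e, -e]) B r
      simp only [List.append_assoc, List.cons_append, List.nil_append] at this
      simp only [zero_add, Nat.cast_one, one_mul, List.map_id', List.replicate_zero,
        List.nil_append, List.cons_append]
      rw [this, hT]
      simp
    | succ j ih =>
      intro r
      have ih' := ih (r + 1)
      have hU : N0 (A ++ ((List.replicate (j+1) 0 ++ e :: (-e) :: List.replicate r 0) ++ B))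
          = T := by
        rw [hT]
        simp only [List.append_assoc]
        rw [h.zeros_ins]
        have := h.zeros_ins (A ++ [e, -e]) B r
        simpa using this
      have hadd := h.add_le
        (A.map (((j + 1 : ℕ) : ℝ) * ·) ++ ((e :: (List.replicate j 0 ++ (-e) ::
          List.replicate (r + 1) 0)) ++ B.map (((j + 1 : ℕ) : ℝ) * ·)))
        (A ++ ((List.replicate (j+1) 0 ++ e :: (-e) :: List.replicate r 0) ++ B))
        (by simp; omega)
      rw [List.zipWith_append (by simp), List.zipWith_append (by simp; omega),
        mid_drop, zipWith_add_one, zipWith_add_one, hU] at hadd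
      have hc : (((j + 1 + 1 : ℕ)) : ℝ) = ((j + 1 : ℕ) : ℝ) + 1 := by push_cast; ring
      rw [hc]
      linarith
  have main : ∀ j : ℕ, ((j + 1 : ℕ) : ℝ) * N0 (A ++ ([] ++ B)) ≤ ((j + 1 : ℕ) : ℝ) * T + 2 * |e| := by
    intro j
    have h1 := key j 0
    have hadd := h.add_le
      (A.map (((j + 1 : ℕ) : ℝ) * ·) ++ ((e :: (List.replicate j 0 ++ (-e) ::
          List.replicate 0 0)) ++ B.map (((j + 1 : ℕ) : ℝ) * ·)))
      (List.replicate (A.map (((j + 1 : ℕ) : ℝ) * ·)).length 0 ++
        (((-e) :: (List.replicate j 0 ++ e :: List.replicate 0 0)) ++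
          List.replicate (B.map (((j + 1 : ℕ) : ℝ) * ·)).length 0))
      (by simp)
    have hmid : List.zipWith (· + ·) (e :: (List.replicate j (0:ℝ) ++ (-e) ::
          List.replicate 0 0)) ((-e) :: (List.replicate j 0 ++ e :: List.replicate 0 0))
        = List.replicate (j + 2) 0 := by
      rw [List.zipWith_cons_cons, List.zipWith_append (by simp)]
      have h1 : List.zipWith (· + ·) (List.replicate j (0:ℝ)) (List.replicate j (0 : ℝ))
          = List.replicate j 0 := by
        have := zipWith_add_zeros (List.replicate j (0:ℝ))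
        simpa using this
      rw [h1]
      simp only [List.replicate_zero, List.zipWith_cons_cons, List.zipWith_nil_left,
        add_neg_cancel, neg_add_cancel]
      rw [show j + 2 = (j + 1) + 1 from rfl, List.replicate_succ, List.replicate_succ']
    rw [List.zipWith_append (by simp), List.zipWith_append (by simp), hmid,
      zipWith_add_zeros, zipWith_add_zeros, h.zeros_ins] at hadd
    have hR := h.le_l1 (List.replicate (A.map (((j + 1 : ℕ) : ℝ) * ·)).length 0 ++
        (((-e) :: (List.replicate j 0 ++ e :: List.replicate 0 0)) ++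
          List.replicate (B.map (((j + 1 : ℕ) : ℝ) * ·)).length 0))
    have hR2 : ((List.replicate (A.map (((j + 1 : ℕ) : ℝ) * ·)).length 0 ++
        (((-e) :: (List.replicate j 0 ++ e :: List.replicate 0 0)) ++
          List.replicate (B.map (((j + 1 : ℕ) : ℝ) * ·)).length 0)).map (fun x : ℝ => |x|)).sum
        = 2 * |e| := by
      simp; ring
    rw [hR2] at hR
    rw [← List.map_append, h.smul, abs_of_pos (by positivity)] at hadd
    simp only [List.nil_append]
    linarith
  by_contra hcon
  push Not at hcon
  set d := N0 (A ++ ([] ++ B)) - T with hd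
  have hdpos : 0 < d := by rw [hd]; linarith
  obtain ⟨j, hj⟩ := exists_nat_gt (2 * |e| / d)
  have h2 := main j
  rw [div_lt_iff₀ hdpos] at hj
  have h3 : ((j + 1 : ℕ) : ℝ) * d ≤ 2 * |e| := by
    rw [hd]; linarith
  have h4 : (j : ℝ) * d ≤ ((j + 1 : ℕ) : ℝ) * d := by
    apply mul_le_mul_of_nonneg_right _ hdpos.le
    push_cast; linarith
  linarith

/-! ### Units and merging of integers -/

theorem unit_cancel (h : ListNorm N0) (e : ℝ) (a b : ℕ) :
    Le N0 (List.replicate a e) (List.replicate (a + b) e ++ List.replicate b (-e)) := by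
  induction b with
  | zero => simpa using Le.refl (N0 := N0) (List.replicate a e)
  | succ b ih =>
    refine ih.trans ?_
    have e1 : List.replicate (a + (b + 1)) e ++ List.replicate (b + 1) (-e)
        = List.replicate (a + b) e ++ ([e, -e] ++ List.replicate b (-e)) := by
      rw [← add_assoc, List.replicate_succ' (n := a + b), List.replicate_succ (n := b),
        List.append_assoc]
      rfl
    rw [e1]
    have := (Le.refl (N0 := N0) (List.replicate (a + b) e)).append
      ((h.drop_le e).append (Le.refl (N0 := N0) (List.replicate b (-e))))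
    simpa using this

theorem unit_cancel' (h : ListNorm N0) (e : ℝ) (a b : ℕ) :
    Le N0 (List.replicate b (-e)) (List.replicate a e ++ List.replicate (a + b) (-e)) := by
  induction a with
  | zero => simpa using Le.refl (N0 := N0) (List.replicate b (-e))
  | succ a ih =>
    refine ih.trans ?_
    have e1 : List.replicate (a + 1) e ++ List.replicate (a + 1 + b) (-e)
        = List.replicate a e ++ ([e, -e] ++ List.replicate (a + b) (-e)) := by
      rw [show a + 1 + b = (a + b) + 1 by ring, List.replicate_succ' (n := a),
        List.replicate_succ (n := a + b), List.append_assoc]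
      rfl
    rw [e1]
    have := (Le.refl (N0 := N0) (List.replicate a e)).append
      ((h.drop_le e).append (Le.refl (N0 := N0) (List.replicate (a + b) (-e))))
    simpa using this

/-- the list of unit atoms of an integer -/
def unitL (c : ℤ) : List ℝ := List.replicate c.natAbs (c.sign : ℝ)

theorem unitL_nat (k : ℕ) : unitL (k : ℤ) = List.replicate k 1 := by
  unfold unitL
  rcases Nat.eq_zero_or_pos k with hk | hk
  · subst hk; simp
  · rw [Int.sign_eq_one_of_pos (by positivity), Int.natAbs_natCast, Int.cast_one]

theorem unitL_neg_nat (k : ℕ) : unitL (-(k : ℤ)) = List.replicate k (-1) := by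
  unfold unitL
  rcases Nat.eq_zero_or_pos k with hk | hk
  · subst hk; simp
  · rw [Int.sign_neg, Int.sign_eq_one_of_pos (by positivity), Int.natAbs_neg, Int.natAbs_natCast,
      Int.cast_neg, Int.cast_one]

theorem unitL_add_le (h : ListNorm N0) (c d : ℤ) : Le N0 (unitL (c + d)) (unitL c ++ unitL d) := by
  obtain ⟨a, rfl | rfl⟩ := c.eq_nat_or_neg <;> obtain ⟨b, rfl | rfl⟩ := d.eq_nat_or_neg
  · have e1 : (a : ℤ) + b = ((a + b : ℕ) : ℤ) := by push_cast; ring
    rw [e1, unitL_nat, unitL_nat, unitL_nat, List.replicate_add]
    exact Le.refl _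
  · rcases le_total b a with hab | hab
    · obtain ⟨k, rfl⟩ := Nat.exists_eq_add_of_le hab
      have e1 : ((b + k : ℕ) : ℤ) + -(b : ℤ) = (k : ℤ) := by push_cast; ring
      rw [e1, unitL_nat, unitL_nat, unitL_neg_nat, add_comm b k]
      exact h.unit_cancel 1 k b
    · obtain ⟨k, rfl⟩ := Nat.exists_eq_add_of_le hab
      have e1 : (a : ℤ) + -((a + k : ℕ) : ℤ) = -(k : ℤ) := by push_cast; ring
      rw [e1, unitL_nat, unitL_neg_nat, unitL_neg_nat]
      exact h.unit_cancel' 1 a k
  · rcases le_total b a with hab | hab
    · obtain ⟨k, rfl⟩ := Nat.exists_eq_add_of_le hab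
      have e1 : -((b + k : ℕ) : ℤ) + (b : ℤ) = -(k : ℤ) := by push_cast; ring
      rw [e1, unitL_nat, unitL_neg_nat, unitL_neg_nat, add_comm b k]
      have := h.unit_cancel (-1) k b
      rwa [neg_neg] at this
    · obtain ⟨k, rfl⟩ := Nat.exists_eq_add_of_le hab
      have e1 : -(a : ℤ) + ((a + k : ℕ) : ℤ) = (k : ℤ) := by push_cast; ring
      rw [e1, unitL_nat, unitL_nat, unitL_neg_nat]
      have := h.unit_cancel' (-1) a k
      rwa [neg_neg] at this
  · have e1 : (-(a : ℤ) + -(b : ℤ)) = -((a + b : ℕ) : ℤ) := by push_cast; ring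
    rw [e1, unitL_neg_nat, unitL_neg_nat, unitL_neg_nat, List.replicate_add]
    exact Le.refl _

end ListNorm

/-- A list norm for which splitting an atom into equal atoms is an equality. -/
structure SubListNorm (N : List ℝ → ℝ) : Prop extends ListNorm N where
  sub : ∀ (A B : List ℝ) (c : ℝ) (k : ℕ), 0 < k →
    N (A ++ (List.replicate k (c / k) ++ B)) = N (A ++ c :: B)

namespace SubListNorm

open ListNorm

variable {N : List ℝ → ℝ}

theorem unit_eq (h : SubListNorm N) (A B : List ℝ) (c : ℤ) :
    N (A ++ (unitL c ++ B)) = N (A ++ (c : ℝ) :: B) := by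
  rcases eq_or_ne c 0 with hc | hc
  · subst hc
    have := h.zero_ins A B
    simp [unitL, this]
  · have h1 := h.sub A B (c : ℝ) c.natAbs (Int.natAbs_pos.mpr hc)
    rw [← h1]
    unfold unitL
    congr 4
    have h2 : ((c.natAbs : ℕ) : ℝ) = |(c : ℝ)| := by
      rw [← Int.cast_natCast, Int.natCast_natAbs, Int.cast_abs]
    have h3 : (c : ℝ) = (c.sign : ℝ) * (c.natAbs : ℝ) := by
      have := Int.sign_mul_natAbs c
      rw [← Int.cast_natCast, ← Int.cast_mul, this]
    have h4 : ((c.natAbs : ℕ) : ℝ) ≠ 0 := by
      rw [h2]; simpa using hc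
    rw [eq_div_iff h4, ← h3]

/-- Merging of two neighbouring integer atoms. -/
theorem merge_le (h : SubListNorm N) (c d : ℤ) : Le N [((c + d : ℤ) : ℝ)] [(c : ℝ), (d : ℝ)] := by
  intro A B
  have h1 := h.unit_eq A B (c + d)
  have h2 := h.unit_eq A (unitL d ++ B) c
  have h3 := h.unit_eq (A ++ [(c : ℝ)]) B d
  have h4 := h.toListNorm.unitL_add_le c d A B
  simp only [List.append_assoc, List.cons_append, List.nil_append] at *
  rw [← h1, ← h3, ← h2]
  exact h4

theorem merge_list_le (h : SubListNorm N) (l : List ℤ) :
    Le N [((l.sum : ℤ) : ℝ)] (l.map (fun x : ℤ => (x : ℝ))) := by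
  induction l with
  | nil =>
    have := h.toListNorm.le_zeros 1
    simpa using this
  | cons c l ih =>
    rw [List.sum_cons, List.map_cons]
    refine (h.merge_le c l.sum).trans ?_
    have := (Le.refl (N0 := N) [(c : ℝ)]).append ih
    simpa using this

end SubListNorm

end Crest.Agent.R140
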