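import Crest.Agent.R140.Defs
import Crest.Agent.R140.Merge

/-!
Row 140, part C4b: value of a list norm on finitely supported integer functions,
and monotone push-forward.
-/

set_option autoImplicit false

namespace Crest.Agent.R140

open ListNorm

namespace ListNorm

variable {N : List ℝ → ℝ}

theorem filter_eq (h : ListNorm N) (l : List ℝ) : ∀ A : List ℝ,
    N (A ++ l) = N (A ++ l.filter (fun x => x ≠ 0)) := by
  induction l with
  | nil => intro A; simp
  | cons c l ih =>
    intro A
    by_cases hc : c = 0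
    · subst hc
      rw [h.zero_ins, ih A]
      simp
    · rw [List.filter_cons_of_pos (by simpa using hc)]
      have := ih (A ++ [c])
      simpa using this

theorem sort_filter {Λ : Type*} [LinearOrder Λ] (s : Finset Λ) (P : Λ → Prop) [DecidablePred P] :
    (s.filter P).sort (· ≤ ·) = (s.sort (· ≤ ·)).filter (fun x => P x) := by
  have h1 : ((s.sort (· ≤ ·)).filter (fun x => P x)).Nodup := (s.sort_nodup _).filter _
  have h2 := (List.toFinset_sort (· ≤ ·) h1).mpr ((s.pairwise_sort _).filter _)
  rw [← h2]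
  congr 1
  ext x
  simp

/-- general coefficient function, evaluated on any finite set containing the support -/
theorem map_sort_eq (h : ListNorm N) {Λ : Type*} [LinearOrder Λ] (s t : Finset Λ) (f : Λ → ℝ)
    (hst : s ⊆ t) (hf : ∀ x ∈ t, x ∉ s → f x = 0) :
    N ((t.sort (· ≤ ·)).map f) = N ((s.sort (· ≤ ·)).map f) := by
  classical
  have h1 := h.filter_eq ((t.sort (· ≤ ·)).map f) []
  have h2 := h.filter_eq ((s.sort (· ≤ ·)).map f) []
  simp only [List.nil_append] at h1 h2
  rw [h1, h2, List.filter_map, List.filter_map]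
  congr 2
  have e1 := sort_filter t (fun x => f x ≠ 0)
  have e2 := sort_filter s (fun x => f x ≠ 0)
  have e3 : t.filter (fun x => f x ≠ 0) = s.filter (fun x => f x ≠ 0) := by
    ext x
    simp only [Finset.mem_filter]
    constructor
    · rintro ⟨hx, hfx⟩
      refine ⟨?_, hfx⟩
      by_contra hxs
      exact hfx (hf x hx hxs)
    · rintro ⟨hx, hfx⟩
      exact ⟨hst hx, hfx⟩
  rw [e3] at e1
  have e4 := e1.symm.trans e2
  convert e4 using 1
  all_goals
    apply List.filter_congr
    intro x _
    simp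

end ListNorm

/-- Value of a list functional on an integer function. -/
noncomputable def fnZ' (N : List ℝ → ℝ) {Λ : Type*} [LinearOrder Λ] (c : Λ →₀ ℤ) : ℝ :=
  N ((c.support.sort (· ≤ ·)).map (fun x => ((c x : ℤ) : ℝ)))

namespace ListNorm

variable {N : List ℝ → ℝ} {Λ : Type*} [LinearOrder Λ]

theorem fnZ'_eq (h : ListNorm N) (c : Λ →₀ ℤ) (t : Finset Λ) (ht : c.support ⊆ t) :
    fnZ' N c = N ((t.sort (· ≤ ·)).map (fun x => ((c x : ℤ) : ℝ))) := by
  unfold fnZ'
  rw [h.map_sort_eq c.support t _ ht]
  intro x _ hx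
  simpa using hx

theorem fnZ'_nonneg (h : ListNorm N) (c : Λ →₀ ℤ) : 0 ≤ fnZ' N c := h.nonneg _

theorem fnZ'_add_le (h : ListNorm N) (a b : Λ →₀ ℤ) : fnZ' N (a + b) ≤ fnZ' N a + fnZ' N b := by
  classical
  set t := a.support ∪ b.support with ht
  rw [h.fnZ'_eq (a + b) t Finsupp.support_add, h.fnZ'_eq a t Finset.subset_union_left,
    h.fnZ'_eq b t Finset.subset_union_right]
  refine le_trans (le_of_eq ?_) (h.add_le _ _ (by simp))
  congr 1
  induction (t.sort (· ≤ ·)) with
  | nil => simp
  | cons x l ih => simp [ih]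

theorem fnZ'_smul (h : ListNorm N) (n : ℤ) (a : Λ →₀ ℤ) : fnZ' N (n • a) = |(n : ℝ)| * fnZ' N a := by
  rw [h.fnZ'_eq (n • a) a.support Finsupp.support_smul]
  unfold fnZ'
  rw [← h.smul, List.map_map]
  congr 1
  apply List.map_congr_left
  intro x _
  simp

theorem fnZ'_neg (h : ListNorm N) (a : Λ →₀ ℤ) : fnZ' N (-a) = fnZ' N a := by
  have := h.fnZ'_smul (-1) a
  simpa using this

theorem fnZ'_zero (h : ListNorm N) : fnZ' N (0 : Λ →₀ ℤ) = 0 := by
  have := h.fnZ'_smul 0 (0 : Λ →₀ ℤ)
  simpa using this

theorem fnZ'_sum_le (h : ListNorm N) {ι : Type*} (s : Finset ι) (a : ι → Λ →₀ ℤ) :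
    fnZ' N (∑ i ∈ s, a i) ≤ ∑ i ∈ s, fnZ' N (a i) := by
  classical
  induction s using Finset.induction_on with
  | empty => simp [h.fnZ'_zero]
  | insert i s hi ih =>
    rw [Finset.sum_insert hi, Finset.sum_insert hi]
    exact (h.fnZ'_add_le _ _).trans (by linarith)

/-- order embeddings preserve the norm -/
theorem fnZ'_mapDomain_strictMono (h : ListNorm N) {Λ' : Type*} [LinearOrder Λ'] (f : Λ → Λ')
    (hf : StrictMono f) (a : Λ →₀ ℤ) : fnZ' N (a.mapDomain f) = fnZ' N a := by
  classical
  rw [h.fnZ'_eq (a.mapDomain f) (a.support.image f) Finsupp.mapDomain_support]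
  unfold fnZ'
  have e : (a.support.image f).sort (· ≤ ·) = (a.support.sort (· ≤ ·)).map f := by
    have h1 : ((a.support.sort (· ≤ ·)).map f).Nodup :=
      (a.support.sort_nodup _).map hf.injective
    have h2 := (List.toFinset_sort (· ≤ ·) h1).mpr (by
      rw [List.pairwise_map]
      exact (a.support.pairwise_sort _).imp (fun {x y} hxy => hf.monotone hxy))
    rw [← h2]
    congr 1
    ext x
    simp
  rw [e, List.map_map]
  congr 1
  apply List.map_congr_left
  intro x _
  simp [Finsupp.mapDomain_apply hf.injective]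

end ListNorm

namespace SubListNorm

variable {N : List ℝ → ℝ} {Λ : Type*} [LinearOrder Λ]

theorem sort_fibers {Λ' : Type*} [LinearOrder Λ'] (f : Λ → Λ') (hf : Monotone f) (s : Finset Λ) :
    s.sort (· ≤ ·) = ((s.image f).sort (· ≤ ·)).flatMap
      (fun y => (s.filter (fun x => f x = y)).sort (· ≤ ·)) := by
  classical
  set l := ((s.image f).sort (· ≤ ·)).flatMap
      (fun y => (s.filter (fun x => f x = y)).sort (· ≤ ·)) with hl
  have hlt : ((s.image f).sort (· ≤ ·)).Pairwise (· < ·) := by
    have := (s.image f).sortedLT_sort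
    exact this.pairwise
  have hnd : l.Nodup := by
    rw [hl, List.nodup_flatMap]
    refine ⟨fun y _ => Finset.sort_nodup _ _, ?_⟩
    refine hlt.imp ?_
    intro y y' hy
    rw [Function.onFun, List.disjoint_left]
    intro x hx hx'
    simp only [Finset.mem_sort, Finset.mem_filter] at hx hx'
    rw [← hx.2, ← hx'.2] at hy
    exact lt_irrefl _ hy
  have hpw : l.Pairwise (· ≤ ·) := by
    rw [hl, List.pairwise_flatMap]
    refine ⟨fun y _ => Finset.pairwise_sort _ _, ?_⟩
    refine hlt.imp ?_
    intro y y' hy x hx x' hx'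
    simp only [Finset.mem_sort, Finset.mem_filter] at hx hx'
    rw [← hx.2, ← hx'.2] at hy
    by_contra hcon
    push Not at hcon
    exact absurd (hf hcon.le) (not_le.mpr hy)
  rw [← (List.toFinset_sort (· ≤ ·) hnd).mpr hpw]
  congr 1
  ext x
  simp only [hl, List.mem_toFinset, List.mem_flatMap, Finset.mem_sort, Finset.mem_image,
    Finset.mem_filter]
  constructor
  · intro hx
    exact ⟨f x, ⟨x, hx, rfl⟩, hx, rfl⟩
  · rintro ⟨y, _, hx, _⟩
    exact hx

/-- Monotone push-forward does not increase the norm. -/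
theorem fnZ'_mapDomain_le (h : SubListNorm N) {Λ' : Type*} [LinearOrder Λ'] (f : Λ → Λ')
    (hf : Monotone f) (a : Λ →₀ ℤ) : fnZ' N (a.mapDomain f) ≤ fnZ' N a := by
  classical
  set s := a.support with hs
  rw [h.toListNorm.fnZ'_eq (a.mapDomain f) (s.image f) Finsupp.mapDomain_support]
  unfold fnZ'
  rw [← hs, sort_fibers f hf s, List.map_flatMap]
  have e1 : ((s.image f).sort (· ≤ ·)).map (fun y => (((a.mapDomain f) y : ℤ) : ℝ))
      = ((s.image f).sort (· ≤ ·)).flatMap (fun y => [(((a.mapDomain f) y : ℤ) : ℝ)]) := by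
    induction ((s.image f).sort (· ≤ ·)) with
    | nil => simp
    | cons x l ih => simp [ih]
  rw [e1]
  apply Le.whole
  apply Le.flatMap
  intro y _
  have e2 : (a.mapDomain f) y = (((s.filter (fun x => f x = y)).sort (· ≤ ·)).map a).sum := by
    rw [Finsupp.mapDomain, Finsupp.sum_apply, Finsupp.sum]
    have : ((s.filter (fun x => f x = y)).sort (· ≤ ·)).map a
        = ((s.filter (fun x => f x = y)).sort (· ≤ ·)).map (fun x => a x) := rfl
    rw [← List.sum_toFinset _ (Finset.sort_nodup _ _), Finset.sort_toFinset, Finset.sum_filter]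
    apply Finset.sum_congr rfl
    intro x _
    rw [Finsupp.single_apply]
  rw [e2]
  have := h.merge_list_le (((s.filter (fun x => f x = y)).sort (· ≤ ·)).map a)
  rw [List.map_map] at this
  exact this

end SubListNorm

/-! ### Link with the structures of `Defs.lean` -/

theorem SprNorm.listNorm (M : SprNorm) : ListNorm M.N where
  nonneg := M.nonneg
  add_le := M.add
  smul := M.smul
  zero_ins := M.zero
  le_l1 := by
    intro l
    have hz : ∀ (k : ℕ) (A B : List ℝ), M.N (A ++ (List.replicate k 0 ++ B)) = M.N (A ++ B) := by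
      intro k
      induction k with
      | zero => intro A B; simp
      | succ k ih => intro A B; rw [List.replicate_succ, List.cons_append, M.zero, ih]
    have h0 : M.N [] = 0 := by
      have := M.smul 0 []
      simpa using this
    induction l with
    | nil => simp [h0]
    | cons c l ih =>
      have h1 := M.add (c :: List.replicate l.length 0) (0 :: l) (by simp)
      have e1 : List.zipWith (fun x y => x + y) (c :: List.replicate l.length 0) (0 :: l)
          = c :: l := by
        rw [List.zipWith_cons_cons, add_zero, ListNorm.zipWith_zeros_add]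
      have e2 : M.N (0 :: l) = M.N l := by simpa using M.zero [] l
      have e3 : M.N (c :: List.replicate l.length 0) = M.N [c] := by
        have := hz l.length [c] []
        simpa using this
      have e4 : M.N [c] ≤ |c| := by
        have := M.smul c [1]
        simp only [List.map_cons, mul_one, List.map_nil] at this
        rw [this]
        exact mul_le_of_le_one_right (abs_nonneg c) M.single
      rw [e1, e2, e3] at h1
      simp only [List.map_cons, List.sum_cons]
      linarith

theorem SubNorm.subListNorm (M : SubNorm) : SubListNorm M.N where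
  toListNorm := M.toSprNorm.listNorm
  sub := by
    intro A B c k hk
    have := M.sub A B c k hk
    simpa using this

theorem SprNorm.fnZ_eq_fnZ' (M : SprNorm) {Λ : Type*} [LinearOrder Λ] (c : Λ →₀ ℤ) :
    M.fnZ c = fnZ' M.N c := rfl

theorem SprNorm.fnZ_nonneg (M : SprNorm) {Λ : Type*} [LinearOrder Λ] (c : Λ →₀ ℤ) :
    0 ≤ M.fnZ c := M.nonneg _

theorem SprNorm.fnZ_add_le (M : SprNorm) {Λ : Type*} [LinearOrder Λ] (a b : Λ →₀ ℤ) :
    M.fnZ (a + b) ≤ M.fnZ a + M.fnZ b := M.listNorm.fnZ'_add_le a b

theorem SprNorm.fnZ_smul (M : SprNorm) {Λ : Type*} [LinearOrder Λ] (n : ℤ) (a : Λ →₀ ℤ) :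
    M.fnZ (n • a) = |(n : ℝ)| * M.fnZ a := M.listNorm.fnZ'_smul n a

/-- merging of neighbouring integer coefficients -/
theorem SubNorm.merge_int (M : SubNorm) (A B : List ℝ) (c d : ℤ) :
    M.N (A ++ ((c + d : ℤ) : ℝ) :: B) ≤ M.N (A ++ (c : ℝ) :: (d : ℝ) :: B) := by
  have := M.subListNorm.merge_le c d A B
  simpa using this

/-- Monotone push-forward does not increase the norm. -/
theorem SubNorm.fnZ_mapDomain_le (M : SubNorm) {Λ Λ' : Type*} [LinearOrder Λ] [LinearOrder Λ']
    (f : Λ → Λ') (hf : Monotone f) (a : Λ →₀ ℤ) :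
    M.toSprNorm.fnZ (a.mapDomain f) ≤ M.toSprNorm.fnZ a :=
  M.subListNorm.fnZ'_mapDomain_le f hf a

end Crest.Agent.R140
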