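import Crest.Agent.R140.LimNorm
import Crest.Agent.R140.MonoN

/-!
# Row 140: the limit passage of the group inequality (contract theorem `exists_spr`)
-/

set_option autoImplicit false

namespace Crest.Agent.R140.ExistsSpr

open Crest.AnalysisR Crest.Agent.R140 Filter Crest.Agent.R140.LimNorm

/-- The finite-level group inequality (output of C3), as a statement. -/
def GroupLevel (X : Type*) [NormedAddCommGroup X] [NormedSpace ℝ X] (p K : ℝ) : Prop :=
  ∀ (Λ : Type) [LinearOrder Λ] (S : Type) [Fintype S] [Nonempty S] (inv : S → S)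
    (h : S → Λ ≃o Λ) (m : S → Λ →₀ ℤ), (∀ s, inv (inv s) = s) → (∀ s, h (inv s) = (h s).symm) →
    (∀ s, m (inv s) = -(m s).mapDomain (h s).symm) → ∀ (t : ℕ), 1 ≤ t → ∀ (Q : Finset Λ),
    (∀ w : List S, w.length ≤ t → ∀ s, ((m s).mapDomain (hw h w)).support ⊆ Q) →
    ∃ C : ℝ, ∀ (n : ℕ) (ε : ℝ) (Z : Spr n ε) (F : Fam X), 2 * Q.card ≤ n →
      (∑ w : Fin t → S, QF p Z F (coef Q (bw h m (List.ofFn w)))) / (Fintype.card S : ℝ) ^ t ≤
        K ^ p * t * ((∑ s, QF p Z F (coef Q (m s))) / Fintype.card S) + C * ε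

theorem hw_append {Λ S : Type*} [LinearOrder Λ] (h : S → Λ ≃o Λ) (s : S) (q : Λ) :
    ∀ u : List S, hw h (u ++ [s]) q = hw h u (h s q) := by
  intro u
  induction u with
  | nil => rfl
  | cons a u ih => simp only [List.cons_append, hw, ih]

theorem support_bw {Λ S : Type*} [LinearOrder Λ] (h : S → Λ ≃o Λ) (m : S → Λ →₀ ℤ) (t : ℕ)
    (Q : Finset Λ)
    (hQ : ∀ w : List S, w.length ≤ t → ∀ s, ((m s).mapDomain (hw h w)).support ⊆ Q) :
    ∀ w u : List S, u.length + w.length ≤ t → ((bw h m w).mapDomain (hw h u)).support ⊆ Q := by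
  classical
  intro w
  induction w with
  | nil => intro u _; simp [bw]
  | cons s w ih =>
    intro u hu
    have e : (bw h m (s :: w)).mapDomain (hw h u) =
        (m s).mapDomain (hw h u) + (bw h m w).mapDomain (hw h (u ++ [s])) := by
      rw [bw, Finsupp.mapDomain_add, ← Finsupp.mapDomain_comp]
      congr 2
      funext q
      exact (hw_append h s q u).symm
    rw [e]
    refine Finsupp.support_add.trans (Finset.union_subset ?_ ?_)
    · exact hQ u (by simp at hu; omega) s
    · exact ih (u ++ [s]) (by simp at hu ⊢; omega)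

theorem exists_Q {Λ S : Type} [LinearOrder Λ] [Fintype S] (h : S → Λ ≃o Λ) (m : S → Λ →₀ ℤ)
    (t : ℕ) : ∃ Q : Finset Λ,
      ∀ w : List S, w.length ≤ t → ∀ s, ((m s).mapDomain (hw h w)).support ⊆ Q := by
  classical
  have hfin : {l : List S | l.length ≤ t}.Finite := List.finite_length_le S t
  refine ⟨(hfin.toFinset ×ˢ (Finset.univ : Finset S)).biUnion
    (fun q => ((m q.2).mapDomain (hw h q.1)).support), fun w hw' s => ?_⟩
  exact Finset.subset_biUnion_of_mem
    (fun q : List S × S => ((m q.2).mapDomain (hw h q.1)).support)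
    (Finset.mem_product.2 ⟨hfin.mem_toFinset.2 hw', Finset.mem_univ s⟩ :
      ((w, s) : List S × S) ∈ _)

theorem QF_coef {X : Type*} [NormedAddCommGroup X] [NormedSpace ℝ X] {p : ℝ} {n : ℕ} {ε : ℝ}
    (Z : Spr n ε) (F : Fam X) {Λ : Type*} [LinearOrder Λ] (Q : Finset Λ) (v : Λ →₀ ℤ) :
    QF p Z F (coef Q v) =
      QF p Z F ((Q.sort (· ≤ ·)).map (fun x => ((v x : ℤ) : ℝ))).get := by
  unfold QF
  refine Finset.sum_congr rfl fun ω _ => ?_
  congr 1
  refine Finset.sum_congr rfl fun a _ => ?_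
  congr 2
  rw [← lin_get (fun j => F.x a (Z.ζ ω j))]
  unfold lin
  rw [Finset.sum_range]
  have hl : ((Q.sort (· ≤ ·)).map (fun x => ((v x : ℤ) : ℝ))).length = Q.card := by simp
  congr 1
  rw [← (finCongr hl).symm.sum_comp]
  refine Finset.sum_congr rfl fun j _ => ?_
  have hj : (j : ℕ) < ((Q.sort (· ≤ ·)).map (fun x => ((v x : ℤ) : ℝ))).length := by
    rw [hl]; exact j.2
  simp only [finCongr_symm, finCongr_apply, Fin.val_cast]
  rw [List.getD_eq_getElem _ _ hj, List.getElem_map]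
  unfold coef
  rw [Finset.orderEmbOfFin_apply]
  rfl

/-- **Contract between {C2, C3} and {C4, C5}**, with the finite-level inequality as hypothesis. -/
theorem exists_spr_of {X : Type*} [NormedAddCommGroup X] [NormedSpace ℝ X] {p K θ : ℝ}
    (hG : GroupLevel X p K) (hp : 1 < p) (hsep : ∀ n, SepFam X θ n) :
    ∃ M : SprNorm, (∀ m : ℕ, θ * m ≤ M.N (List.replicate m 1 ++ List.replicate m (-1))) ∧
      (∀ (L : Type) [LinearOrder L] (S : Type) [Fintype S] [Nonempty S] (inv : S → S)
        (h : S → L ≃o L) (m : S → L →₀ ℤ), (∀ s, inv (inv s) = s) →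
        (∀ s, h (inv s) = (h s).symm) → (∀ s, m (inv s) = -(m s).mapDomain (h s).symm) →
        ∀ t : ℕ, (∑ w : Fin t → S, M.fnZ (bw h m (List.ofFn w)) ^ p) / (Fintype.card S : ℝ) ^ t ≤
          K ^ p * t * ((∑ s, M.fnZ (m s) ^ p) / Fintype.card S)) := by
  obtain ⟨U, nn, ee, Z, F, M, hn, he, hM, _, hM3⟩ := limNorm (X := X) (p := p) (θ := θ) hp.le hsep
  refine ⟨M, hM3, ?_⟩
  intro L _ S _ _ inv h m h1 h2 h3 t
  rcases Nat.eq_zero_or_pos t with rfl | ht
  · have h0 : M.fnZ (bw h m ([] : List S)) = 0 := by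
      rw [M.fnZ_eq_fnZ']
      exact M.listNorm.fnZ'_zero
    simp [h0, Real.zero_rpow (by linarith : p ≠ 0)]
  obtain ⟨Q, hQ⟩ := exists_Q h m t
  obtain ⟨C, hC⟩ := hG L S inv h m h1 h2 h3 t ht Q hQ
  have key : ∀ v : L →₀ ℤ, v.support ⊆ Q →
      Tendsto (fun r => QF p (Z r) (F r) (coef Q v)) U (nhds (M.fnZ v ^ p)) := by
    intro v hv
    have h4 : M.fnZ v = M.N ((Q.sort (· ≤ ·)).map (fun x => ((v x : ℤ) : ℝ))) := by
      rw [M.fnZ_eq_fnZ']
      exact M.listNorm.fnZ'_eq v Q hv
    rw [h4]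
    simp only [QF_coef]
    exact hM _
  have hb : ∀ w : Fin t → S, (bw h m (List.ofFn w)).support ⊆ Q := by
    intro w
    have := support_bw h m t Q hQ (List.ofFn w) [] (by simp)
    have e : (bw h m (List.ofFn w)).mapDomain (hw h ([] : List S)) = bw h m (List.ofFn w) := by
      have : (hw h ([] : List S)) = (id : L → L) := by
        funext q; rfl
      rw [this, Finsupp.mapDomain_id]
    rwa [e] at this
  have hm : ∀ s, (m s).support ⊆ Q := by
    intro s
    have := hQ [] (by simp) s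
    have e : (m s).mapDomain (hw h ([] : List S)) = m s := by
      have : (hw h ([] : List S)) = (id : L → L) := by
        funext q; rfl
      rw [this, Finsupp.mapDomain_id]
    rwa [e] at this
  have t1 : Tendsto (fun r => (∑ w : Fin t → S,
      QF p (Z r) (F r) (coef Q (bw h m (List.ofFn w)))) / (Fintype.card S : ℝ) ^ t) U
      (nhds ((∑ w : Fin t → S, M.fnZ (bw h m (List.ofFn w)) ^ p) / (Fintype.card S : ℝ) ^ t)) :=
    (tendsto_finsetSum _ fun w _ => key _ (hb w)).div_const _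
  have t2 : Tendsto (fun r => K ^ p * t *
      ((∑ s, QF p (Z r) (F r) (coef Q (m s))) / Fintype.card S) + C * ee r) U
      (nhds (K ^ p * t * ((∑ s, M.fnZ (m s) ^ p) / Fintype.card S) + C * 0)) :=
    (((tendsto_finsetSum _ fun s _ => key _ (hm s)).div_const _).const_mul _).add
      (he.const_mul C)
  rw [mul_zero, add_zero] at t2
  refine le_of_tendsto_of_tendsto t1 t2 ?_
  filter_upwards [hn.eventually_ge_atTop (2 * Q.card)] with r hr
  exact hC (nn r) (ee r) (Z r) (F r) hr

end Crest.Agent.R140.ExistsSpr
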