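import Crest.Agent.R140.C3Main
import Crest.Agent.R140.ExistsSpr

/-! Row 140, part C3: the finite level inequality in the form `GroupLevel`, and `exists_spr`. -/

set_option autoImplicit false

namespace Crest.Agent.R140

open C3 Crest.AnalysisR

/-- comparison of two configurations of `Q` -/
theorem av_close_coef {X : Type*} [NormedAddCommGroup X] [NormedSpace ℝ X] {p : ℝ}
    {Λ : Type} [LinearOrder Λ] {Ω : Type} [Fintype Ω] {μ : Ω → ℝ} {ζ : Ω → ℕ → ℕ} {ε : ℝ}
    (hp : 0 ≤ p) (Q Q' : Finset Λ) (hQ : Q ⊆ Q') (hc : Q'.card ≤ 2 * Q.card)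
    (H : SprH μ ζ Q.card (2 * Q.card) ε) (N : ℕ) (hN : ∀ ω i, i < 2 * Q.card → ζ ω i ≤ N)
    (x : ℕ → X) (hx : ∀ i, ‖x i‖ ≤ 1) (b : Λ →₀ ℤ) (hb : b.support ⊆ Q) :
    |av μ (fun ω => ‖Dv Q (fun ν : Fin (N + 1) => x ν) b (zr Q Q' ζ N ω)‖ ^ p) -
      av μ (fun ω => ‖∑ j, coef Q b j • x (ζ ω j)‖ ^ p)| ≤ l1 b ^ p * ε := by
  have e : ∀ ω, Dv Q (fun ν : Fin (N + 1) => x ν) b (zr Q Q' ζ N ω) =
      ∑ j, coef Q b j • x (ζ ω (rkF Q' (Q.orderEmbOfFin rfl j))) := by
    intro ω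
    unfold Dv coef
    refine Finset.sum_congr rfl fun j _ => ?_
    have h3 : rkF Q' (Q.orderEmbOfFin rfl j) < 2 * Q.card := rk_lt' hQ hc j
    have h4 : ((zr Q Q' ζ N ω j : Fin (N + 1)) : ℕ) = ζ ω (rkF Q' (Q.orderEmbOfFin rfl j)) := by
      unfold zr zf
      rw [Fin.val_ofNat]
      exact Nat.mod_eq_of_lt (Nat.lt_succ_of_le (hN ω _ h3))
    simp only [h4]
  simp only [e]
  refine H.bdd le_rfl (rk_strictMono hQ) (i' := fun j => (j : ℕ)) (fun a b hab => hab)
    (rk_lt' hQ hc) (fun a => by have := a.isLt; omega) (fun z : Fin Q.card → ℕ =>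
        ‖∑ j, coef Q b j • x (z j)‖ ^ p) _ ?_
  intro z
  beta_reduce
  rw [abs_of_nonneg (by positivity)]
  refine Real.rpow_le_rpow (norm_nonneg _) ?_ hp
  exact norm_Dv_le Q x hx b hb z

/-- **C3 in the form used by the limit passage.** -/
theorem group_level {X : Type*} [NormedAddCommGroup X] [NormedSpace ℝ X] {p K : ℝ}
    (hX : HasMarkovType X p K) (hp : 1 < p) (hK : 0 < K) : ExistsSpr.GroupLevel X p K := by
  classical
  intro Λ _ S _ _ inv h m hinv h_inv m_inv t ht Q hQ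
  have hp0 : 0 ≤ p := by linarith
  have hQb : ∀ w : List S, w.length ≤ t → (bw h m w).support ⊆ Q := by
    intro w hw'
    have := ExistsSpr.support_bw h m t Q hQ w [] (by simpa using hw')
    have e : (hw h ([] : List S)) = (id : Λ → Λ) := rfl
    rwa [e, Finsupp.mapDomain_id] at this
  have hQh : ∀ w : List S, w.length < t → ∀ s,
      (Finsupp.mapDomain (h s) (bw h m w)).support ⊆ Q := by
    intro w hw' s
    exact ExistsSpr.support_bw h m t Q hQ w [s] (by simp; omega)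
  have hQm : ∀ s, (m s).support ⊆ Q := by
    intro s
    have := hQ [] (by simp) s
    have e : (hw h ([] : List S)) = (id : Λ → Λ) := rfl
    rwa [e, Finsupp.mapDomain_id] at this
  have hfin : {w : List S | w.length ≤ t}.Finite := List.finite_length_le S t
  set W : Finset (List S) := hfin.toFinset with hW
  have hWm : ∀ w : List S, w.length ≤ t → w ∈ W := fun w hw => by rw [hW]; simpa using hw
  set B : ℝ := ∑ w ∈ W, l1 (bw h m w) ^ p with hBdef
  have hB : ∀ w : List S, w.length ≤ t → l1 (bw h m w) ^ p ≤ B := fun w hw =>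
    Finset.single_le_sum (f := fun w => l1 (bw h m w) ^ p)
      (fun w _ => Real.rpow_nonneg (l1_nonneg _) p) (hWm w hw)
  have hB0 : 0 ≤ B := Finset.sum_nonneg fun w _ => Real.rpow_nonneg (l1_nonneg _) p
  set M : ℝ := ∑ s, l1 (m s) ^ p with hM
  have hM0 : 0 ≤ M := Finset.sum_nonneg fun s _ => Real.rpow_nonneg (l1_nonneg _) p
  have hS : (0 : ℝ) < Fintype.card S := by exact_mod_cast Fintype.card_pos
  refine ⟨B + (K ^ p * t * ((Fintype.card S : ℝ)⁻¹ * M) +
    B * t * (Fintype.card S : ℝ) ^ 2), ?_⟩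
  intro n ε Z F hn
  set μ := Z.μ
  set ζ := Z.ζ
  have H : SprH μ ζ Q.card (2 * Q.card) ε := fun j _ i i' hi hi' hin hin' G hG =>
    Z.spr j i i' hi hi' (fun a => (hin a).trans_le hn) (fun a => (hin' a).trans_le hn) G hG
  have hN : ∀ ω i, i < 2 * Q.card → ζ ω i ≤ Z.N := fun ω i hi => (Z.lt ω i (hi.trans_le hn)).le
  have hε : 0 ≤ ε := H.nonneg
  set q1 : (ℕ → X) → (Λ →₀ ℤ) → ℝ := fun y b =>
    av μ (fun ω => ‖∑ j, coef Q b j • y (ζ ω j)‖ ^ p) with hq1
  have hone : ∀ y : ℕ → X, (∀ i, ‖y i‖ ≤ 1) →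
      wordAvg t (fun w => q1 y (bw h m w)) ≤
        K ^ p * t * ((Fintype.card S : ℝ)⁻¹ * ∑ s, q1 y (m s)) +
        (B + (K ^ p * t * ((Fintype.card S : ℝ)⁻¹ * M) + B * t * (Fintype.card S : ℝ) ^ 2)) * ε := by
    intro y hy
    have h1 := one_seq hX hp hK inv hinv h h_inv m m_inv t ht Q hQm hQb hQh B
      (fun w hw => hB w hw.le) Z.μ_nonneg Z.μ_sum H Z.N (fun ν : Fin (Z.N + 1) => y ν)
      (fun i => hy i)
    have h2 : wordAvg t (fun w => q1 y (bw h m w)) ≤
        wordAvg t (fun w => av μ (fun ω => ‖Dv Q (fun ν : Fin (Z.N + 1) => y ν) (bw h m w)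
          (zr Q Q ζ Z.N ω)‖ ^ p)) + B * ε := by
      rw [← wordAvg_const (S := S) t (B * ε), ← wordAvg_add]
      refine wordAvg_mono t _ _ fun w hw => ?_
      have h3 := av_close_coef hp0 Q Q subset_rfl (by omega) H Z.N hN y hy (bw h m w) (hQb w hw.le)
      have h4 := (abs_le.mp h3).1
      have h5 := mul_le_mul_of_nonneg_right (hB w hw.le) hε
      simp only [hq1]
      linarith
    have h6 : ∑ s, av μ (fun ω => ‖Dv Q (fun ν : Fin (Z.N + 1) => y ν) (m s)
        (zr Q (Qs (h s) Q) ζ Z.N ω)‖ ^ p) ≤ ∑ s, q1 y (m s) + M * ε := by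
      rw [hM, Finset.sum_mul, ← Finset.sum_add_distrib]
      refine Finset.sum_le_sum fun s _ => ?_
      have h3 := av_close_coef hp0 Q (Qs (h s) Q) Finset.subset_union_left (Qs_card (h s) Q) H Z.N
        hN y hy (m s) (hQm s)
      have h4 := (abs_le.mp h3).2
      simp only [hq1]
      linarith
    have h7 : K ^ p * t * ((Fintype.card S : ℝ)⁻¹ * ∑ s, av μ (fun ω =>
        ‖Dv Q (fun ν : Fin (Z.N + 1) => y ν) (m s) (zr Q (Qs (h s) Q) ζ Z.N ω)‖ ^ p)) ≤
        K ^ p * t * ((Fintype.card S : ℝ)⁻¹ * (∑ s, q1 y (m s) + M * ε)) := by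
      refine mul_le_mul_of_nonneg_left ?_ (by positivity)
      exact mul_le_mul_of_nonneg_left h6 (by positivity)
    calc wordAvg t (fun w => q1 y (bw h m w)) ≤ _ := h2
      _ ≤ _ := add_le_add_left (h1.trans (add_le_add_left h7 _)) _
      _ = _ := by ring
  have hQQ : ∀ b : Λ →₀ ℤ, QF p Z F (coef Q b) = ∑ a, F.w a * q1 (F.x a) b := by
    intro b
    unfold QF
    simp only [hq1, av]
    rw [Finset.sum_congr rfl fun ω _ => Finset.mul_sum _ _ _, Finset.sum_comm]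
    refine Finset.sum_congr rfl fun a _ => ?_
    rw [Finset.mul_sum]
    exact Finset.sum_congr rfl fun ω _ => by ring
  rw [← wordAvg_eq_sum t (fun wd => QF p Z F (coef Q (bw h m wd)))]
  simp only [hQQ]
  rw [wordAvg_sum Finset.univ t (fun a wd => F.w a * q1 (F.x a) (bw h m wd))]
  have h8 : ∀ a, wordAvg t (fun wd => F.w a * q1 (F.x a) (bw h m wd)) ≤
      F.w a * (K ^ p * t * ((Fintype.card S : ℝ)⁻¹ * ∑ s, q1 (F.x a) (m s)) +
        (B + (K ^ p * t * ((Fintype.card S : ℝ)⁻¹ * M) + B * t * (Fintype.card S : ℝ) ^ 2)) * ε) := by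
    intro a
    rw [wordAvg_mul_left]
    exact mul_le_mul_of_nonneg_left (hone (F.x a) (F.norm_le a)) (F.w_nonneg a)
  refine (Finset.sum_le_sum fun a _ => h8 a).trans (le_of_eq ?_)
  rw [Finset.sum_congr rfl fun a _ => mul_add (F.w a) _ _, Finset.sum_add_distrib, ← Finset.sum_mul,
    F.w_sum, one_mul]
  congr 1
  have h9 : ∑ s, ∑ a, F.w a * q1 (F.x a) (m s) = ∑ a, F.w a * ∑ s, q1 (F.x a) (m s) := by
    rw [Finset.sum_comm]
    exact Finset.sum_congr rfl fun a _ => (Finset.mul_sum _ _ _).symm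
  rw [h9, Finset.sum_div, Finset.mul_sum]
  exact Finset.sum_congr rfl fun a _ => by ring

end Crest.Agent.R140
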