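import Crest.Agent.R140.C3Rank

/-! Row 140, part C3: the finite chain `J` on pairs `(z,u)`. -/

set_option autoImplicit false

namespace Crest.Agent.R140.C3

open Crest.Agent.R140

section avg
variable {Ω : Type} [Fintype Ω] (μ : Ω → ℝ)

/-- weighted mean -/
noncomputable def av (f : Ω → ℝ) : ℝ := ∑ ω, μ ω * f ω

theorem av_add (f g : Ω → ℝ) : av μ (fun ω => f ω + g ω) = av μ f + av μ g := by
  unfold av; rw [← Finset.sum_add_distrib]; simp only [mul_add]

theorem av_sub (f g : Ω → ℝ) : av μ (fun ω => f ω - g ω) = av μ f - av μ g := by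
  unfold av; rw [← Finset.sum_sub_distrib]; simp only [mul_sub]

theorem av_mulL (c : ℝ) (f : Ω → ℝ) : av μ (fun ω => c * f ω) = c * av μ f := by
  unfold av; rw [Finset.mul_sum]; exact Finset.sum_congr rfl fun _ _ => by ring

theorem av_mulR (c : ℝ) (f : Ω → ℝ) : av μ (fun ω => f ω * c) = av μ f * c := by
  unfold av; rw [Finset.sum_mul]; exact Finset.sum_congr rfl fun _ _ => by ring

theorem av_sum {ι : Type*} (s : Finset ι) (f : ι → Ω → ℝ) :
    av μ (fun ω => ∑ i ∈ s, f i ω) = ∑ i ∈ s, av μ (f i) := by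
  unfold av; rw [Finset.sum_comm]; exact Finset.sum_congr rfl fun _ _ => by rw [Finset.mul_sum]

variable {μ}

theorem av_mono (hμ : ∀ ω, 0 ≤ μ ω) {f g : Ω → ℝ} (h : ∀ ω, f ω ≤ g ω) : av μ f ≤ av μ g :=
  Finset.sum_le_sum fun i _ => mul_le_mul_of_nonneg_left (h i) (hμ i)

theorem av_nonneg (hμ : ∀ ω, 0 ≤ μ ω) {f : Ω → ℝ} (h : ∀ ω, 0 ≤ f ω) : 0 ≤ av μ f :=
  Finset.sum_nonneg fun i _ => mul_nonneg (hμ i) (h i)

theorem av_const (hμ1 : ∑ ω, μ ω = 1) (c : ℝ) : av μ (fun _ : Ω => c) = c := by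
  unfold av; rw [← Finset.sum_mul, hμ1, one_mul]

end avg

/-- elementary product inequality -/
theorem one_sub_le_prod {ι : Type*} (s : Finset ι) (y : ι → ℝ) (h0 : ∀ i, 0 ≤ y i)
    (h1 : ∀ i, y i ≤ 1) : 1 - ∑ i ∈ s, (1 - y i) ≤ ∏ i ∈ s, y i ∧ ∏ i ∈ s, y i ≤ 1 := by
  classical
  induction s using Finset.induction_on with
  | empty => simp
  | insert a s ha ih =>
    rw [Finset.sum_insert ha, Finset.prod_insert ha]
    have hp : 0 ≤ ∏ i ∈ s, y i := Finset.prod_nonneg fun i _ => h0 i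
    refine ⟨?_, ?_⟩
    · nlinarith [h0 a, h1 a, ih.1, ih.2]
    · nlinarith [h0 a, h1 a, ih.1, ih.2]

theorem card_bad (R : ℕ) (d : ℤ) :
    (Finset.univ.filter (fun a : Fin R => ¬ (0 ≤ ((a : ℕ) : ℤ) + d ∧ ((a : ℕ) : ℤ) + d < R))).card
      ≤ d.natAbs := by
  rcases le_total 0 d with hd | hd
  · have : d.natAbs = (Finset.range d.natAbs).card := by simp
    rw [this]
    apply Finset.card_le_card_of_injOn (fun a : Fin R => R - 1 - (a : ℕ))
    · intro a ha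
      simp only [Finset.coe_filter, Finset.mem_univ, true_and, Set.mem_ofPred_eq] at ha
      simp only [Finset.coe_range, Set.mem_Iio]
      have := a.isLt
      omega
    · intro a _ b _ hab
      have := a.isLt
      have := b.isLt
      simp only at hab
      ext
      omega
  · have : d.natAbs = (Finset.range d.natAbs).card := by simp
    rw [this]
    apply Finset.card_le_card_of_injOn (fun a : Fin R => (a : ℕ))
    · intro a ha
      simp only [Finset.coe_filter, Finset.mem_univ, true_and, Set.mem_ofPred_eq] at ha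
      simp only [Finset.coe_range, Set.mem_Iio]
      have := a.isLt
      omega
    · intro a _ b _ hab
      ext
      exact hab

/-- number of `a < R` with `0 ≤ a + d < R` -/
theorem card_shift (R : ℕ) (d : ℤ) :
    (R : ℝ) - |(d : ℝ)| ≤
      ∑ a : Fin R, (if 0 ≤ ((a : ℕ) : ℤ) + d ∧ ((a : ℕ) : ℤ) + d < R then (1 : ℝ) else 0) := by
  have hbad : ∑ a : Fin R, (if ¬ (0 ≤ ((a : ℕ) : ℤ) + d ∧ ((a : ℕ) : ℤ) + d < R) then (1 : ℝ) else 0)
      ≤ |(d : ℝ)| := by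
    rw [Finset.sum_boole]
    have h := card_bad R d
    have h2 : ((d.natAbs : ℕ) : ℝ) = |(d : ℝ)| := by
      rw [Nat.cast_natAbs]; simp
    rw [← h2]
    exact_mod_cast h
  have hsum : ∑ a : Fin R, (if 0 ≤ ((a : ℕ) : ℤ) + d ∧ ((a : ℕ) : ℤ) + d < R then (1 : ℝ) else 0) +
      ∑ a : Fin R, (if ¬ (0 ≤ ((a : ℕ) : ℤ) + d ∧ ((a : ℕ) : ℤ) + d < R) then (1 : ℝ) else 0) = R := by
    rw [← Finset.sum_add_distrib]
    have : ∀ a : Fin R, ((if 0 ≤ ((a : ℕ) : ℤ) + d ∧ ((a : ℕ) : ℤ) + d < R then (1 : ℝ) else 0) +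
      (if ¬ (0 ≤ ((a : ℕ) : ℤ) + d ∧ ((a : ℕ) : ℤ) + d < R) then (1 : ℝ) else 0)) = 1 := by
      intro a; split_ifs <;> simp
    rw [Finset.sum_congr rfl (fun a _ => this a)]
    simp
  linarith

section chain
variable {Λ : Type} [LinearOrder Λ] {S : Type} (h : S → Λ ≃o Λ) (m : S → Λ →₀ ℤ) (Q : Finset Λ)
  {Ω : Type} [Fintype Ω] (μ : Ω → ℝ) (ζ : Ω → ℕ → ℕ) (N R : ℕ)

/-- state space -/
abbrev V (k N R : ℕ) : Type := (Fin k → Fin (N + 1)) × (Fin (N + 1) → Fin R)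

/-- the random sequence with values in `Fin (N+1)` -/
def zf (ω : Ω) (i : ℕ) : Fin (N + 1) := Fin.ofNat (N + 1) (ζ ω i)

/-- source configuration -/
def za (s : S) (ω : Ω) : Fin Q.card → Fin (N + 1) :=
  fun j => zf ζ N ω (rkF (Qs (h s) Q) (Q.orderEmbOfFin rfl j))

/-- target configuration -/
def zb (s : S) (ω : Ω) : Fin Q.card → Fin (N + 1) :=
  fun j => zf ζ N ω (rkF (Qs (h s) Q) (h s (Q.orderEmbOfFin rfl j)))

/-- displacement of the `u`-coordinate -/
noncomputable def dl (s : S) (ω : Ω) (ν : Fin (N + 1)) : ℤ :=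
  (m s).sum (fun q c => if zf ζ N ω (rkF (Qs (h s) Q) q) = ν then c else 0)

/-- the condition for a transition -/
def Tr (s : S) (ω : Ω) (v v' : V Q.card N R) : Prop :=
  v.1 = za h Q ζ N s ω ∧ v'.1 = zb h Q ζ N s ω ∧
    ∀ ν, ((v'.2 ν : ℕ) : ℤ) = ((v.2 ν : ℕ) : ℤ) + dl h m Q ζ N s ω ν

open Classical in
/-- the joint measure of letter `s` -/
noncomputable def J (s : S) (v v' : V Q.card N R) : ℝ :=
  av μ (fun ω => if Tr h m Q ζ N R s ω v v' then (((R : ℝ) ^ (N + 1))⁻¹) else 0)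

theorem J_nonneg (hμ : ∀ ω, 0 ≤ μ ω) (s : S) (v v' : V Q.card N R) : 0 ≤ J h m Q μ ζ N R s v v' := by
  unfold J
  refine av_nonneg hμ fun ω => ?_
  split_ifs <;> positivity

theorem dl_inv (inv : S → S) (h_inv : ∀ s, h (inv s) = (h s).symm)
    (m_inv : ∀ s, m (inv s) = -(Finsupp.mapDomain (h s).symm (m s))) (s : S) (ω : Ω)
    (ν : Fin (N + 1)) : dl h m Q ζ N (inv s) ω ν = - dl h m Q ζ N s ω ν := by
  unfold dl
  rw [m_inv s, h_inv s]
  rw [Finsupp.sum_neg_index (by intro a; simp)]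
  rw [Finsupp.sum_mapDomain_index_inj (f := (h s).symm) (h s).symm.injective]
  unfold Finsupp.sum
  rw [← Finset.sum_neg_distrib]
  refine Finset.sum_congr rfl fun q _ => ?_
  beta_reduce
  rw [rk_symm]
  split_ifs <;> simp

theorem J_symm (inv : S → S) (h_inv : ∀ s, h (inv s) = (h s).symm)
    (m_inv : ∀ s, m (inv s) = -(Finsupp.mapDomain (h s).symm (m s))) (s : S)
    (v v' : V Q.card N R) : J h m Q μ ζ N R (inv s) v' v = J h m Q μ ζ N R s v v' := by
  classical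
  unfold J
  congr 1
  funext ω
  have e1 : za h Q ζ N (inv s) ω = zb h Q ζ N s ω := by
    funext j
    unfold za zb
    rw [h_inv s, rk_symm']
  have e2 : zb h Q ζ N (inv s) ω = za h Q ζ N s ω := by
    funext j
    unfold za zb
    rw [h_inv s, rk_symm]
  have : Tr h m Q ζ N R (inv s) ω v' v ↔ Tr h m Q ζ N R s ω v v' := by
    unfold Tr
    rw [e1, e2]
    constructor
    · rintro ⟨a, b, c⟩
      refine ⟨b, a, fun ν => ?_⟩
      have := c ν
      rw [dl_inv h m Q ζ N inv h_inv m_inv] at this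
      linarith
    · rintro ⟨a, b, c⟩
      refine ⟨b, a, fun ν => ?_⟩
      have := c ν
      rw [dl_inv h m Q ζ N inv h_inv m_inv]
      linarith
  exact if_congr this rfl rfl

open Classical in
/-- probability of a source configuration -/
noncomputable def Pz (s : S) (z : Fin Q.card → Fin (N + 1)) : ℝ :=
  av μ (fun ω => if z = za h Q ζ N s ω then (1 : ℝ) else 0)

theorem Tr_unique (s : S) (ω : Ω) (v v' v'' : V Q.card N R) (h1 : Tr h m Q ζ N R s ω v v')
    (h2 : Tr h m Q ζ N R s ω v v'') : v' = v'' := by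
  obtain ⟨_, b, c⟩ := h1
  obtain ⟨_, b', c'⟩ := h2
  refine Prod.ext (b.trans b'.symm) ?_
  funext ν
  have := c ν
  have := c' ν
  ext
  omega

open Classical in
theorem sum_Tr_le (s : S) (ω : Ω) (v : V Q.card N R) (c : ℝ) (hc : 0 ≤ c) :
    ∑ v', (if Tr h m Q ζ N R s ω v v' then c else 0) ≤ if v.1 = za h Q ζ N s ω then c else 0 := by
  by_cases hv : ∃ v', Tr h m Q ζ N R s ω v v'
  · obtain ⟨v₀, hv₀⟩ := hv
    rw [if_pos hv₀.1, Finset.sum_eq_single v₀]
    · rw [if_pos hv₀]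
    · intro v' _ hne
      rw [if_neg]
      intro h'
      exact hne (Tr_unique h m Q ζ N R s ω v v' v₀ h' hv₀)
    · intro h'
      exact absurd (Finset.mem_univ _) h'
  · rw [Finset.sum_eq_zero]
    · split_ifs
      · exact hc
      · exact le_rfl
    · intro v' _
      rw [if_neg]
      intro h'
      exact hv ⟨v', h'⟩

theorem sum_J_le (hμ : ∀ ω, 0 ≤ μ ω) (s : S) (v : V Q.card N R) :
    ∑ v', J h m Q μ ζ N R s v v' ≤ ((R : ℝ) ^ (N + 1))⁻¹ * Pz h Q μ ζ N s v.1 := by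
  classical
  unfold J Pz
  rw [← av_sum, ← av_mulL]
  refine av_mono hμ fun ω => ?_
  refine (sum_Tr_le h m Q ζ N R s ω v _ (by positivity)).trans ?_
  split_ifs <;> simp

/-- displacement vector of one letter, in terms of the vector `m s` -/
theorem sum_dl {X : Type*} [NormedAddCommGroup X] [NormedSpace ℝ X] (x : Fin (N + 1) → X) (s : S)
    (ω : Ω) : ∑ ν, (dl h m Q ζ N s ω ν : ℝ) • x ν =
      (m s).sum (fun q c => (c : ℝ) • x (zf ζ N ω (rkF (Qs (h s) Q) q))) := by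
  unfold dl Finsupp.sum
  have : ∀ ν, ((∑ q ∈ (m s).support, (if zf ζ N ω (rkF (Qs (h s) Q) q) = ν then (m s) q else 0) : ℤ)
      : ℝ) • x ν = ∑ q ∈ (m s).support,
        (if zf ζ N ω (rkF (Qs (h s) Q) q) = ν then ((m s) q : ℝ) • x ν else 0) := by
    intro ν
    rw [Int.cast_sum, Finset.sum_smul]
    refine Finset.sum_congr rfl fun q _ => ?_
    split_ifs <;> simp
  rw [Finset.sum_congr rfl fun ν _ => this ν, Finset.sum_comm]
  refine Finset.sum_congr rfl fun q _ => ?_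
  rw [Finset.sum_ite_eq Finset.univ (zf ζ N ω (rkF (Qs (h s) Q) q))
    (fun ν => ((m s) q : ℝ) • x ν)]
  simp

theorem sum_abs_dl (s : S) (ω : Ω) : ∑ ν, |(dl h m Q ζ N s ω ν : ℝ)| ≤ l1 (m s) := by
  unfold dl Finsupp.sum l1
  have : ∀ ν, |((∑ q ∈ (m s).support, (if zf ζ N ω (rkF (Qs (h s) Q) q) = ν then (m s) q else 0) : ℤ)
      : ℝ)| ≤ ∑ q ∈ (m s).support,
        (if zf ζ N ω (rkF (Qs (h s) Q) q) = ν then |((m s) q : ℝ)| else 0) := by
    intro ν
    rw [Int.cast_sum]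
    refine (Finset.abs_sum_le_sum_abs _ _).trans ?_
    refine Finset.sum_le_sum fun q _ => ?_
    split_ifs <;> simp
  refine (Finset.sum_le_sum fun ν _ => this ν).trans ?_
  rw [Finset.sum_comm]
  refine Finset.sum_le_sum fun q _ => ?_
  rw [Finset.sum_ite_eq Finset.univ (zf ζ N ω (rkF (Qs (h s) Q) q))
    (fun _ => |((m s) q : ℝ)|)]
  simp

/-- the function on states -/
noncomputable def fst {X : Type*} [NormedAddCommGroup X] [NormedSpace ℝ X] (x : Fin (N + 1) → X)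
    (v : V Q.card N R) : X := ∑ ν, ((v.2 ν : ℕ) : ℝ) • x ν

theorem fst_sub {X : Type*} [NormedAddCommGroup X] [NormedSpace ℝ X] (x : Fin (N + 1) → X) (s : S)
    (hm : (m s).support ⊆ Q) (ω : Ω) (v v' : V Q.card N R) (hT : Tr h m Q ζ N R s ω v v') :
    fst Q N R x v' - fst Q N R x v = Dv Q x (m s) (za h Q ζ N s ω) := by
  have e1 : Dv Q x (m s) (za h Q ζ N s ω) = ∑ ν, (dl h m Q ζ N s ω ν : ℝ) • x ν := by
    rw [sum_dl]
    exact Dv_rank Q x (m s) hm (fun q => zf ζ N ω (rkF (Qs (h s) Q) q))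
  rw [e1]
  unfold fst
  rw [← Finset.sum_sub_distrib]
  refine Finset.sum_congr rfl fun ν _ => ?_
  rw [← sub_smul]
  congr 1
  have := hT.2.2 ν
  have h2 : (((v'.2 ν : ℕ) : ℤ) : ℝ) = (((v.2 ν : ℕ) : ℤ) : ℝ) + (dl h m Q ζ N s ω ν : ℝ) := by
    rw [this]; push_cast; ring
  push_cast at h2
  linarith

/-- path property -/
theorem path_step {X : Type*} [NormedAddCommGroup X] [NormedSpace ℝ X] (x : Fin (N + 1) → X) (s : S)
    (hm : (m s).support ⊆ Q) (b : Λ →₀ ℤ) (hb : b.support ⊆ Q)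
    (hb' : (Finsupp.mapDomain (h s) b).support ⊆ Q) (v v' : V Q.card N R)
    (hJ : J h m Q μ ζ N R s v v' ≠ 0) :
    Dv Q x (m s + Finsupp.mapDomain (h s) b) v.1 =
      (fst Q N R x v' - fst Q N R x v) + Dv Q x b v'.1 := by
  classical
  have : ∃ ω, Tr h m Q ζ N R s ω v v' := by
    by_contra hcon
    push Not at hcon
    apply hJ
    unfold J
    simp [hcon, av]
  obtain ⟨ω, hω⟩ := this
  rw [fst_sub h m Q ζ N R x s hm ω v v' hω, Dv_add, hω.1, hω.2.1]
  congr 1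
  exact (Dv_move Q x b (h s) hb hb' (fun q => zf ζ N ω (rkF (Qs (h s) Q) q))).symm

open Classical in
/-- mass of the transitions for one `ω` -/
theorem mass_le (s : S) (ω : Ω) :
    ∑ v, ∑ v', (if Tr h m Q ζ N R s ω v v' then (((R : ℝ) ^ (N + 1))⁻¹) else 0) ≤ 1 := by
  refine (Finset.sum_le_sum fun v _ => sum_Tr_le h m Q ζ N R s ω v _ (by positivity)).trans ?_
  rw [Fintype.sum_prod_type]
  simp only
  rw [Finset.sum_eq_single (za h Q ζ N s ω)]
  · simp only [if_true, Finset.sum_const, Finset.card_univ, Fintype.card_fun, Fintype.card_fin,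
      nsmul_eq_mul, Nat.cast_pow]
    rcases eq_or_ne R 0 with rfl | hR
    · simp
    · rw [mul_inv_cancel₀]
      positivity
  · intro z _ hz
    simp [hz]
  · intro h'
    exact absurd (Finset.mem_univ _) h'

open Classical in
theorem le_mass (hR : 1 ≤ R) (s : S) (ω : Ω) :
    1 - l1 (m s) / R ≤
      ∑ v, ∑ v', (if Tr h m Q ζ N R s ω v v' then (((R : ℝ) ^ (N + 1))⁻¹) else 0) := by
  have hR0 : (0 : ℝ) < R := by exact_mod_cast hR
  -- lower bound by good `u`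
  set d : Fin (N + 1) → ℤ := dl h m Q ζ N s ω with hd
  have h1 : ∀ u : Fin (N + 1) → Fin R,
      (((R : ℝ) ^ (N + 1))⁻¹) * ∏ ν, (if 0 ≤ ((u ν : ℕ) : ℤ) + d ν ∧ ((u ν : ℕ) : ℤ) + d ν < R
        then (1 : ℝ) else 0) ≤
      ∑ v', (if Tr h m Q ζ N R s ω (za h Q ζ N s ω, u) v' then (((R : ℝ) ^ (N + 1))⁻¹) else 0) := by
    intro u
    by_cases hu : ∀ ν, 0 ≤ ((u ν : ℕ) : ℤ) + d ν ∧ ((u ν : ℕ) : ℤ) + d ν < R
    · have hT : Tr h m Q ζ N R s ω (za h Q ζ N s ω, u)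
          (zb h Q ζ N s ω, fun ν => ⟨(((u ν : ℕ) : ℤ) + d ν).toNat, by
            have := hu ν; omega⟩) := by
        refine ⟨rfl, rfl, fun ν => ?_⟩
        have := hu ν
        simp only
        rw [Int.toNat_of_nonneg this.1]
      have h2 := Finset.single_le_sum (f := fun v' =>
        (if Tr h m Q ζ N R s ω (za h Q ζ N s ω, u) v' then (((R : ℝ) ^ (N + 1))⁻¹) else 0))
        (fun v' _ => by split_ifs <;> positivity) (Finset.mem_univ
          ((zb h Q ζ N s ω, fun ν => ⟨(((u ν : ℕ) : ℤ) + d ν).toNat, by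
            have := hu ν; omega⟩) : V Q.card N R))
      refine le_trans ?_ h2
      rw [if_pos hT, Finset.prod_eq_one, mul_one]
      intro ν _
      rw [if_pos (hu ν)]
    · push Not at hu
      obtain ⟨ν, hν⟩ := hu
      rw [Finset.prod_eq_zero (Finset.mem_univ ν), mul_zero]
      · exact Finset.sum_nonneg fun v' _ => by split_ifs <;> positivity
      · rw [if_neg]
        rintro ⟨a, b⟩
        exact absurd (hν a) (not_le.mpr b)
  have h3 : ∑ u : Fin (N + 1) → Fin R, (((R : ℝ) ^ (N + 1))⁻¹) *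
      ∏ ν, (if 0 ≤ ((u ν : ℕ) : ℤ) + d ν ∧ ((u ν : ℕ) : ℤ) + d ν < R then (1 : ℝ) else 0) ≤
      ∑ v, ∑ v', (if Tr h m Q ζ N R s ω v v' then (((R : ℝ) ^ (N + 1))⁻¹) else 0) := by
    rw [Fintype.sum_prod_type]
    have h4 := Finset.single_le_sum (f := fun z : Fin Q.card → Fin (N + 1) =>
      ∑ u : Fin (N + 1) → Fin R, ∑ v', (if Tr h m Q ζ N R s ω (z, u) v' then
        (((R : ℝ) ^ (N + 1))⁻¹) else 0)) (fun z _ => Finset.sum_nonneg fun u _ =>
          Finset.sum_nonneg fun v' _ => by split_ifs <;> positivity)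
          (Finset.mem_univ (za h Q ζ N s ω))
    exact (Finset.sum_le_sum fun u _ => h1 u).trans h4
  refine le_trans ?_ h3
  rw [← Finset.mul_sum]
  have h5 : ∑ u : Fin (N + 1) → Fin R,
      ∏ ν, (if 0 ≤ ((u ν : ℕ) : ℤ) + d ν ∧ ((u ν : ℕ) : ℤ) + d ν < R then (1 : ℝ) else 0) =
      ∏ ν, ∑ a : Fin R, (if 0 ≤ ((a : ℕ) : ℤ) + d ν ∧ ((a : ℕ) : ℤ) + d ν < R then (1 : ℝ) else 0) := by
    rw [Finset.prod_univ_sum]
    simp
  rw [h5]
  set y : Fin (N + 1) → ℝ := fun ν => (∑ a : Fin R,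
    (if 0 ≤ ((a : ℕ) : ℤ) + d ν ∧ ((a : ℕ) : ℤ) + d ν < R then (1 : ℝ) else 0)) / R with hy
  have h6 : (((R : ℝ) ^ (N + 1))⁻¹) * ∏ ν, ∑ a : Fin R,
      (if 0 ≤ ((a : ℕ) : ℤ) + d ν ∧ ((a : ℕ) : ℤ) + d ν < R then (1 : ℝ) else 0) = ∏ ν, y ν := by
    rw [hy, Finset.prod_div_distrib]
    simp only [Finset.prod_const, Finset.card_univ, Fintype.card_fin]
    rw [div_eq_inv_mul]
  rw [h6]
  have hy0 : ∀ ν, 0 ≤ y ν := fun ν => div_nonneg (Finset.sum_nonneg fun a _ => by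
    split_ifs <;> positivity) hR0.le
  have hy1 : ∀ ν, y ν ≤ 1 := by
    intro ν
    rw [hy]
    simp only
    rw [div_le_one hR0]
    refine (Finset.sum_le_sum (g := fun _ => (1 : ℝ)) fun a _ => ?_).trans ?_
    · split_ifs <;> norm_num
    · simp
  refine le_trans ?_ (one_sub_le_prod Finset.univ y hy0 hy1).1
  have h7 : ∑ ν, (1 - y ν) ≤ l1 (m s) / R := by
    refine le_trans (Finset.sum_le_sum (g := fun ν => |(d ν : ℝ)| / R) fun ν _ => ?_) ?_
    · have := card_shift R (d ν)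
      rw [hy]
      simp only
      rw [sub_le_iff_le_add, ← add_div, le_div_iff₀ hR0]
      linarith
    · rw [← Finset.sum_div]
      exact div_le_div_of_nonneg_right (sum_abs_dl h m Q ζ N s ω) hR0.le
  linarith

/-- total mass of `J s` -/
theorem le_sum_J (hμ : ∀ ω, 0 ≤ μ ω) (hμ1 : ∑ ω, μ ω = 1) (hR : 1 ≤ R) (s : S) :
    1 - l1 (m s) / R ≤ ∑ v, ∑ v', J h m Q μ ζ N R s v v' := by
  classical
  unfold J
  have : ∑ v, ∑ v', av μ (fun ω => if Tr h m Q ζ N R s ω v v' then (((R : ℝ) ^ (N + 1))⁻¹) else 0) =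
      av μ (fun ω => ∑ v, ∑ v', if Tr h m Q ζ N R s ω v v' then (((R : ℝ) ^ (N + 1))⁻¹) else 0) := by
    rw [av_sum]
    refine Finset.sum_congr rfl fun v _ => ?_
    rw [av_sum]
  rw [this, ← av_const hμ1 (1 - l1 (m s) / R)]
  exact av_mono hμ fun ω => le_mass h m Q ζ N R hR s ω

/-- energy of one letter -/
theorem energy_le (hμ : ∀ ω, 0 ≤ μ ω) {X : Type*} [NormedAddCommGroup X] [NormedSpace ℝ X] (x : Fin (N + 1) → X) (s : S)
    (hm : (m s).support ⊆ Q) (p : ℝ) :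
    ∑ v, ∑ v', J h m Q μ ζ N R s v v' * ‖fst Q N R x v' - fst Q N R x v‖ ^ p ≤
      av μ (fun ω => ‖Dv Q x (m s) (za h Q ζ N s ω)‖ ^ p) := by
  classical
  unfold J
  have : ∑ v, ∑ v', av μ (fun ω => if Tr h m Q ζ N R s ω v v' then (((R : ℝ) ^ (N + 1))⁻¹) else 0) *
        ‖fst Q N R x v' - fst Q N R x v‖ ^ p =
      av μ (fun ω => ∑ v, ∑ v', (if Tr h m Q ζ N R s ω v v' then (((R : ℝ) ^ (N + 1))⁻¹) else 0) *
        ‖fst Q N R x v' - fst Q N R x v‖ ^ p) := by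
    rw [av_sum]
    refine Finset.sum_congr rfl fun v _ => ?_
    rw [av_sum]
    refine Finset.sum_congr rfl fun v' _ => ?_
    rw [av_mulR]
  rw [this]
  refine av_mono hμ fun ω => ?_
  have e1 : ∀ v v', (if Tr h m Q ζ N R s ω v v' then (((R : ℝ) ^ (N + 1))⁻¹) else 0) *
        ‖fst Q N R x v' - fst Q N R x v‖ ^ p =
      (if Tr h m Q ζ N R s ω v v' then (((R : ℝ) ^ (N + 1))⁻¹) else 0) *
        ‖Dv Q x (m s) (za h Q ζ N s ω)‖ ^ p := by
    intro v v'
    split_ifs with hT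
    · rw [fst_sub h m Q ζ N R x s hm ω v v' hT]
    · simp
  rw [Finset.sum_congr rfl fun v _ => Finset.sum_congr rfl fun v' _ => e1 v v']
  simp only [← Finset.sum_mul]
  have := mass_le h m Q ζ N R s ω
  have hp : 0 ≤ ‖Dv Q x (m s) (za h Q ζ N s ω)‖ ^ p := by positivity
  calc _ ≤ 1 * ‖Dv Q x (m s) (za h Q ζ N s ω)‖ ^ p := mul_le_mul_of_nonneg_right this hp
    _ = _ := one_mul _

end chain

end Crest.Agent.R140.C3
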