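import Crest.Agent.R140.C3Core

/-! Row 140, part C3: finite level group inequality, assembly -/

set_option autoImplicit false

namespace Crest.Agent.R140.C3

open Crest.Agent.R140 Crest.AnalysisR

section core
variable {X : Type*} [NormedAddCommGroup X] [NormedSpace ℝ X] {p K : ℝ}
  {Λ : Type} [LinearOrder Λ] {S : Type} [Fintype S] [Nonempty S]
  {Ω : Type} [Fintype Ω]

theorem one_seq_R (hX : HasMarkovType X p K) (hp : 1 < p) (hK : 0 < K) (inv : S → S)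
    (hinv : ∀ s, inv (inv s) = s) (h : S → Λ ≃o Λ) (h_inv : ∀ s, h (inv s) = (h s).symm)
    (m : S → Λ →₀ ℤ) (m_inv : ∀ s, m (inv s) = -(Finsupp.mapDomain (h s).symm (m s)))
    (t : ℕ) (ht : 1 ≤ t) (Q : Finset Λ) (hQm : ∀ s, (m s).support ⊆ Q)
    (hQb : ∀ w : List S, w.length ≤ t → (bw h m w).support ⊆ Q)
    (hQh : ∀ w : List S, w.length < t → ∀ s,
      (Finsupp.mapDomain (h s) (bw h m w)).support ⊆ Q)
    (B : ℝ) (hB : ∀ w : List S, w.length = t → l1 (bw h m w) ^ p ≤ B)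
    {μ : Ω → ℝ} (hμ : ∀ ω, 0 ≤ μ ω) (hμ1 : ∑ ω, μ ω = 1) {ζ : Ω → ℕ → ℕ} {ε : ℝ}
    (H : SprH μ ζ Q.card (2 * Q.card) ε) (N : ℕ) (x : Fin (N + 1) → X) (hx : ∀ i, ‖x i‖ ≤ 1)
    (R : ℕ) (hR : 1 ≤ R) :
    wordAvg t (fun w => av μ (fun ω => ‖Dv Q x (bw h m w) (zr Q Q ζ N ω)‖ ^ p)) ≤
      K ^ p * t * ((Fintype.card S : ℝ)⁻¹ *
        ∑ s, av μ (fun ω => ‖Dv Q x (m s) (zr Q (Qs (h s) Q) ζ N ω)‖ ^ p)) +
      B * t * ∑ s, (Fintype.card S * ε + l1 (m s) / R) := by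
  classical
  have hp0 : 0 ≤ p := by linarith
  have hR0 : (0 : ℝ) < R := by exact_mod_cast hR
  set c : ℝ := ((R : ℝ) ^ (N + 1))⁻¹ with hc
  have hc0 : 0 ≤ c := by positivity
  set ρ₁ : (Fin Q.card → Fin (N + 1)) → ℝ := fun z => Pr μ Q Q ζ N z +
    ∑ s, |Pr μ Q (Qs (h s) Q) ζ N z - Pr μ Q Q ζ N z| with hρ₁
  set ρ : V Q.card N R → ℝ := fun v => c * ρ₁ v.1 with hρ
  have hQQ : ∀ s, Q ⊆ Qs (h s) Q := fun s => Finset.subset_union_left
  have hPle : ∀ s z, Pr μ Q (Qs (h s) Q) ζ N z ≤ ρ₁ z := by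
    intro s z
    have h1 := Finset.single_le_sum (f := fun s => |Pr μ Q (Qs (h s) Q) ζ N z - Pr μ Q Q ζ N z|)
      (fun _ _ => abs_nonneg _) (Finset.mem_univ s)
    have h2 := le_abs_self (Pr μ Q (Qs (h s) Q) ζ N z - Pr μ Q Q ζ N z)
    rw [hρ₁]
    simp only at h1 ⊢
    linarith
  have hP0le : ∀ z, Pr μ Q Q ζ N z ≤ ρ₁ z := by
    intro z
    have : 0 ≤ ∑ s, |Pr μ Q (Qs (h s) Q) ζ N z - Pr μ Q Q ζ N z| :=
      Finset.sum_nonneg fun _ _ => abs_nonneg _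
    rw [hρ₁]
    simp only
    linarith
  have hρ_le : ∀ s v, ∑ v', J h m Q μ ζ N R s v v' ≤ ρ v := by
    intro s v
    refine (sum_J_le h m Q μ ζ N R hμ s v).trans ?_
    exact mul_le_mul_of_nonneg_left (hPle s v.1) hc0
  have hsum : ∀ g : (Fin Q.card → Fin (N + 1)) → ℝ,
      ∑ v : V Q.card N R, ρ v * g v.1 = ∑ z, ρ₁ z * g z := by
    intro g
    rw [Fintype.sum_prod_type]
    refine Finset.sum_congr rfl fun z _ => ?_
    simp only [hρ, Finset.sum_const, Finset.card_univ, Fintype.card_fun, Fintype.card_fin,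
      nsmul_eq_mul, Nat.cast_pow]
    have : (R : ℝ) ^ (N + 1) * c = 1 := by
      rw [hc, mul_inv_cancel₀]; positivity
    calc (R : ℝ) ^ (N + 1) * (c * ρ₁ z * g z) = ((R : ℝ) ^ (N + 1) * c) * (ρ₁ z * g z) := by ring
      _ = _ := by rw [this, one_mul]
  have hmass : ∑ v : V Q.card N R, ρ v ≤ 1 + Fintype.card S * ε := by
    have h1 := hsum (fun _ => 1)
    simp only [mul_one] at h1
    rw [h1, hρ₁, Finset.sum_add_distrib, Finset.sum_comm]
    have h2 := sum_Pr (μ := μ) (ζ := ζ) Q Q N (fun _ => 1)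
    simp only [mul_one] at h2
    rw [h2, av_const hμ1]
    have h3 : ∑ s, ∑ z, |Pr μ Q (Qs (h s) Q) ζ N z - Pr μ Q Q ζ N z| ≤ ∑ _s : S, ε :=
      Finset.sum_le_sum fun s _ => sum_abs_Pr H N (hQQ s) subset_rfl (Qs_card (h s) Q)
        (by omega) le_rfl
    rw [Finset.sum_const, Finset.card_univ, nsmul_eq_mul] at h3
    linarith
  have key := chain_ineq_disp hX hp hK inv (J h m Q μ ζ N R)
    (fun s v v' => J_nonneg h m Q μ ζ N R hμ s v v')
    (fun s v v' => (J_symm h m Q μ ζ N R inv h_inv m_inv s v v').symm) hinv ρ hρ_le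
    (fst Q N R x) t ht (fun w v => Dv Q x (bw h m w) v.1) (fun v => Dv_zero Q x v.1)
    (fun s w v v' hw hJ => path_step h m Q μ ζ N R x s (hQm s) (bw h m w) (hQb w hw.le)
      (hQh w hw s) v v' hJ.ne') B
    (fun w v hw => (Real.rpow_le_rpow (norm_nonneg _)
      (norm_Dv_le Q x hx (bw h m w) (hQb w hw.le) v.1) hp0).trans (hB w hw))
  have hlo : wordAvg t (fun w => av μ (fun ω => ‖Dv Q x (bw h m w) (zr Q Q ζ N ω)‖ ^ p)) ≤
      wordAvg t (fun w => ∑ v, ρ v * ‖Dv Q x (bw h m w) v.1‖ ^ p) := by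
    refine wordAvg_mono t _ _ fun w _ => ?_
    rw [hsum (fun z => ‖Dv Q x (bw h m w) z‖ ^ p),
      ← sum_Pr Q Q N (fun z => ‖Dv Q x (bw h m w) z‖ ^ p)]
    exact Finset.sum_le_sum fun z _ => mul_le_mul_of_nonneg_right (hP0le z) (by positivity)
  refine hlo.trans (key.trans ?_)
  have hB0 : 0 ≤ B := by
    obtain ⟨s⟩ := (inferInstance : Nonempty S)
    exact (Real.rpow_nonneg (l1_nonneg _) p).trans (hB (List.replicate t s) (by simp))
  refine add_le_add ?_ ?_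
  · refine mul_le_mul_of_nonneg_left ?_ (by positivity)
    refine mul_le_mul_of_nonneg_left ?_ (by positivity)
    exact Finset.sum_le_sum fun s _ => energy_le h m Q μ ζ N R hμ x s (hQm s) p
  · refine mul_le_mul_of_nonneg_left ?_ (by positivity)
    rw [Finset.sum_comm]
    refine Finset.sum_le_sum fun s _ => ?_
    rw [Finset.sum_sub_distrib]
    have := le_sum_J h m Q μ ζ N R hμ hμ1 hR s
    linarith

theorem one_seq (hX : HasMarkovType X p K) (hp : 1 < p) (hK : 0 < K) (inv : S → S)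
    (hinv : ∀ s, inv (inv s) = s) (h : S → Λ ≃o Λ) (h_inv : ∀ s, h (inv s) = (h s).symm)
    (m : S → Λ →₀ ℤ) (m_inv : ∀ s, m (inv s) = -(Finsupp.mapDomain (h s).symm (m s)))
    (t : ℕ) (ht : 1 ≤ t) (Q : Finset Λ) (hQm : ∀ s, (m s).support ⊆ Q)
    (hQb : ∀ w : List S, w.length ≤ t → (bw h m w).support ⊆ Q)
    (hQh : ∀ w : List S, w.length < t → ∀ s,
      (Finsupp.mapDomain (h s) (bw h m w)).support ⊆ Q)
    (B : ℝ) (hB : ∀ w : List S, w.length = t → l1 (bw h m w) ^ p ≤ B)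
    {μ : Ω → ℝ} (hμ : ∀ ω, 0 ≤ μ ω) (hμ1 : ∑ ω, μ ω = 1) {ζ : Ω → ℕ → ℕ} {ε : ℝ}
    (H : SprH μ ζ Q.card (2 * Q.card) ε) (N : ℕ) (x : Fin (N + 1) → X) (hx : ∀ i, ‖x i‖ ≤ 1) :
    wordAvg t (fun w => av μ (fun ω => ‖Dv Q x (bw h m w) (zr Q Q ζ N ω)‖ ^ p)) ≤
      K ^ p * t * ((Fintype.card S : ℝ)⁻¹ *
        ∑ s, av μ (fun ω => ‖Dv Q x (m s) (zr Q (Qs (h s) Q) ζ N ω)‖ ^ p)) +
      B * t * ((Fintype.card S : ℝ) ^ 2 * ε) := by
  have h1 : ∀ R : ℕ, 1 ≤ R → _ := fun R hR => one_seq_R hX hp hK inv hinv h h_inv m m_inv t ht Q hQm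
    hQb hQh B hB hμ hμ1 H N x hx R hR
  have h2 : Filter.Tendsto (fun R : ℕ => K ^ p * t * ((Fintype.card S : ℝ)⁻¹ *
        ∑ s, av μ (fun ω => ‖Dv Q x (m s) (zr Q (Qs (h s) Q) ζ N ω)‖ ^ p)) +
      B * t * ∑ s, (Fintype.card S * ε + l1 (m s) / R)) Filter.atTop
      (nhds (K ^ p * t * ((Fintype.card S : ℝ)⁻¹ *
        ∑ s, av μ (fun ω => ‖Dv Q x (m s) (zr Q (Qs (h s) Q) ζ N ω)‖ ^ p)) +
      B * t * ∑ _s : S, (Fintype.card S * ε + 0))) := by
    refine Filter.Tendsto.const_add _ (Filter.Tendsto.const_mul _ ?_)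
    refine tendsto_finset_sum _ fun s _ => ?_
    exact Filter.Tendsto.const_add _ (tendsto_const_div_atTop_nhds_zero_nat (l1 (m s)))
  have h3 := ge_of_tendsto h2 ((Filter.eventually_ge_atTop 1).mono fun R hR => h1 R hR)
  refine h3.trans (le_of_eq ?_)
  rw [Finset.sum_const, Finset.card_univ, nsmul_eq_mul]
  ring

/-- replacing the configuration by the list of coefficients -/
theorem av_close {μ : Ω → ℝ} {ζ : Ω → ℕ → ℕ} {ε : ℝ} (hp : 0 ≤ p) (Q Q' : Finset Λ)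
    (hQ : Q ⊆ Q') (hc : Q'.card ≤ 2 * Q.card)
    (H : SprH μ ζ Q.card (2 * Q.card) ε) (N : ℕ) (hN : ∀ ω i, i < 2 * Q.card → ζ ω i ≤ N)
    (x : ℕ → X) (hx : ∀ i, ‖x i‖ ≤ 1) (b : Λ →₀ ℤ) (hb : b.support ⊆ Q) :
    |av μ (fun ω => ‖Dv Q (fun ν : Fin (N + 1) => x ν) b (zr Q Q' ζ N ω)‖ ^ p) -
      av μ (fun ω => ‖∑ j : Fin (listOf b).length, (listOf b).get j • x (ζ ω j)‖ ^ p)| ≤
      l1 b ^ p * ε := by
  have e : ∀ ω, Dv Q (fun ν : Fin (N + 1) => x ν) b (zr Q Q' ζ N ω) =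
      b.sum (fun q c => (c : ℝ) • x (ζ ω (rkF Q' q))) := by
    intro ω
    have h1 := Dv_rank Q (fun ν : Fin (N + 1) => x ν) b hb (fun q => zf ζ N ω (rkF Q' q))
    have h2 : (fun j => zf ζ N ω (rkF Q' (Q.orderEmbOfFin rfl j))) = zr Q Q' ζ N ω := rfl
    rw [h2] at h1
    rw [h1]
    refine Finset.sum_congr rfl fun q hq => ?_
    have h3 : rkF Q' q < 2 * Q.card := (rkF_lt (hQ (hb hq))).trans_le hc
    have h4 : ((zf ζ N ω (rkF Q' q) : Fin (N + 1)) : ℕ) = ζ ω (rkF Q' q) := by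
      unfold zf
      rw [Fin.val_ofNat]
      exact Nat.mod_eq_of_lt (Nat.lt_succ_of_le (hN ω _ h3))
    simp only [h4]
  simp only [e]
  exact list_close H hp x hx b Q' (hb.trans hQ) hc (Finset.card_le_card hb)

end core

end Crest.Agent.R140.C3

namespace Crest.Agent.R140

open C3 Crest.AnalysisR

/-- **C3, finite level.** -/
theorem core {X : Type*} [NormedAddCommGroup X] [NormedSpace ℝ X] {p K : ℝ}
    (hX : HasMarkovType X p K) (hp : 1 < p) (hK : 0 < K)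
    {Λ : Type} [LinearOrder Λ] {S : Type} [Fintype S] [Nonempty S] (inv : S → S)
    (hinv : ∀ s, inv (inv s) = s) (h : S → Λ ≃o Λ) (h_inv : ∀ s, h (inv s) = (h s).symm)
    (m : S → Λ →₀ ℤ) (m_inv : ∀ s, m (inv s) = -(Finsupp.mapDomain (h s).symm (m s)))
    (t : ℕ) (ht : 1 ≤ t) :
    ∃ (k : ℕ) (C : ℝ), 0 ≤ C ∧ ∀ (Ω A : Type) [Fintype Ω] [Fintype A] (μ : Ω → ℝ),
      (∀ ω, 0 ≤ μ ω) → ∑ ω, μ ω = 1 → ∀ (ζ : Ω → ℕ → ℕ) (ε : ℝ), SprH μ ζ k (2 * k) ε →
      ∀ (w : A → ℝ), (∀ a, 0 ≤ w a) → ∑ a, w a = 1 → ∀ (x : A → ℕ → X), (∀ a i, ‖x a i‖ ≤ 1) →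
      (∑ wd : Fin t → S, QQ p μ ζ w x (listOf (bw h m (List.ofFn wd)))) /
          (Fintype.card S : ℝ) ^ t ≤
        K ^ p * t * ((∑ s, QQ p μ ζ w x (listOf (m s))) / Fintype.card S) + C * ε := by
  classical
  have hp0 : 0 ≤ p := by linarith
  have hfin : {w : List S | w.length ≤ t}.Finite := List.finite_length_le S t
  set W : Finset (List S) := hfin.toFinset with hW
  have hWm : ∀ w : List S, w.length ≤ t → w ∈ W := fun w hw => by rw [hW]; simpa using hw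
  set Q : Finset Λ := (Finset.univ.biUnion fun s => (m s).support) ∪
    (W.biUnion fun w => (bw h m w).support) ∪
    (W.biUnion fun w => Finset.univ.biUnion fun s =>
      (Finsupp.mapDomain (h s) (bw h m w)).support) with hQ
  have hQm : ∀ s, (m s).support ⊆ Q := by
    intro s
    refine Finset.Subset.trans ?_ (Finset.subset_union_left.trans Finset.subset_union_left)
    exact Finset.subset_biUnion_of_mem (fun s => (m s).support) (Finset.mem_univ s)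
  have hQb : ∀ w : List S, w.length ≤ t → (bw h m w).support ⊆ Q := by
    intro w hw
    refine Finset.Subset.trans ?_ (Finset.subset_union_right.trans Finset.subset_union_left)
    exact Finset.subset_biUnion_of_mem (fun w => (bw h m w).support) (hWm w hw)
  have hQh : ∀ w : List S, w.length < t → ∀ s,
      (Finsupp.mapDomain (h s) (bw h m w)).support ⊆ Q := by
    intro w hw s
    refine Finset.Subset.trans ?_ Finset.subset_union_right
    refine Finset.Subset.trans ?_ (Finset.subset_biUnion_of_mem (fun w => Finset.univ.biUnion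
      fun s => (Finsupp.mapDomain (h s) (bw h m w)).support) (hWm w hw.le))
    exact Finset.subset_biUnion_of_mem
      (fun s => (Finsupp.mapDomain (h s) (bw h m w)).support) (Finset.mem_univ s)
  set B : ℝ := ∑ w ∈ W, l1 (bw h m w) ^ p with hBdef
  have hB : ∀ w : List S, w.length ≤ t → l1 (bw h m w) ^ p ≤ B := fun w hw =>
    Finset.single_le_sum (f := fun w => l1 (bw h m w) ^ p)
      (fun w _ => Real.rpow_nonneg (l1_nonneg _) p) (hWm w hw)
  have hB0 : 0 ≤ B := Finset.sum_nonneg fun w _ => Real.rpow_nonneg (l1_nonneg _) p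
  set M : ℝ := ∑ s, l1 (m s) ^ p with hM
  have hM0 : 0 ≤ M := Finset.sum_nonneg fun s _ => Real.rpow_nonneg (l1_nonneg _) p
  have hS : (0 : ℝ) < Fintype.card S := by exact_mod_cast Fintype.card_pos
  refine ⟨Q.card, B + (K ^ p * t * ((Fintype.card S : ℝ)⁻¹ * M) +
    B * t * (Fintype.card S : ℝ) ^ 2), by positivity, ?_⟩
  intro Ω A _ _ μ hμ hμ1 ζ ε H w hw hw1 x hx
  obtain ⟨N, hN⟩ : ∃ N : ℕ, ∀ ω i, i < 2 * Q.card → ζ ω i ≤ N := by
    refine ⟨∑ ω, ∑ i ∈ Finset.range (2 * Q.card), ζ ω i, fun ω i hi => ?_⟩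
    refine le_trans ?_ (Finset.single_le_sum (f := fun ω => ∑ i ∈ Finset.range (2 * Q.card), ζ ω i)
      (fun _ _ => Nat.zero_le _) (Finset.mem_univ ω))
    exact Finset.single_le_sum (f := fun i => ζ ω i) (fun _ _ => Nat.zero_le _)
      (Finset.mem_range.mpr hi)
  have hε : 0 ≤ ε := H.nonneg
  -- one sequence
  set q1 : (ℕ → X) → List ℝ → ℝ := fun y l =>
    av μ (fun ω => ‖∑ j : Fin l.length, l.get j • y (ζ ω j)‖ ^ p) with hq1
  have hone : ∀ y : ℕ → X, (∀ i, ‖y i‖ ≤ 1) →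
      wordAvg t (fun w => q1 y (listOf (bw h m w))) ≤
        K ^ p * t * ((Fintype.card S : ℝ)⁻¹ * ∑ s, q1 y (listOf (m s))) +
        (B + (K ^ p * t * ((Fintype.card S : ℝ)⁻¹ * M) + B * t * (Fintype.card S : ℝ) ^ 2)) * ε := by
    intro y hy
    have h1 := one_seq hX hp hK inv hinv h h_inv m m_inv t ht Q hQm hQb hQh B
      (fun w hw => hB w hw.le) hμ hμ1 H N (fun ν : Fin (N + 1) => y ν) (fun i => hy i)
    have h2 : wordAvg t (fun w => q1 y (listOf (bw h m w))) ≤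
        wordAvg t (fun w => av μ (fun ω => ‖Dv Q (fun ν : Fin (N + 1) => y ν) (bw h m w)
          (zr Q Q ζ N ω)‖ ^ p)) + B * ε := by
      rw [← wordAvg_const (S := S) t (B * ε), ← wordAvg_add]
      refine wordAvg_mono t _ _ fun w hw => ?_
      have h3 := av_close hp0 Q Q subset_rfl (by omega) H N hN y hy (bw h m w) (hQb w hw.le)
      have h4 := (abs_le.mp h3).1
      have h5 := mul_le_mul_of_nonneg_right (hB w hw.le) hε
      simp only [hq1]
      linarith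
    have h6 : ∑ s, av μ (fun ω => ‖Dv Q (fun ν : Fin (N + 1) => y ν) (m s)
        (zr Q (Qs (h s) Q) ζ N ω)‖ ^ p) ≤ ∑ s, q1 y (listOf (m s)) + M * ε := by
      rw [hM, Finset.sum_mul, ← Finset.sum_add_distrib]
      refine Finset.sum_le_sum fun s _ => ?_
      have h3 := av_close hp0 Q (Qs (h s) Q) Finset.subset_union_left (Qs_card (h s) Q) H N hN y hy
        (m s) (hQm s)
      have h4 := (abs_le.mp h3).2
      simp only [hq1]
      linarith
    have h7 : K ^ p * t * ((Fintype.card S : ℝ)⁻¹ * ∑ s, av μ (fun ω =>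
        ‖Dv Q (fun ν : Fin (N + 1) => y ν) (m s) (zr Q (Qs (h s) Q) ζ N ω)‖ ^ p)) ≤
        K ^ p * t * ((Fintype.card S : ℝ)⁻¹ * (∑ s, q1 y (listOf (m s)) + M * ε)) := by
      refine mul_le_mul_of_nonneg_left ?_ (by positivity)
      exact mul_le_mul_of_nonneg_left h6 (by positivity)
    calc wordAvg t (fun w => q1 y (listOf (bw h m w))) ≤ _ := h2
      _ ≤ _ := add_le_add_left (h1.trans (add_le_add_left h7 _)) _
      _ = _ := by ring
  -- the family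
  have hQQ : ∀ l, QQ p μ ζ w x l = ∑ a, w a * q1 (x a) l := by
    intro l
    unfold QQ
    simp only [hq1, av]
    rw [Finset.sum_congr rfl fun ω _ => Finset.mul_sum _ _ _, Finset.sum_comm]
    refine Finset.sum_congr rfl fun a _ => ?_
    rw [Finset.mul_sum]
    exact Finset.sum_congr rfl fun ω _ => by ring
  rw [← wordAvg_eq_sum t (fun wd => QQ p μ ζ w x (listOf (bw h m wd)))]
  simp only [hQQ]
  rw [wordAvg_sum Finset.univ t (fun a wd => w a * q1 (x a) (listOf (bw h m wd)))]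
  have h8 : ∀ a, wordAvg t (fun wd => w a * q1 (x a) (listOf (bw h m wd))) ≤
      w a * (K ^ p * t * ((Fintype.card S : ℝ)⁻¹ * ∑ s, q1 (x a) (listOf (m s))) +
        (B + (K ^ p * t * ((Fintype.card S : ℝ)⁻¹ * M) + B * t * (Fintype.card S : ℝ) ^ 2)) * ε) := by
    intro a
    rw [wordAvg_mul_left]
    exact mul_le_mul_of_nonneg_left (hone (x a) (hx a)) (hw a)
  refine (Finset.sum_le_sum fun a _ => h8 a).trans (le_of_eq ?_)
  rw [Finset.sum_congr rfl fun a _ => mul_add (w a) _ _, Finset.sum_add_distrib, ← Finset.sum_mul,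
    hw1, one_mul]
  congr 1
  have h9 : ∑ s, ∑ a, w a * q1 (x a) (listOf (m s)) = ∑ a, w a * ∑ s, q1 (x a) (listOf (m s)) := by
    rw [Finset.sum_comm]
    exact Finset.sum_congr rfl fun a _ => (Finset.mul_sum _ _ _).symm
  rw [h9, Finset.sum_div, Finset.mul_sum]
  exact Finset.sum_congr rfl fun a _ => by ring

end Crest.Agent.R140
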