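import Crest.Agent.R140.C3Defs

/-! Row 140, part C3: ranks in finite subsets of a linear order, coefficient sums -/

set_option autoImplicit false

namespace Crest.Agent.R140.C3

open Crest.Agent.R140

section rank
variable {Λ : Type} [LinearOrder Λ]

/-- rank of `q` in the finite set `Q` -/
def rkF (Q : Finset Λ) (q : Λ) : ℕ := (Q.filter (· < q)).card

theorem rkF_lt {Q : Finset Λ} {q : Λ} (hq : q ∈ Q) : rkF Q q < Q.card := by
  apply Finset.card_lt_card
  rw [Finset.ssubset_iff_of_subset (Finset.filter_subset _ _)]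
  exact ⟨q, hq, by simp⟩

theorem rkF_strict {Q : Finset Λ} {q q' : Λ} (hq : q ∈ Q) (hlt : q < q') : rkF Q q < rkF Q q' := by
  apply Finset.card_lt_card
  rw [Finset.ssubset_iff_of_subset]
  · exact ⟨q, by simp [hq, hlt], by simp⟩
  · intro x hx
    simp only [Finset.mem_filter] at hx ⊢
    exact ⟨hx.1, hx.2.trans hlt⟩

theorem rkF_image (e : Λ ≃o Λ) (Q : Finset Λ) (q : Λ) : rkF (Q.image e) (e q) = rkF Q q := by
  unfold rkF
  rw [Finset.filter_image, Finset.card_image_of_injective _ e.injective]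
  congr 1
  ext x
  simp

/-- `Q ∪ h Q` -/
def Qs (e : Λ ≃o Λ) (Q : Finset Λ) : Finset Λ := Q ∪ Q.image e

theorem Qs_card (e : Λ ≃o Λ) (Q : Finset Λ) : (Qs e Q).card ≤ 2 * Q.card := by
  refine (Finset.card_union_le _ _).trans ?_
  have := Finset.card_image_le (s := Q) (f := e)
  omega

theorem Qs_symm (e : Λ ≃o Λ) (Q : Finset Λ) : (Qs e.symm Q).image e = Qs e Q := by
  unfold Qs
  rw [Finset.image_union, Finset.image_image]
  have : (⇑e ∘ ⇑e.symm) = id := by ext x; simp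
  rw [this, Finset.image_id, Finset.union_comm]

theorem rk_symm (e : Λ ≃o Λ) (Q : Finset Λ) (q : Λ) :
    rkF (Qs e.symm Q) (e.symm q) = rkF (Qs e Q) q := by
  rw [← rkF_image e (Qs e.symm Q) (e.symm q), Qs_symm]
  simp

theorem rk_symm' (e : Λ ≃o Λ) (Q : Finset Λ) (q : Λ) :
    rkF (Qs e.symm Q) q = rkF (Qs e Q) (e q) := by
  have := rk_symm e Q (e q)
  simpa using this

/-- sum over the order enumeration of a finite set -/
theorem sum_orderEmb {M : Type*} [AddCommMonoid M] (Q : Finset Λ) (F : Λ → M) :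
    ∑ j : Fin Q.card, F (Q.orderEmbOfFin rfl j) = ∑ q ∈ Q, F q := by
  have h : Finset.univ.map (Q.orderEmbOfFin rfl).toEmbedding = Q := by
    ext x
    simp only [Finset.mem_map, Finset.mem_univ, true_and]
    have := Finset.range_orderEmbOfFin Q rfl
    constructor
    · rintro ⟨j, rfl⟩
      exact Finset.orderEmbOfFin_mem Q rfl j
    · intro hx
      have : x ∈ Set.range (Q.orderEmbOfFin rfl) := by rw [this]; exact hx
      obtain ⟨j, rfl⟩ := this
      exact ⟨j, rfl⟩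
  conv_rhs => rw [← h]
  rw [Finset.sum_map]
  rfl

end rank

section act
variable {Λ : Type} [LinearOrder Λ] {X : Type*} [NormedAddCommGroup X] [NormedSpace ℝ X]

theorem finsupp_sum_eq (b : Λ →₀ ℤ) (Q : Finset Λ) (hb : b.support ⊆ Q) (y : Λ → X) :
    ∑ q ∈ Q, (b q : ℝ) • y q = b.sum (fun q c => (c : ℝ) • y q) := by
  unfold Finsupp.sum
  symm
  apply Finset.sum_subset hb
  intro q _ hq
  simp only [Finsupp.mem_support_iff, not_not] at hq
  simp [hq]

theorem finsupp_sum_mapDomain (e : Λ ≃o Λ) (b : Λ →₀ ℤ) (y : Λ → X) :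
    (Finsupp.mapDomain e b).sum (fun q c => (c : ℝ) • y q) =
      b.sum (fun q c => (c : ℝ) • y (e q)) := by
  rw [Finsupp.sum_mapDomain_index_inj (f := e) e.injective]

/-- `∑_j b(e_j) x(z_j)` -/
noncomputable def Dv (Q : Finset Λ) {ι : Type*} (x : ι → X) (b : Λ →₀ ℤ) (z : Fin Q.card → ι) : X :=
  ∑ j, (b (Q.orderEmbOfFin rfl j) : ℝ) • x (z j)

theorem Dv_rank (Q : Finset Λ) {ι : Type*} (x : ι → X) (b : Λ →₀ ℤ) (hb : b.support ⊆ Q)
    (r : Λ → ι) : Dv Q x b (fun j => r (Q.orderEmbOfFin rfl j)) =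
      b.sum (fun q c => (c : ℝ) • x (r q)) := by
  unfold Dv
  rw [sum_orderEmb Q (fun q => (b q : ℝ) • x (r q)), finsupp_sum_eq b Q hb (fun q => x (r q))]

/-- moving a vector: if `z_j = r(e_j)` and `z'_j = r(h e_j)` then
`∑ b(e_j) x(z'_j) = ∑ (h b)(e_j) x(z_j)` -/
theorem Dv_move (Q : Finset Λ) {ι : Type*} (x : ι → X) (b : Λ →₀ ℤ) (e : Λ ≃o Λ)
    (hb : b.support ⊆ Q) (hb' : (Finsupp.mapDomain e b).support ⊆ Q) (r : Λ → ι) :
    Dv Q x b (fun j => r (e (Q.orderEmbOfFin rfl j))) =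
      Dv Q x (Finsupp.mapDomain e b) (fun j => r (Q.orderEmbOfFin rfl j)) := by
  rw [Dv_rank Q x (Finsupp.mapDomain e b) hb' r, finsupp_sum_mapDomain,
    Dv_rank Q x b hb (fun q => r (e q))]

theorem Dv_zero (Q : Finset Λ) {ι : Type*} (x : ι → X) (z : Fin Q.card → ι) :
    Dv Q x 0 z = 0 := by
  simp [Dv]

theorem Dv_add (Q : Finset Λ) {ι : Type*} (x : ι → X) (b b' : Λ →₀ ℤ) (z : Fin Q.card → ι) :
    Dv Q x (b + b') z = Dv Q x b z + Dv Q x b' z := by
  unfold Dv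
  rw [← Finset.sum_add_distrib]
  refine Finset.sum_congr rfl fun j _ => ?_
  rw [Finsupp.add_apply, Int.cast_add, add_smul]

/-- ℓ¹ norm of an integer vector -/
noncomputable def l1 (b : Λ →₀ ℤ) : ℝ := ∑ q ∈ b.support, |(b q : ℝ)|

theorem l1_nonneg (b : Λ →₀ ℤ) : 0 ≤ l1 b := Finset.sum_nonneg fun _ _ => abs_nonneg _

theorem l1_eq (b : Λ →₀ ℤ) (Q : Finset Λ) (hb : b.support ⊆ Q) :
    ∑ q ∈ Q, |(b q : ℝ)| = l1 b := by
  unfold l1
  symm
  apply Finset.sum_subset hb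
  intro q _ hq
  simp only [Finsupp.mem_support_iff, not_not] at hq
  simp [hq]

theorem norm_Dv_le (Q : Finset Λ) {ι : Type*} (x : ι → X) (hx : ∀ i, ‖x i‖ ≤ 1) (b : Λ →₀ ℤ)
    (hb : b.support ⊆ Q) (z : Fin Q.card → ι) : ‖Dv Q x b z‖ ≤ l1 b := by
  unfold Dv
  refine (norm_sum_le _ _).trans ?_
  rw [← l1_eq b Q hb, ← sum_orderEmb Q (fun q => |(b q : ℝ)|)]
  refine Finset.sum_le_sum fun j _ => ?_
  rw [norm_smul, Real.norm_eq_abs]
  have := mul_le_mul_of_nonneg_left (hx (z j)) (abs_nonneg ((b (Q.orderEmbOfFin rfl j) : ℤ) : ℝ))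
  simpa using this

end act

end Crest.Agent.R140.C3
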