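import Crest.Agent.R140.LimNorm
import Crest.Agent.R140.MonoN
import Crest.Agent.R140.C3Main

/-!
# Row 140: the contract theorem `exists_spr` between {C1, C2, C3} and {C4, C5}
-/

set_option autoImplicit false

namespace Crest.Agent.R140

open Crest.AnalysisR Filter Crest.Agent.R140.LimNorm

/-- **Contract.** A space of Markov type `p > 1` with separated families of all lengths carries
a spreading invariant list norm, bounded below on `(1,…,1,-1,…,-1)`, which satisfies the group
inequality for every linear order. -/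
theorem exists_spr {X : Type*} [NormedAddCommGroup X] [NormedSpace ℝ X] {p K θ : ℝ}
    (hX : HasMarkovType X p K) (hp : 1 < p) (hK : 0 < K) (hsep : ∀ n, SepFam X θ n) :
    ∃ M : SprNorm, (∀ m : ℕ, θ * m ≤ M.N (List.replicate m 1 ++ List.replicate m (-1))) ∧
      (∀ (L : Type) [LinearOrder L] (S : Type) [Fintype S] [Nonempty S] (inv : S → S)
        (h : S → L ≃o L) (m : S → L →₀ ℤ), (∀ s, inv (inv s) = s) →
        (∀ s, h (inv s) = (h s).symm) → (∀ s, m (inv s) = -(m s).mapDomain (h s).symm) →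
        ∀ t : ℕ, (∑ w : Fin t → S, M.fnZ (bw h m (List.ofFn w)) ^ p) / (Fintype.card S : ℝ) ^ t ≤
          K ^ p * t * ((∑ s, M.fnZ (m s) ^ p) / Fintype.card S)) := by
  obtain ⟨U, nn, ee, Z, F, M, hn, he, hM, _, hM3⟩ := limNorm (X := X) (p := p) (θ := θ) hp.le hsep
  refine ⟨M, hM3, ?_⟩
  intro L _ S _ _ inv h m h1 h2 h3 t
  rcases Nat.eq_zero_or_pos t with rfl | ht
  · have h0 : M.fnZ (bw h m ([] : List S)) = 0 := by
      rw [M.fnZ_eq_fnZ']
      exact M.listNorm.fnZ'_zero
    simp [h0, Real.zero_rpow (by linarith : p ≠ 0)]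
  obtain ⟨k, C, hC0, hC⟩ := core hX hp hK inv h1 h h2 m h3 t ht
  have key : ∀ v : L →₀ ℤ,
      Tendsto (fun r => C3.QQ p (Z r).μ (Z r).ζ (F r).w (F r).x (C3.listOf v)) U
        (nhds (M.fnZ v ^ p)) := fun v => hM (C3.listOf v)
  have t1 : Tendsto (fun r => (∑ w : Fin t → S,
      C3.QQ p (Z r).μ (Z r).ζ (F r).w (F r).x (C3.listOf (bw h m (List.ofFn w)))) /
        (Fintype.card S : ℝ) ^ t) U
      (nhds ((∑ w : Fin t → S, M.fnZ (bw h m (List.ofFn w)) ^ p) / (Fintype.card S : ℝ) ^ t)) :=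
    (tendsto_finsetSum _ fun w _ => key _).div_const _
  have t2 : Tendsto (fun r => K ^ p * t *
      ((∑ s, C3.QQ p (Z r).μ (Z r).ζ (F r).w (F r).x (C3.listOf (m s))) / Fintype.card S) +
        C * ee r) U
      (nhds (K ^ p * t * ((∑ s, M.fnZ (m s) ^ p) / Fintype.card S) + C * 0)) :=
    (((tendsto_finsetSum _ fun s _ => key _).div_const _).const_mul _).add
      (he.const_mul C)
  rw [mul_zero, add_zero] at t2
  refine le_of_tendsto_of_tendsto t1 t2 ?_
  filter_upwards [hn.eventually_ge_atTop (2 * k)] with r hr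
  refine hC (Z r).Ω (F r).A (Z r).μ (Z r).μ_nonneg (Z r).μ_sum (Z r).ζ (ee r) ?_
    (F r).w (F r).w_nonneg (F r).w_sum (F r).x (F r).norm_le
  intro j _ i i' hi hi' hin hin' G hG
  exact (Z r).spr j i i' hi hi' (fun a => (hin a).trans_le hr) (fun a => (hin' a).trans_le hr) G hG

end Crest.Agent.R140
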