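import Mathlib
import Crest.Prelude.Def_MarkovType

/-!
# Row 140 (Markov type > 1 implies an equivalent uniformly convex norm): shared definitions

Interface between the modules C1 (spreadable tuples), C2 (limit norm), C3 (group inequality),
C4 (subdivision norm, merging) and C5 (dynamics).
-/

set_option autoImplicit false

namespace Crest.Agent.R140

/-- A seminorm on finite real lists which does not see inserted zeros. -/
structure SprNorm where
  N : List ℝ → ℝ
  nonneg : ∀ l, 0 ≤ N l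
  smul : ∀ (t : ℝ) (l : List ℝ), N (l.map (fun x => t * x)) = |t| * N l
  add : ∀ l l' : List ℝ, l.length = l'.length →
    N (List.zipWith (fun x y => x + y) l l') ≤ N l + N l'
  zero : ∀ l l' : List ℝ, N (l ++ 0 :: l') = N (l ++ l')
  single : N [1] ≤ 1

/-- A `SprNorm` which in addition does not see the subdivision of an atom `c` into `k` atoms
`c / k`. -/
structure SubNorm extends SprNorm where
  sub : ∀ (A B : List ℝ) (c : ℝ) (k : ℕ), 0 < k →
    N (A ++ List.replicate k (c / k) ++ B) = N (A ++ c :: B)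

/-- Value of a list norm on a finitely supported real function on a linear order. -/
noncomputable def SprNorm.fn (M : SprNorm) {Λ : Type*} [LinearOrder Λ] (c : Λ →₀ ℝ) : ℝ :=
  M.N ((c.support.sort (· ≤ ·)).map (fun x => c x))

/-- Value of a list norm on a finitely supported integer function on a linear order. -/
noncomputable def SprNorm.fnZ (M : SprNorm) {Λ : Type*} [LinearOrder Λ] (c : Λ →₀ ℤ) : ℝ :=
  M.N ((c.support.sort (· ≤ ·)).map (fun x => ((c x : ℤ) : ℝ)))

/-- One level of the approximating data: a finite weighted family `x a : ℕ → X` in the unit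
ball and a finite random tuple `ζ ω 0, …, ζ ω (n-1)` of numbers `< R` whose subtuples have
almost the same laws. -/
structure Lev (X : Type*) [NormedAddCommGroup X] [NormedSpace ℝ X] where
  n : ℕ
  R : ℕ
  ε : ℝ
  Ω : Type
  [fΩ : Fintype Ω]
  μ : Ω → ℝ
  μ0 : ∀ ω, 0 ≤ μ ω
  μ1 : ∑ ω, μ ω = 1
  ζ : Ω → ℕ → ℕ
  ζR : ∀ ω i, ζ ω i < R
  spread : ∀ (k : ℕ) (i i' : Fin k → ℕ), StrictMono i → StrictMono i' →
    (∀ j, i j < n) → (∀ j, i' j < n) → ∀ F : (Fin k → ℕ) → ℝ, (∀ v, |F v| ≤ 1) →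
    |∑ ω, μ ω * F (fun j => ζ ω (i j)) - ∑ ω, μ ω * F (fun j => ζ ω (i' j))| ≤ ε
  A : Type
  [fA : Fintype A]
  w : A → ℝ
  w0 : ∀ a, 0 ≤ w a
  w1 : ∑ a, w a = 1
  x : A → ℕ → X
  xB : ∀ a i, ‖x a i‖ ≤ 1

attribute [instance] Lev.fΩ Lev.fA

/-- The `p`-th moment of the vector `l` at level `L` (positions `0, …, length - 1`). -/
noncomputable def Lev.Q {X : Type*} [NormedAddCommGroup X] [NormedSpace ℝ X] (L : Lev X)
    (p : ℝ) (l : List ℝ) : ℝ :=
  ∑ ω, L.μ ω * ∑ a, L.w a * ‖∑ j : Fin l.length, l.get j • L.x a (L.ζ ω j)‖ ^ p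

/-- The list norm `M` is the limit of the `p`-th moments along the ultrafilter `U`. -/
structure IsLim {X : Type*} [NormedAddCommGroup X] [NormedSpace ℝ X] (L : ℕ → Lev X)
    (U : Ultrafilter ℕ) (p : ℝ) (M : SprNorm) : Prop where
  n_lim : Filter.Tendsto (fun r => (L r).n) U Filter.atTop
  ε_lim : Filter.Tendsto (fun r => (L r).ε) U (nhds 0)
  Q_lim : ∀ l : List ℝ, Filter.Tendsto (fun r => (L r).Q p l) U (nhds (M.N l ^ p))

/-- Separated family of length `n` with constant `θ` (output of part B). -/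
def SepFam (X : Type*) [NormedAddCommGroup X] [NormedSpace ℝ X] (θ : ℝ) (n : ℕ) : Prop :=
  ∃ (A : Type) (_ : Fintype A) (w : A → ℝ) (x : A → ℕ → X),
    (∀ a, 0 ≤ w a) ∧ ∑ a, w a = 1 ∧ (∀ a i, ‖x a i‖ ≤ 1) ∧
    ∀ (m : ℕ) (z : Fin (2 * m) → ℕ), StrictMono z → (∀ j, z j < n) →
      θ * m ≤ ∑ a, w a * ‖∑ j : Fin (2 * m), (if (j : ℕ) < m then (1 : ℝ) else -1) • x a (z j)‖

end Crest.Agent.R140
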