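import Mathlib

/-!
# Row 140 (S0191), part C5: the dynamics

Piecewise affine order automorphisms `sig i` of `ℝ`, the `±1`-functions `phi i`, the window vectors,
the two recursions, sampling, and the final contradiction from the abstract properties of the
limit norm (`MonoNorm`) and the group inequality (hypothesis `hC3`).
-/

set_option autoImplicit false

namespace Crest.Agent.R140.Dyn

open Finset

noncomputable section

/-! ## The basic map and the basic function -/

/-- the basic `±1` function of period `3` : `+1` on `[0,1)`, `-1` on `[1,3)`. -/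
def phi (x : ℝ) : ℤ := if x - 3 * (⌊x / 3⌋ : ℝ) < 1 then 1 else -1

/-- the basic automorphism : `[0,1) → [1,3)`, `[1,3) → [3,4)`, commuting with `x ↦ x + 3`. -/
def sigf (x : ℝ) : ℝ :=
  3 * (⌊x / 3⌋ : ℝ) +
    (if x - 3 * (⌊x / 3⌋ : ℝ) < 1 then 1 + 2 * (x - 3 * (⌊x / 3⌋ : ℝ))
      else (x - 3 * (⌊x / 3⌋ : ℝ) + 5) / 2)

def tauf (y : ℝ) : ℝ :=
  3 * (⌊(y - 1) / 3⌋ : ℝ) +
    (if y - 1 - 3 * (⌊(y - 1) / 3⌋ : ℝ) < 2 then (y - 1 - 3 * (⌊(y - 1) / 3⌋ : ℝ)) / 2
      else 2 * (y - 1 - 3 * (⌊(y - 1) / 3⌋ : ℝ)) - 3)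

lemma exists_rep (x : ℝ) : ∃ (q : ℤ) (r : ℝ), 0 ≤ r ∧ r < 3 ∧ x = 3 * (q : ℝ) + r := by
  refine ⟨⌊x / 3⌋, x - 3 * (⌊x / 3⌋ : ℝ), ?_, ?_, by ring⟩
  · have := Int.floor_le (x / 3)
    linarith
  · have := Int.lt_floor_add_one (x / 3)
    linarith

lemma floor_rep (q : ℤ) (r : ℝ) (h0 : 0 ≤ r) (h3 : r < 3) : ⌊(3 * (q : ℝ) + r) / 3⌋ = q := by
  rw [Int.floor_eq_iff]
  constructor <;> linarith

lemma phi_rep (q : ℤ) (r : ℝ) (h0 : 0 ≤ r) (h3 : r < 3) :
    phi (3 * (q : ℝ) + r) = if r < 1 then 1 else -1 := by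
  unfold phi
  rw [floor_rep q r h0 h3, show 3 * (q : ℝ) + r - 3 * (q : ℝ) = r by ring]

lemma sigf_rep (q : ℤ) (r : ℝ) (h0 : 0 ≤ r) (h3 : r < 3) :
    sigf (3 * (q : ℝ) + r) = 3 * (q : ℝ) + (if r < 1 then 1 + 2 * r else (r + 5) / 2) := by
  unfold sigf
  rw [floor_rep q r h0 h3, show 3 * (q : ℝ) + r - 3 * (q : ℝ) = r by ring]

lemma sigf_tauf (y : ℝ) : sigf (tauf y) = y := by
  obtain ⟨q, r, h0, h3, hy⟩ := exists_rep (y - 1)
  have hy' : y = 3 * (q : ℝ) + r + 1 := by linarith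
  have ht : tauf y = 3 * (q : ℝ) + (if r < 2 then r / 2 else 2 * r - 3) := by
    unfold tauf
    rw [hy, floor_rep q r h0 h3, show 3 * (q : ℝ) + r - 3 * (q : ℝ) = r by ring]
  rw [ht]
  by_cases h : r < 2
  · rw [if_pos h, sigf_rep q (r / 2) (by linarith) (by linarith), if_pos (by linarith), hy']
    ring
  · rw [if_neg h, sigf_rep q (2 * r - 3) (by linarith) (by linarith), if_neg (by linarith), hy']
    ring

lemma sigf_strictMono : StrictMono sigf := by
  intro x y hxy
  obtain ⟨q, r, h0, h3, hx⟩ := exists_rep x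
  obtain ⟨q', r', h0', h3', hy⟩ := exists_rep y
  rw [hx, hy, sigf_rep q r h0 h3, sigf_rep q' r' h0' h3']
  have hqq : q ≤ q' := by
    by_contra hc
    have h1 : q' + 1 ≤ q := by omega
    have h2 : (q' : ℝ) + 1 ≤ q := by exact_mod_cast h1
    linarith
  rcases eq_or_lt_of_le hqq with h | h
  · subst h
    have hr : r < r' := by linarith
    split_ifs <;> linarith
  · have h2 : (q : ℝ) + 1 ≤ q' := by exact_mod_cast h
    split_ifs <;> linarith

/-- the basic automorphism as an order isomorphism -/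
def sig0 : ℝ ≃o ℝ := StrictMono.orderIsoOfRightInverse sigf sigf_strictMono tauf sigf_tauf

@[simp] lemma sig0_apply (x : ℝ) : sig0 x = sigf x := rfl

lemma phi_sigf (x : ℝ) : phi (sigf x) = - phi x := by
  obtain ⟨q, r, h0, h3, hx⟩ := exists_rep x
  rw [hx, sigf_rep q r h0 h3, phi_rep q r h0 h3]
  by_cases h : r < 1
  · rw [if_pos h, if_pos h, phi_rep q _ (by linarith) (by linarith), if_neg (by linarith)]
  · rw [if_neg h, if_neg h,
      show 3 * (q : ℝ) + (r + 5) / 2 = 3 * ((q + 1 : ℤ) : ℝ) + (r - 1) / 2 by push_cast; ring,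
      phi_rep (q + 1) _ (by linarith) (by linarith), if_pos (by linarith)]
    rfl

lemma lt_sigf (x : ℝ) : x < sigf x := by
  obtain ⟨q, r, h0, h3, hx⟩ := exists_rep x
  rw [hx, sigf_rep q r h0 h3]
  split_ifs <;> linarith

lemma sigf_le (x : ℝ) : sigf x ≤ x + 2 := by
  obtain ⟨q, r, h0, h3, hx⟩ := exists_rep x
  rw [hx, sigf_rep q r h0 h3]
  split_ifs <;> linarith

lemma sigf_add_three (x : ℝ) : sigf (x + 3) = sigf x + 3 := by
  obtain ⟨q, r, h0, h3, hx⟩ := exists_rep x
  rw [hx, sigf_rep q r h0 h3,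
    show 3 * (q : ℝ) + r + 3 = 3 * ((q + 1 : ℤ) : ℝ) + r by push_cast; ring,
    sigf_rep (q + 1) r h0 h3]
  push_cast
  ring

lemma phi_add_three (x : ℝ) : phi (x + 3) = phi x := by
  obtain ⟨q, r, h0, h3, hx⟩ := exists_rep x
  rw [hx, phi_rep q r h0 h3,
    show 3 * (q : ℝ) + r + 3 = 3 * ((q + 1 : ℤ) : ℝ) + r by push_cast; ring,
    phi_rep (q + 1) r h0 h3]

lemma phi_sum (x : ℝ) : phi x + phi (x - 1) + phi (x - 2) = -1 := by
  obtain ⟨q, r, h0, h3, hx⟩ := exists_rep x
  rw [hx, phi_rep q r h0 h3]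
  by_cases h1 : r < 1
  · rw [if_pos h1,
      show 3 * (q : ℝ) + r - 1 = 3 * ((q - 1 : ℤ) : ℝ) + (r + 2) by push_cast; ring,
      show 3 * (q : ℝ) + r - 2 = 3 * ((q - 1 : ℤ) : ℝ) + (r + 1) by push_cast; ring,
      phi_rep (q - 1) _ (by linarith) (by linarith), phi_rep (q - 1) _ (by linarith) (by linarith),
      if_neg (by linarith), if_neg (by linarith)]
    norm_num
  · by_cases h2 : r < 2
    · rw [if_neg h1,
        show 3 * (q : ℝ) + r - 1 = 3 * (q : ℝ) + (r - 1) by ring,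
        show 3 * (q : ℝ) + r - 2 = 3 * ((q - 1 : ℤ) : ℝ) + (r + 1) by push_cast; ring,
        phi_rep q _ (by linarith) (by linarith), phi_rep (q - 1) _ (by linarith) (by linarith),
        if_pos (by linarith), if_neg (by linarith)]
      norm_num
    · rw [if_neg h1,
        show 3 * (q : ℝ) + r - 1 = 3 * (q : ℝ) + (r - 1) by ring,
        show 3 * (q : ℝ) + r - 2 = 3 * (q : ℝ) + (r - 2) by ring,
        phi_rep q _ (by linarith) (by linarith), phi_rep q _ (by linarith) (by linarith),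
        if_neg (by linarith), if_pos (by linarith)]
      norm_num

/-! ## The six generators -/

/-- the automorphism `σ_i` -/
def sig (i : Fin 3) : ℝ ≃o ℝ :=
  (OrderIso.addRight (-(i : ℝ))).trans (sig0.trans (OrderIso.addRight (i : ℝ)))

lemma sig_apply (i : Fin 3) (x : ℝ) : sig i x = sigf (x - (i : ℝ)) + (i : ℝ) := by
  simp [sig, sub_eq_add_neg]

/-- `φ_i` -/
def ph (i : Fin 3) (x : ℝ) : ℤ := phi (x - (i : ℝ))

lemma ph_sig (i : Fin 3) (x : ℝ) : ph i (sig i x) = - ph i x := by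
  unfold ph
  rw [sig_apply, add_sub_cancel_right, phi_sigf]

lemma ph_sig_symm (i : Fin 3) (x : ℝ) : ph i ((sig i).symm x) = - ph i x := by
  have h := ph_sig i ((sig i).symm x)
  rw [OrderIso.apply_symm_apply] at h
  rw [h, neg_neg]

lemma ph_sum (x : ℝ) : ∑ i : Fin 3, ph i x = -1 := by
  rw [Fin.sum_univ_three]
  have h := phi_sum x
  simpa [ph] using h

/-- alphabet of generators -/
abbrev Gen : Type := Fin 3 × Bool

def hh (s : Gen) : ℝ ≃o ℝ := if s.2 then sig s.1 else (sig s.1).symm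

lemma ph_hh (s : Gen) (x : ℝ) : ph s.1 (hh s x) = - ph s.1 x := by
  unfold hh
  split_ifs
  · exact ph_sig _ _
  · exact ph_sig_symm _ _

lemma sig_abs (i : Fin 3) (x : ℝ) : |sig i x - x| ≤ 2 := by
  rw [sig_apply, abs_le]
  have h1 := lt_sigf (x - (i : ℝ))
  have h2 := sigf_le (x - (i : ℝ))
  constructor <;> linarith

lemma sig_symm_abs (i : Fin 3) (x : ℝ) : |(sig i).symm x - x| ≤ 2 := by
  have h := sig_abs i ((sig i).symm x)
  rw [OrderIso.apply_symm_apply, abs_sub_comm] at h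
  exact h

lemma hh_symm_abs (s : Gen) (x : ℝ) : |(hh s).symm x - x| ≤ 2 := by
  unfold hh
  split_ifs
  · exact sig_symm_abs _ _
  · simpa using sig_abs _ _

lemma sig_add_three (i : Fin 3) (x : ℝ) : sig i (x + 3) = sig i x + 3 := by
  rw [sig_apply, sig_apply, show x + 3 - (i : ℝ) = (x - (i : ℝ)) + 3 by ring, sigf_add_three]
  ring

lemma sig_symm_add_three (i : Fin 3) (x : ℝ) : (sig i).symm (x + 3) = (sig i).symm x + 3 := by
  apply (sig i).injective
  rw [OrderIso.apply_symm_apply, sig_add_three, OrderIso.apply_symm_apply]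

lemma hh_symm_add_three (s : Gen) (x : ℝ) : (hh s).symm (x + 3) = (hh s).symm x + 3 := by
  unfold hh
  split_ifs
  · exact sig_symm_add_three _ _
  · simpa using sig_add_three _ _

lemma ph_add_three (i : Fin 3) (x : ℝ) : ph i (x + 3) = ph i x := by
  unfold ph
  rw [show x + 3 - (i : ℝ) = (x - (i : ℝ)) + 3 by ring, phi_add_three]

/-! ## Words -/

/-- `Φ_w` -/
def Ph : List Gen → ℝ → ℤ
  | [], _ => 0
  | s :: w, x => ph s.1 x + Ph w ((hh s).symm x)

/-- `P_w` -/
def PP : List Gen → ℝ → ℝ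
  | [], y => y
  | s :: w, y => hh s (PP w y)

lemma Ph_add_three (w : List Gen) : ∀ x : ℝ, Ph w (x + 3) = Ph w x := by
  induction w with
  | nil => intro x; rfl
  | cons s w ih =>
    intro x
    simp only [Ph]
    rw [ph_add_three, hh_symm_add_three, ih]

lemma Ph_add_nat (w : List Gen) (x : ℝ) (j : ℕ) : Ph w (x + 3 * (j : ℝ)) = Ph w x := by
  induction j with
  | zero => simp
  | succ j ih =>
    rw [show x + 3 * ((j + 1 : ℕ) : ℝ) = (x + 3 * (j : ℝ)) + 3 by push_cast; ring,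
      Ph_add_three, ih]

lemma Ph_add_int (w : List Gen) (x : ℝ) (j : ℤ) : Ph w (x + 3 * (j : ℝ)) = Ph w x := by
  rcases Int.eq_nat_or_neg j with ⟨n, h | h⟩
  · subst h
    have := Ph_add_nat w x n
    simpa using this
  · subst h
    have := Ph_add_nat w (x + 3 * ((-(n : ℤ) : ℤ) : ℝ)) n
    rw [← this]
    congr 1
    push_cast
    ring

lemma sum_words {A : Type} [AddCommMonoid A] (t : ℕ) (g : List Gen → A) :
    ∑ w : Fin (t + 1) → Gen, g (List.ofFn w) =
      ∑ s : Gen, ∑ w : Fin t → Gen, g (s :: List.ofFn w) := by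
  rw [← (Fin.consEquiv (fun _ : Fin (t + 1) => Gen)).sum_comp, Fintype.sum_prod_type]
  refine Finset.sum_congr rfl fun s _ => Finset.sum_congr rfl fun w _ => ?_
  congr 1
  simp [Fin.consEquiv]

lemma card_words (t : ℕ) : Fintype.card (Fin t → Gen) = 6 ^ t := by
  simp [Gen]

lemma sum_gen_ph (x : ℝ) : ∑ s : Gen, ph s.1 x = -2 := by
  rw [Fintype.sum_prod_type]
  simp only [Finset.sum_const, Finset.card_univ, Fintype.card_bool]
  rw [← Finset.smul_sum, ph_sum]
  rfl

/-- forward recursion -/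
lemma sum_Ph (t : ℕ) : ∀ x : ℝ, 3 * ∑ w : Fin t → Gen, Ph (List.ofFn w) x = -(t * 6 ^ t : ℤ) := by
  induction t with
  | zero => intro x; simp [Ph]
  | succ t ih =>
    intro x
    rw [sum_words t (fun w => Ph w x)]
    have h1 : ∀ s : Gen, 3 * ∑ w : Fin t → Gen, Ph (s :: List.ofFn w) x =
        (3 * 6 ^ t) * ph s.1 x + -(t * 6 ^ t : ℤ) := by
      intro s
      simp only [Ph]
      rw [Finset.sum_add_distrib, mul_add, ih, Finset.sum_const, Finset.card_univ, card_words,
        nsmul_eq_mul]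
      push_cast
      ring
    rw [Finset.mul_sum, Finset.sum_congr rfl (fun s _ => h1 s), Finset.sum_add_distrib,
      ← Finset.mul_sum, sum_gen_ph, Finset.sum_const, Finset.card_univ]
    have hc : Fintype.card Gen = 6 := by simp [Gen]
    rw [hc, nsmul_eq_mul]
    push_cast
    ring

/-- backward recursion -/
lemma sum_Ph_PP (t : ℕ) : ∀ y : ℝ,
    3 * ∑ w : Fin t → Gen, Ph (List.ofFn w) (PP (List.ofFn w) y) = (t * 6 ^ t : ℤ) := by
  induction t with
  | zero => intro x; simp [Ph]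
  | succ t ih =>
    intro y
    rw [sum_words t (fun w => Ph w (PP w y)), Finset.sum_comm]
    have h1 : ∀ w : Fin t → Gen, ∑ s : Gen, Ph (s :: List.ofFn w) (PP (s :: List.ofFn w) y) =
        2 + 6 * Ph (List.ofFn w) (PP (List.ofFn w) y) := by
      intro w
      simp only [Ph, PP, ph_hh, OrderIso.symm_apply_apply]
      rw [Finset.sum_add_distrib, Finset.sum_neg_distrib, sum_gen_ph, Finset.sum_const,
        Finset.card_univ]
      have hc : Fintype.card Gen = 6 := by simp [Gen]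
      rw [hc, nsmul_eq_mul]
      push_cast
      ring
    rw [Finset.sum_congr rfl (fun w _ => h1 w), Finset.sum_add_distrib, Finset.sum_const,
      Finset.card_univ, card_words, ← Finset.mul_sum]
    have h2 := ih y
    rw [nsmul_eq_mul]
    push_cast
    linear_combination 6 * h2

/-! ## Finitely supported integer vectors -/

/-- vector of a word -/
def bvec {S : Type} (h : S → ℝ ≃o ℝ) (m : S → ℝ →₀ ℤ) : List S → (ℝ →₀ ℤ)
  | [] => 0
  | s :: w => m s + (bvec h m w).mapDomain (h s)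

/-- abstract properties of the limit norm -/
structure MonoNorm (N : (ℝ →₀ ℤ) → ℝ) : Prop where
  nonneg : ∀ a, 0 ≤ N a
  add_le : ∀ a b, N (a + b) ≤ N a + N b
  smul : ∀ (n : ℤ) (a : ℝ →₀ ℤ), N (n • a) = |(n : ℝ)| * N a
  mono : ∀ f : ℝ → ℝ, Monotone f → ∀ a : ℝ →₀ ℤ, N (a.mapDomain f) ≤ N a

/-- cumulative function as an additive map -/
def cum (x : ℝ) : (ℝ →₀ ℤ) →+ ℤ :=
  Finsupp.liftAddHom (fun y : ℝ => if y ≤ x then AddMonoidHom.id ℤ else 0)

def tot : (ℝ →₀ ℤ) →+ ℤ := Finsupp.liftAddHom (fun _ : ℝ => AddMonoidHom.id ℤ)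

@[simp] lemma cum_single (x y : ℝ) (c : ℤ) :
    cum x (Finsupp.single y c) = if y ≤ x then c else 0 := by
  unfold cum
  rw [Finsupp.liftAddHom_apply_single]
  split_ifs <;> rfl

@[simp] lemma tot_single (y : ℝ) (c : ℤ) : tot (Finsupp.single y c) = c := by
  unfold tot
  rw [Finsupp.liftAddHom_apply_single]
  rfl

lemma cum_mapDomain (h : ℝ ≃o ℝ) (a : ℝ →₀ ℤ) (x : ℝ) :
    cum x (a.mapDomain h) = cum (h.symm x) a := by
  induction a using Finsupp.induction_linear with
  | zero => simp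
  | add f g hf hg => rw [Finsupp.mapDomain_add, map_add, map_add, hf, hg]
  | single y c =>
    rw [Finsupp.mapDomain_single, cum_single, cum_single]
    congr 1
    exact propext (OrderIso.le_symm_apply h).symm

lemma tot_mapDomain (f : ℝ → ℝ) (a : ℝ →₀ ℤ) : tot (a.mapDomain f) = tot a := by
  induction a using Finsupp.induction_linear with
  | zero => simp
  | add f g hf hg => rw [Finsupp.mapDomain_add, map_add, map_add, hf, hg]
  | single y c => rw [Finsupp.mapDomain_single, tot_single, tot_single]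

/-- index function of samples `τ 0 ≤ … ≤ τ n` -/
def idx (τ : ℕ → ℝ) (n : ℕ) (x : ℝ) : ℝ := (((Finset.range (n + 1)).filter (fun k => τ k < x)).card : ℝ)

lemma idx_mono (τ : ℕ → ℝ) (n : ℕ) : Monotone (idx τ n) := by
  intro x y hxy
  unfold idx
  have : ((Finset.range (n + 1)).filter (fun k => τ k < x)).card ≤
      ((Finset.range (n + 1)).filter (fun k => τ k < y)).card := by
    apply Finset.card_le_card
    intro k hk
    rw [Finset.mem_filter] at hk ⊢
    exact ⟨hk.1, lt_of_lt_of_le hk.2 hxy⟩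
  exact_mod_cast this

lemma idx_succ (τ : ℕ → ℝ) (n : ℕ) (x : ℝ) (hτ : Monotone τ) :
    idx τ (n + 1) x = if τ (n + 1) < x then ((n + 2 : ℕ) : ℝ) else idx τ n x := by
  unfold idx
  split_ifs with h
  · rw [Finset.filter_true_of_mem, Finset.card_range]
    intro k hk
    rw [Finset.mem_range] at hk
    exact lt_of_le_of_lt (hτ (by omega)) h
  · rw [Finset.range_add_one, Finset.filter_insert, if_neg h]

lemma idx_zero (τ : ℕ → ℝ) (x : ℝ) : idx τ 0 x = if τ 0 < x then 1 else 0 := by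
  unfold idx
  split_ifs with h
  · rw [Finset.filter_true_of_mem]
    · simp
    · intro k hk
      rw [Finset.mem_range] at hk
      have : k = 0 := by omega
      rw [this]; exact h
  · rw [Finset.filter_false_of_mem]
    · simp
    · intro k hk
      rw [Finset.mem_range] at hk
      have : k = 0 := by omega
      rw [this]; exact h

/-- sampling: push-forward under the index function -/
lemma mapDomain_idx (τ : ℕ → ℝ) (hτ : Monotone τ) (n : ℕ) (b : ℝ →₀ ℤ) :
    b.mapDomain (idx τ n) = Finsupp.single 0 (cum (τ 0) b) +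
      ∑ k ∈ Finset.range n, Finsupp.single ((k : ℝ) + 1) (cum (τ (k + 1)) b - cum (τ k) b) +
      Finsupp.single ((n : ℝ) + 1) (tot b - cum (τ n) b) := by
  induction b using Finsupp.induction_linear with
  | zero => simp
  | add f g hf hg =>
    rw [Finsupp.mapDomain_add, hf, hg]
    simp only [map_add]
    have e1 : ∀ k : ℕ, Finsupp.single ((k : ℝ) + 1)
        ((cum (τ (k + 1))) f + (cum (τ (k + 1))) g - ((cum (τ k)) f + (cum (τ k)) g)) =
        Finsupp.single ((k : ℝ) + 1) ((cum (τ (k + 1))) f - (cum (τ k)) f) +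
        Finsupp.single ((k : ℝ) + 1) ((cum (τ (k + 1))) g - (cum (τ k)) g) := by
      intro k
      rw [← Finsupp.single_add]
      congr 1
      ring
    rw [Finset.sum_congr rfl (fun k _ => e1 k), Finset.sum_add_distrib, Finsupp.single_add,
      show (tot f + tot g - ((cum (τ n)) f + (cum (τ n)) g)) =
        (tot f - (cum (τ n)) f) + (tot g - (cum (τ n)) g) by ring, Finsupp.single_add]
    abel
  | single y c =>
    rw [Finsupp.mapDomain_single]
    simp only [cum_single, tot_single]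
    induction n with
    | zero =>
      rw [idx_zero]
      by_cases h : y ≤ τ 0
      · rw [if_neg (not_lt.mpr h), if_pos h]
        simp
      · rw [if_pos (not_le.mp h), if_neg h]
        simp
    | succ n ih =>
      rw [idx_succ τ n y hτ]
      by_cases h : y ≤ τ (n + 1)
      · rw [if_neg (not_lt.mpr h), ih, Finset.sum_range_succ, if_pos h]
        simp only [Finsupp.single_sub, sub_self, Finsupp.single_zero, Nat.cast_add, Nat.cast_one]
        abel
      · rw [if_pos (not_le.mp h)]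
        have hall : ∀ k, k ≤ n + 1 → ¬ (y ≤ τ k) := by
          intro k hk hy
          exact h (le_trans hy (hτ hk))
        rw [if_neg (hall 0 (by omega)), Finset.sum_eq_zero]
        · rw [if_neg (hall (n + 1) le_rfl)]
          simp
          ring_nf
        · intro k hk
          rw [Finset.mem_range] at hk
          rw [if_neg (hall (k + 1) (by omega)), if_neg (hall k (by omega))]
          simp

/-! ## The reference vectors -/

/-- `V n = (1,-1)^n` placed at `0,1,…,2n-1`. -/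
def V (n : ℕ) : ℝ →₀ ℤ :=
  ∑ j ∈ Finset.range n, (Finsupp.single (2 * (j : ℝ)) 1 - Finsupp.single (2 * (j : ℝ) + 1) 1)

lemma mapDomain_pair (f : ℝ → ℝ) (u v : ℝ) (c : ℤ) :
    (Finsupp.single u c - Finsupp.single v c).mapDomain f =
      Finsupp.single (f u) c - Finsupp.single (f v) c := by
  rw [sub_eq_add_neg, Finsupp.mapDomain_add, ← Finsupp.single_neg, Finsupp.mapDomain_single,
    Finsupp.mapDomain_single, Finsupp.single_neg, ← sub_eq_add_neg]

lemma mapDomain_V (f : ℝ → ℝ) (n : ℕ) : (V n).mapDomain f =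
    ∑ j ∈ Finset.range n, (Finsupp.single (f (2 * (j : ℝ))) 1 - Finsupp.single (f (2 * (j : ℝ) + 1)) 1) := by
  unfold V
  rw [Finsupp.mapDomain_finsetSum]
  exact Finset.sum_congr rfl fun j _ => mapDomain_pair _ _ _ _

section norm

variable {N : (ℝ →₀ ℤ) → ℝ} (hN : MonoNorm N)

include hN

lemma N_neg (a : ℝ →₀ ℤ) : N (-a) = N a := by
  have := hN.smul (-1) a
  simpa using this

lemma N_sub_le (a b : ℝ →₀ ℤ) : N (a - b) ≤ N a + N b := by
  rw [sub_eq_add_neg]
  calc N (a + -b) ≤ N a + N (-b) := hN.add_le _ _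
    _ = N a + N b := by rw [N_neg hN]

lemma N_zero : N 0 = 0 := by
  have := hN.smul 0 0
  simpa using this

lemma N_V_add (a b : ℕ) : N (V (a + b)) ≤ N (V a) + N (V b) := by
  have h : V (a + b) = V a + (V b).mapDomain (fun x => x + 2 * (a : ℝ)) := by
    rw [mapDomain_V]
    unfold V
    rw [Finset.sum_range_add]
    congr 1
    refine Finset.sum_congr rfl fun j _ => ?_
    congr 2 <;> push_cast <;> ring
  rw [h]
  refine (hN.add_le _ _).trans ?_
  have := hN.mono (fun x => x + 2 * (a : ℝ)) (fun x y hxy => by simpa using hxy) (V b)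
  linarith

lemma N_V_mul (k t : ℕ) : N (V (k * t)) ≤ k * N (V t) := by
  induction k with
  | zero => simp [V, N_zero hN]
  | succ k ih =>
    rw [Nat.succ_mul]
    refine (N_V_add hN _ _).trans ?_
    push_cast
    linarith

lemma N_V_one (t : ℕ) (ht : 1 ≤ t) : N (Finsupp.single 0 1 - Finsupp.single 1 1) ≤ N (V t) := by
  obtain ⟨n, rfl⟩ := Nat.exists_eq_add_of_le' ht
  have h := hN.mono (fun x : ℝ => if x ≤ 0 then 0 else 1) (by
    intro x y hxy
    dsimp only
    split_ifs with h1 h2 h2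
    · exact le_rfl
    · norm_num
    · exact absurd (hxy.trans h2) h1
    · exact le_rfl) (V (n + 1))
  rw [mapDomain_V, Finset.sum_range_succ'] at h
  have h0 : ∑ k ∈ Finset.range n, (Finsupp.single ((fun x : ℝ => if x ≤ 0 then (0:ℝ) else 1) (2 * ((k + 1 : ℕ) : ℝ))) (1 : ℤ) -
      Finsupp.single ((fun x : ℝ => if x ≤ 0 then (0:ℝ) else 1) (2 * ((k + 1 : ℕ) : ℝ) + 1)) 1) = 0 := by
    apply Finset.sum_eq_zero
    intro k _
    have h1 : ¬ (2 * ((k + 1 : ℕ) : ℝ) ≤ 0) := not_le.mpr (by positivity)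
    have h2 : ¬ (2 * ((k + 1 : ℕ) : ℝ) + 1 ≤ 0) := not_le.mpr (by positivity)
    simp only [h1, h2, if_false, sub_self]
  rw [h0, zero_add] at h
  have h3 : ¬ ((1 : ℝ) ≤ 0) := by norm_num
  simpa [h3] using h

/-- pairs placed at a monotone sequence -/
lemma N_pairs_le (q : ℤ → ℝ) (hq : Monotone q) (n : ℕ) :
    N (∑ j ∈ Finset.range n, (Finsupp.single (q (2 * (j : ℤ))) 1 - Finsupp.single (q (2 * (j : ℤ) + 1)) 1)) ≤
      N (V n) := by
  have h := hN.mono (fun x : ℝ => q ⌊x⌋) (fun x y hxy => hq (Int.floor_mono hxy)) (V n)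
  rw [mapDomain_V] at h
  have e : ∀ j : ℕ, (Finsupp.single (q ⌊(2 * (j : ℝ))⌋) (1 : ℤ) - Finsupp.single (q ⌊(2 * (j : ℝ) + 1)⌋) 1) =
      Finsupp.single (q (2 * (j : ℤ))) 1 - Finsupp.single (q (2 * (j : ℤ) + 1)) 1 := by
    intro j
    have e1 : ⌊(2 * (j : ℝ))⌋ = 2 * (j : ℤ) := by
      rw [show (2 * (j : ℝ)) = ((2 * (j : ℤ) : ℤ) : ℝ) by push_cast; ring, Int.floor_intCast]
    have e2 : ⌊(2 * (j : ℝ) + 1)⌋ = 2 * (j : ℤ) + 1 := by
      rw [show (2 * (j : ℝ) + 1) = ((2 * (j : ℤ) + 1 : ℤ) : ℝ) by push_cast; ring, Int.floor_intCast]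
    rw [e1, e2]
  simpa only [e] using h

lemma N_two_le (u v : ℝ) (huv : u ≤ v) :
    N (Finsupp.single u 1 - Finsupp.single v 1) ≤ N (Finsupp.single 0 1 - Finsupp.single 1 1) := by
  have h := hN.mono (fun x : ℝ => u + (v - u) * x) (by
    intro x y hxy
    have : 0 ≤ v - u := by linarith
    dsimp only
    nlinarith) (Finsupp.single 0 1 - Finsupp.single 1 1)
  rw [mapDomain_pair] at h
  simpa using h

end norm

/-! ## Window vectors -/

/-- the window vector `m_(i,+)` with window `[-3R, 3R)` -/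
def Mv (R : ℕ) (i : Fin 3) : ℝ →₀ ℤ :=
  -(Finsupp.single (-(3 * (R : ℝ))) 1 - Finsupp.single (3 * (R : ℝ)) 1) +
    (2 : ℤ) • ∑ j ∈ Finset.range (2 * R),
      (Finsupp.single (3 * ((j : ℝ) - R) + (i : ℝ)) 1 - Finsupp.single (3 * ((j : ℝ) - R) + (i : ℝ) + 1) 1)

lemma tot_Mv (R : ℕ) (i : Fin 3) : tot (Mv R i) = 0 := by
  unfold Mv
  rw [map_add, map_neg, map_sub, map_zsmul, map_sum]
  simp

lemma cum_Mv (R : ℕ) (i : Fin 3) (x : ℝ) (h1 : -(3 * (R : ℝ)) ≤ x) (h2 : x < 3 * (R : ℝ)) :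
    cum x (Mv R i) = ph i x := by
  obtain ⟨q, r, h0, h3, hx⟩ := exists_rep (x - (i : ℝ))
  have hi0 : (0 : ℝ) ≤ ((i : ℕ) : ℝ) := Nat.cast_nonneg _
  have hi2 : (((i : ℕ)) : ℝ) ≤ 2 := by
    have : (i : ℕ) ≤ 2 := by omega
    exact_mod_cast this
  have hxx : x = 3 * (q : ℝ) + r + ((i : ℕ) : ℝ) := by linarith
  unfold Mv
  rw [map_add, map_neg, map_sub, map_zsmul, map_sum]
  have hsum : ∑ j ∈ Finset.range (2 * R), cum x (Finsupp.single (3 * ((j : ℝ) - R) + ((i : ℕ) : ℝ)) 1 -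
      Finsupp.single (3 * ((j : ℝ) - R) + ((i : ℕ) : ℝ) + 1) 1) = if r < 1 then 1 else 0 := by
    have hterm : ∀ j : ℕ, cum x (Finsupp.single (3 * ((j : ℝ) - R) + ((i : ℕ) : ℝ)) 1 -
        Finsupp.single (3 * ((j : ℝ) - R) + ((i : ℕ) : ℝ) + 1) 1) =
        if ((j : ℤ) = q + R ∧ r < 1) then 1 else 0 := by
      intro j
      rw [map_sub, cum_single, cum_single]
      by_cases hj : (j : ℤ) ≤ q + R
      · have hj' : (j : ℝ) ≤ q + R := by exact_mod_cast hj
        have c1 : 3 * ((j : ℝ) - R) + ((i : ℕ) : ℝ) ≤ x := by linarith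
        rw [if_pos c1]
        by_cases hje : (j : ℤ) = q + R
        · have hje' : (j : ℝ) = q + R := by exact_mod_cast hje
          by_cases hr : r < 1
          · rw [if_neg (by linarith), if_pos ⟨hje, hr⟩]; rfl
          · rw [if_pos (by linarith), if_neg (fun h => hr h.2)]; rfl
        · have hj2 : (j : ℤ) + 1 ≤ q + R := by omega
          have hj3 : (j : ℝ) + 1 ≤ q + R := by exact_mod_cast hj2
          rw [if_pos (by linarith), if_neg (fun h => hje h.1)]; rfl
      · have hj2 : q + R + 1 ≤ (j : ℤ) := by omega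
        have hj3 : (q : ℝ) + R + 1 ≤ j := by exact_mod_cast hj2
        rw [if_neg (by linarith), if_neg (by linarith), if_neg (fun h => hj h.1.le)]; rfl
    rw [Finset.sum_congr rfl (fun j _ => hterm j)]
    by_cases hr : r < 1
    · rw [if_pos hr]
      have hq1 : -(R : ℤ) ≤ q := by
        by_contra hc
        have : q + 1 ≤ -(R : ℤ) := by omega
        have : (q : ℝ) + 1 ≤ -(R : ℝ) := by exact_mod_cast this
        linarith
      have hq2 : q < (R : ℤ) := by
        by_contra hc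
        have : (R : ℤ) ≤ q := by omega
        have : (R : ℝ) ≤ q := by exact_mod_cast this
        linarith
      obtain ⟨n, hn⟩ := Int.eq_ofNat_of_zero_le (show 0 ≤ q + R by omega)
      rw [Finset.sum_eq_single n]
      · rw [if_pos ⟨hn.symm, hr⟩]
      · intro b _ hb
        rw [if_neg]
        rintro ⟨h, _⟩
        apply hb
        omega
      · intro hnn
        exfalso
        apply hnn
        rw [Finset.mem_range]
        omega
    · rw [if_neg hr]
      apply Finset.sum_eq_zero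
      intro j _
      rw [if_neg (fun h => hr h.2)]
  rw [hsum, cum_single, cum_single, if_pos h1, if_neg (not_le.mpr h2)]
  unfold ph
  rw [hx, phi_rep q r h0 h3]
  split_ifs <;> norm_num

/-- generator vectors -/
def mm (R : ℕ) (s : Gen) : ℝ →₀ ℤ :=
  if s.2 then Mv R s.1 else -((Mv R s.1).mapDomain (sig s.1).symm)

lemma tot_mm (R : ℕ) (s : Gen) : tot (mm R s) = 0 := by
  unfold mm
  split_ifs
  · exact tot_Mv _ _
  · rw [map_neg, tot_mapDomain, tot_Mv, neg_zero]

lemma cum_mm (R : ℕ) (s : Gen) (x : ℝ) (hx : |x| + 3 ≤ 3 * (R : ℝ)) :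
    cum x (mm R s) = ph s.1 x := by
  have ha := abs_le.mp (le_refl |x|)
  unfold mm
  split_ifs
  · exact cum_Mv _ _ _ (by linarith [ha.1]) (by linarith [ha.2])
  · have h2 := abs_le.mp (sig_abs s.1 x)
    rw [map_neg, cum_mapDomain, OrderIso.symm_symm,
      cum_Mv _ _ _ (by linarith [ha.1, h2.1]) (by linarith [ha.2, h2.2]), ph_sig, neg_neg]

lemma tot_bvec (R : ℕ) (w : List Gen) : tot (bvec hh (mm R) w) = 0 := by
  induction w with
  | nil => simp [bvec]
  | cons s w ih => rw [bvec, map_add, tot_mm, tot_mapDomain, ih, add_zero]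

lemma cum_bvec (R : ℕ) (w : List Gen) : ∀ x : ℝ, |x| + 2 * (w.length : ℝ) + 3 ≤ 3 * (R : ℝ) →
    cum x (bvec hh (mm R) w) = Ph w x := by
  induction w with
  | nil => intro x _; simp [bvec, Ph]
  | cons s w ih =>
    intro x hx
    rw [List.length_cons] at hx
    push_cast at hx
    have hl : (0 : ℝ) ≤ (w.length : ℝ) := Nat.cast_nonneg _
    have h2 := hh_symm_abs s x
    have h3 : |(hh s).symm x| ≤ |x| + 2 := by
      have := abs_add_le ((hh s).symm x - x) x
      rw [sub_add_cancel] at this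
      linarith
    rw [bvec, map_add, cum_mapDomain, cum_mm R s x (by linarith), ih _ (by linarith), Ph]

/-! ## The two inequalities -/

section main

variable {N : (ℝ →₀ ℤ) → ℝ} (hN : MonoNorm N)

include hN

lemma N_Mv_le (R : ℕ) (i : Fin 3) :
    N (Mv R i) ≤ N (Finsupp.single 0 1 - Finsupp.single 1 1) + 2 * N (V (2 * R)) := by
  unfold Mv
  refine (hN.add_le _ _).trans ?_
  rw [N_neg hN, hN.smul]
  have h1 := N_two_le hN (-(3 * (R : ℝ))) (3 * (R : ℝ)) (by
    have : (0 : ℝ) ≤ R := Nat.cast_nonneg _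
    linarith)
  have h2 := N_pairs_le hN (fun k : ℤ => ((3 * (k / 2) + k % 2 : ℤ) : ℝ) - 3 * (R : ℝ) + ((i : ℕ) : ℝ))
    (by
      intro a b hab
      have : (3 * (a / 2) + a % 2 : ℤ) ≤ 3 * (b / 2) + b % 2 := by omega
      have h : ((3 * (a / 2) + a % 2 : ℤ) : ℝ) ≤ ((3 * (b / 2) + b % 2 : ℤ) : ℝ) := by exact_mod_cast this
      dsimp only
      linarith) (2 * R)
  have e : ∀ j : ℕ, (Finsupp.single (((3 * ((2 * (j : ℤ)) / 2) + (2 * (j : ℤ)) % 2 : ℤ) : ℝ) - 3 * (R : ℝ) + ((i : ℕ) : ℝ)) (1 : ℤ) -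
      Finsupp.single (((3 * ((2 * (j : ℤ) + 1) / 2) + (2 * (j : ℤ) + 1) % 2 : ℤ) : ℝ) - 3 * (R : ℝ) + ((i : ℕ) : ℝ)) 1) =
      Finsupp.single (3 * ((j : ℝ) - R) + ((i : ℕ) : ℝ)) 1 - Finsupp.single (3 * ((j : ℝ) - R) + ((i : ℕ) : ℝ) + 1) 1 := by
    intro j
    have e1 : (3 * ((2 * (j : ℤ)) / 2) + (2 * (j : ℤ)) % 2 : ℤ) = 3 * (j : ℤ) := by omega
    have e2 : (3 * ((2 * (j : ℤ) + 1) / 2) + (2 * (j : ℤ) + 1) % 2 : ℤ) = 3 * (j : ℤ) + 1 := by omega
    rw [e1, e2]
    congr 2 <;> push_cast <;> ring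
  simp only [e] at h2
  have h3 : |((2 : ℤ) : ℝ)| = 2 := by norm_num
  rw [h3]
  linarith

lemma N_mm_le (t : ℕ) (ht : 1 ≤ t) (s : Gen) : N (mm (4 * t) s) ≤ 17 * N (V t) := by
  have h1 : N (Mv (4 * t) s.1) ≤ 17 * N (V t) := by
    have h2 := N_Mv_le hN (4 * t) s.1
    have h3 := N_V_one hN t ht
    have h4 := N_V_mul hN 8 t
    rw [show 2 * (4 * t) = 8 * t by ring] at h2
    push_cast at h4
    linarith
  unfold mm
  split_ifs
  · exact h1
  · rw [N_neg hN]
    exact (hN.mono _ (sig s.1).symm.monotone _).trans h1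

/-- sampling inequality -/
lemma sample (b : ℝ →₀ ℤ) (τ : ℕ → ℝ) (hτ : Monotone τ) (t : ℕ) (L H : ℤ)
    (hb : tot b = 0) (h0 : ∀ j, j ≤ t → cum (τ (2 * j)) b = L)
    (h1 : ∀ j, j < t → cum (τ (2 * j + 1)) b = H) :
    |((H - L : ℤ) : ℝ)| * N (V t) ≤ 2 * N b := by
  -- first sampling
  have hA := hN.mono _ (idx_mono τ (2 * t)) b
  rw [mapDomain_idx τ hτ (2 * t) b] at hA
  -- second sampling
  have hB := hN.mono _ (idx_mono τ 0) b
  rw [mapDomain_idx τ hτ 0 b] at hB
  have hL : cum (τ 0) b = L := by simpa using h0 0 (Nat.zero_le _)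
  have hL2 : cum (τ (2 * t)) b = L := h0 t le_rfl
  rw [hL, hb, hL2] at hA
  rw [hL, hb] at hB
  -- second list
  have hB2 : |(L : ℝ)| * N (Finsupp.single 0 1 - Finsupp.single 1 1) ≤ N b := by
    rw [← hN.smul]
    refine le_trans (le_of_eq ?_) hB
    congr 1
    simp [sub_eq_add_neg]
  have hsum : ∀ n, n ≤ t → ∑ k ∈ Finset.range (2 * n), Finsupp.single ((k : ℝ) + 1)
      (cum (τ (k + 1)) b - cum (τ k) b) =
      (H - L) • ∑ j ∈ Finset.range n,
        (Finsupp.single (2 * (j : ℝ) + 1) (1 : ℤ) - Finsupp.single (2 * (j : ℝ) + 2) 1) := by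
    intro n
    induction n with
    | zero => intro _; simp
    | succ n ih =>
      intro hn
      rw [show 2 * (n + 1) = 2 * n + 1 + 1 by ring, Finset.sum_range_succ, Finset.sum_range_succ,
        ih (by omega), Finset.sum_range_succ, smul_add, add_assoc]
      congr 1
      rw [h0 n (by omega), h1 n (by omega), show 2 * n + 1 + 1 = 2 * (n + 1) by ring,
        h0 (n + 1) hn, show L - H = -(H - L) by ring, Finsupp.single_neg, smul_sub,
        Finsupp.smul_single, Finsupp.smul_single, smul_eq_mul, mul_one, ← sub_eq_add_neg]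
      congr 2 <;> (push_cast; ring)
  rw [hsum t le_rfl] at hA
  have hV : N (V t) ≤ N (∑ j ∈ Finset.range t,
      (Finsupp.single (2 * (j : ℝ) + 1) (1 : ℤ) - Finsupp.single (2 * (j : ℝ) + 2) 1)) := by
    have h := hN.mono (fun x : ℝ => x - 1) (fun x y hxy => by simpa using hxy)
      (∑ j ∈ Finset.range t,
        (Finsupp.single (2 * (j : ℝ) + 1) (1 : ℤ) - Finsupp.single (2 * (j : ℝ) + 2) 1))
    refine le_trans (le_of_eq ?_) h
    congr 1
    rw [Finsupp.mapDomain_finsetSum]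
    unfold V
    refine Finset.sum_congr rfl fun j _ => ?_
    rw [mapDomain_pair]
    congr 2 <;> ring
  have hends : N (L • (Finsupp.single 0 (1 : ℤ) - Finsupp.single (((2 * t : ℕ) : ℝ) + 1) 1)) ≤ N b := by
    rw [hN.smul]
    refine le_trans ?_ hB2
    apply mul_le_mul_of_nonneg_left _ (abs_nonneg _)
    exact N_two_le hN _ _ (by positivity)
  calc |((H - L : ℤ) : ℝ)| * N (V t) ≤ |((H - L : ℤ) : ℝ)| * N (∑ j ∈ Finset.range t,
      (Finsupp.single (2 * (j : ℝ) + 1) (1 : ℤ) - Finsupp.single (2 * (j : ℝ) + 2) 1)) :=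
        mul_le_mul_of_nonneg_left hV (abs_nonneg _)
    _ = N ((H - L) • ∑ j ∈ Finset.range t,
      (Finsupp.single (2 * (j : ℝ) + 1) (1 : ℤ) - Finsupp.single (2 * (j : ℝ) + 2) 1)) := (hN.smul _ _).symm
    _ = N ((Finsupp.single 0 L + (H - L) • ∑ j ∈ Finset.range t,
          (Finsupp.single (2 * (j : ℝ) + 1) (1 : ℤ) - Finsupp.single (2 * (j : ℝ) + 2) 1) +
          Finsupp.single (((2 * t : ℕ) : ℝ) + 1) (0 - L)) -
        L • (Finsupp.single 0 (1 : ℤ) - Finsupp.single (((2 * t : ℕ) : ℝ) + 1) 1)) := by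
        congr 1
        rw [smul_sub, Finsupp.smul_single, Finsupp.smul_single, zero_sub, Finsupp.single_neg]
        simp only [smul_eq_mul, mul_one]
        abel
    _ ≤ _ + _ := N_sub_le hN _ _
    _ ≤ N b + N b := add_le_add hA hends
    _ = 2 * N b := by ring

/-- the sample points : `3j` and `3j + z` -/
lemma word_ineq (t : ℕ) (ht : 1 ≤ t) (w : List Gen) (hw : w.length = t) :
    |((Ph w (PP w 0) - Ph w 0 : ℤ) : ℝ)| * N (V t) ≤ 2 * N (bvec hh (mm (4 * t)) w) := by
  obtain ⟨q, z, hz0, hz3, hz⟩ := exists_rep (PP w 0)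
  have hPz : Ph w z = Ph w (PP w 0) := by
    rw [hz, add_comm, Ph_add_int]
  have ht' : (1 : ℝ) ≤ t := by exact_mod_cast ht
  have hcum : ∀ x : ℝ, 0 ≤ x → x ≤ 3 * (t : ℝ) + 3 → cum x (bvec hh (mm (4 * t)) w) = Ph w x := by
    intro x hx0 hx1
    apply cum_bvec
    rw [abs_of_nonneg hx0, hw]
    push_cast
    linarith
  let τ : ℕ → ℝ := fun k => 3 * ((k / 2 : ℕ) : ℝ) + (if k % 2 = 0 then 0 else z)
  have hτ : Monotone τ := by
    refine monotone_nat_of_le_succ fun k => ?_
    simp only [τ]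
    rcases Nat.even_or_odd' k with ⟨j, hj | hj⟩
    · subst hj
      have e1 : (2 * j) / 2 = j := by omega
      have e2 : (2 * j + 1) / 2 = j := by omega
      have e3 : (2 * j) % 2 = 0 := by omega
      have e4 : ¬ ((2 * j + 1) % 2 = 0) := by omega
      rw [e1, e2, if_pos e3, if_neg e4]
      linarith
    · subst hj
      have e1 : (2 * j + 1) / 2 = j := by omega
      have e2 : (2 * j + 1 + 1) / 2 = j + 1 := by omega
      have e3 : (2 * j + 1 + 1) % 2 = 0 := by omega
      have e4 : ¬ ((2 * j + 1) % 2 = 0) := by omega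
      rw [e1, e2, if_neg e4, if_pos e3]
      push_cast
      linarith
  apply sample hN _ τ hτ t (Ph w 0) (Ph w (PP w 0)) (tot_bvec _ _)
  · intro j hj
    have e1 : (2 * j) / 2 = j := by omega
    have e3 : (2 * j) % 2 = 0 := by omega
    have hj' : (j : ℝ) ≤ t := by exact_mod_cast hj
    have hj0 : (0 : ℝ) ≤ j := Nat.cast_nonneg _
    simp only [τ]
    rw [e1, if_pos e3, hcum _ (by linarith) (by linarith), add_zero]
    have := Ph_add_nat w 0 j
    rw [zero_add] at this
    exact this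
  · intro j hj
    have e2 : (2 * j + 1) / 2 = j := by omega
    have e4 : ¬ ((2 * j + 1) % 2 = 0) := by omega
    have hj' : (j : ℝ) ≤ t := by exact_mod_cast hj.le
    have hj0 : (0 : ℝ) ≤ j := Nat.cast_nonneg _
    simp only [τ]
    rw [e2, if_neg e4, hcum _ (by linarith) (by linarith), add_comm, Ph_add_nat, hPz]

omit hN in
lemma mm_inv (R : ℕ) (s : Gen) :
    mm R (s.1, !s.2) = -((mm R s).mapDomain (hh s).symm) := by
  obtain ⟨i, b⟩ := s
  cases b
  · simp only [mm, hh, Bool.not_false, if_true, Bool.false_eq_true, if_false]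
    have h1 : ∀ a : ℝ →₀ ℤ, (-a).mapDomain (sig i).symm.symm = -(a.mapDomain (sig i)) := by
      intro a
      have h := Finsupp.mapDomain_add (f := (sig i)) (v₁ := a) (v₂ := -a)
      rw [add_neg_cancel, Finsupp.mapDomain_zero] at h
      rw [OrderIso.symm_symm]
      exact (neg_eq_of_add_eq_zero_right h.symm).symm
    rw [h1, neg_neg, ← Finsupp.mapDomain_comp]
    have h2 : (⇑(sig i) ∘ ⇑(sig i).symm) = id := by
      funext x
      simp
    rw [h2, Finsupp.mapDomain_id]
  · simp only [mm, hh, Bool.not_true, if_true, Bool.false_eq_true, if_false]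

omit hN in
lemma hh_inv (s : Gen) : hh (s.1, !s.2) = (hh s).symm := by
  obtain ⟨i, b⟩ := s
  cases b <;> simp [hh]

/-- the key inequality for every `t`. -/
lemma key (hpos : 0 < N (Finsupp.single 0 1 - Finsupp.single 1 1)) {p K : ℝ} (hp : 1 < p)
    (hK : 0 < K)
    (hC3 : ∀ (S : Type) [Fintype S] [Nonempty S] (inv : S → S) (h : S → ℝ ≃o ℝ)
      (m : S → ℝ →₀ ℤ), (∀ s, inv (inv s) = s) → (∀ s, h (inv s) = (h s).symm) →
      (∀ s, m (inv s) = -((m s).mapDomain (h s).symm)) → ∀ t : ℕ, 1 ≤ t →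
      (∑ w : Fin t → S, N (bvec h m (List.ofFn w)) ^ p) / (Fintype.card S : ℝ) ^ t ≤
        K ^ p * t * ((∑ s, N (m s) ^ p) / Fintype.card S))
    (t : ℕ) (ht : 1 ≤ t) : ((t : ℝ) / 3) ^ p ≤ K ^ p * t * 17 ^ p := by
  have h := hC3 Gen (fun s => (s.1, !s.2)) hh (mm (4 * t)) (fun s => by simp) hh_inv
    (mm_inv (4 * t)) t ht
  have hcard : (Fintype.card Gen : ℝ) = 6 := by
    have : Fintype.card Gen = 6 := by simp [Gen]
    rw [this]; norm_num
  rw [hcard] at h
  have hVpos : 0 < N (V t) := lt_of_lt_of_le hpos (N_V_one hN t ht)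
  have hp0 : 0 < p := by linarith
  -- right hand side
  have hR : (∑ s, N (mm (4 * t) s) ^ p) / 6 ≤ (17 * N (V t)) ^ p := by
    have : ∑ s : Gen, N (mm (4 * t) s) ^ p ≤ ∑ _s : Gen, (17 * N (V t)) ^ p :=
      Finset.sum_le_sum fun s _ => Real.rpow_le_rpow (hN.nonneg _) (N_mm_le hN t ht s) hp0.le
    rw [Finset.sum_const, Finset.card_univ, nsmul_eq_mul, hcard] at this
    linarith
  -- left hand side
  have hw6 : (0 : ℝ) < 6 ^ t := by positivity
  have hJ := Real.rpow_arith_mean_le_arith_mean_rpow (Finset.univ : Finset (Fin t → Gen))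
    (fun _ => 1 / (6 : ℝ) ^ t) (fun w => N (bvec hh (mm (4 * t)) (List.ofFn w)))
    (fun _ _ => by positivity)
    (by
      rw [Finset.sum_const, Finset.card_univ, card_words, nsmul_eq_mul]
      push_cast
      field_simp)
    (fun _ _ => hN.nonneg _) hp.le
  rw [← Finset.mul_sum, ← Finset.mul_sum] at hJ
  have hD : (N (V t)) * ((t : ℝ) / 3) ≤
      1 / (6 : ℝ) ^ t * ∑ w : Fin t → Gen, N (bvec hh (mm (4 * t)) (List.ofFn w)) := by
    have h1 : ∑ w : Fin t → Gen, (((Ph (List.ofFn w) (PP (List.ofFn w) 0) - Ph (List.ofFn w) 0 : ℤ) : ℝ) * (N (V t) / 2)) ≤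
        ∑ w : Fin t → Gen, N (bvec hh (mm (4 * t)) (List.ofFn w)) := by
      refine Finset.sum_le_sum fun w _ => ?_
      have h2 := word_ineq hN t ht (List.ofFn w) (by simp)
      have h3 := le_abs_self ((Ph (List.ofFn w) (PP (List.ofFn w) 0) - Ph (List.ofFn w) 0 : ℤ) : ℝ)
      nlinarith
    rw [← Finset.sum_mul] at h1
    have h2 : (∑ w : Fin t → Gen, ((Ph (List.ofFn w) (PP (List.ofFn w) 0) - Ph (List.ofFn w) 0 : ℤ) : ℝ)) =
        2 * t * 6 ^ t / 3 := by
      have e1 := sum_Ph t 0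
      have e2 := sum_Ph_PP t 0
      have e3 : 3 * ∑ w : Fin t → Gen, (Ph (List.ofFn w) (PP (List.ofFn w) 0) - Ph (List.ofFn w) 0) =
          2 * t * 6 ^ t := by
        rw [Finset.sum_sub_distrib]
        linarith
      have e4 : (3 : ℝ) * ∑ w : Fin t → Gen, ((Ph (List.ofFn w) (PP (List.ofFn w) 0) - Ph (List.ofFn w) 0 : ℤ) : ℝ) =
          2 * t * 6 ^ t := by
        exact_mod_cast e3
      linarith
    rw [h2] at h1
    rw [one_div, inv_mul_eq_div, le_div_iff₀ hw6]
    linarith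
  have hL : (N (V t) * ((t : ℝ) / 3)) ^ p ≤ K ^ p * t * (17 * N (V t)) ^ p := by
    calc (N (V t) * ((t : ℝ) / 3)) ^ p ≤ _ :=
          Real.rpow_le_rpow (by positivity) hD hp0.le
      _ ≤ _ := hJ
      _ = (∑ w : Fin t → Gen, N (bvec hh (mm (4 * t)) (List.ofFn w)) ^ p) / 6 ^ t := by
          rw [one_div, inv_mul_eq_div]
      _ ≤ _ := h
      _ ≤ _ := mul_le_mul_of_nonneg_left hR (by positivity)
  rw [Real.mul_rpow hVpos.le (by positivity), Real.mul_rpow (by norm_num) hVpos.le] at hL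
  have hVp : 0 < N (V t) ^ p := Real.rpow_pos_of_pos hVpos p
  have : N (V t) ^ p * ((t : ℝ) / 3) ^ p ≤ N (V t) ^ p * (K ^ p * t * 17 ^ p) := by
    linarith
  exact le_of_mul_le_mul_left this hVp

/-- **C5** : the limit norm with the group inequality cannot exist. -/
theorem dyn_false (hpos : 0 < N (Finsupp.single 0 1 - Finsupp.single 1 1)) {p K : ℝ} (hp : 1 < p)
    (hK : 0 < K)
    (hC3 : ∀ (S : Type) [Fintype S] [Nonempty S] (inv : S → S) (h : S → ℝ ≃o ℝ)
      (m : S → ℝ →₀ ℤ), (∀ s, inv (inv s) = s) → (∀ s, h (inv s) = (h s).symm) →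
      (∀ s, m (inv s) = -((m s).mapDomain (h s).symm)) → ∀ t : ℕ, 1 ≤ t →
      (∑ w : Fin t → S, N (bvec h m (List.ofFn w)) ^ p) / (Fintype.card S : ℝ) ^ t ≤
        K ^ p * t * ((∑ s, N (m s) ^ p) / Fintype.card S)) : False := by
  have hlim : Filter.Tendsto (fun t : ℕ => (t : ℝ) ^ (p - 1)) Filter.atTop Filter.atTop :=
    (tendsto_rpow_atTop (by linarith)).comp tendsto_natCast_atTop_atTop
  obtain ⟨t, ht1, ht⟩ := ((hlim.eventually_gt_atTop ((51 * K) ^ p)).and
    (Filter.eventually_ge_atTop 1)).exists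
  have h := key hN hpos hp hK hC3 t ht
  have ht0 : (0 : ℝ) < t := by exact_mod_cast ht
  rw [Real.div_rpow ht0.le (by norm_num), div_le_iff₀ (by positivity)] at h
  have e1 : (51 * K) ^ p = K ^ p * 17 ^ p * 3 ^ p := by
    rw [show (51 : ℝ) * K = K * 17 * 3 by ring, Real.mul_rpow (by positivity) (by norm_num),
      Real.mul_rpow hK.le (by norm_num)]
  have e2 : (t : ℝ) ^ p = (t : ℝ) ^ (p - 1) * t := by
    rw [← Real.rpow_add_one ht0.ne']
    congr 1
    ring
  rw [e2] at h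
  have h5 : (t : ℝ) ^ (p - 1) * t ≤ (51 * K) ^ p * t := by
    rw [e1]
    linarith
  have h6 := le_of_mul_le_mul_right h5 ht0
  linarith

end main

end

end Crest.Agent.R140.Dyn
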