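import Crest.Prelude.Def_MarkovType

/-!
Row 140, block C3a/C3b: labelled reversible kernels and Markov type, lost mass along words.
-/

set_option autoImplicit false
open scoped BigOperators
open Crest.AnalysisR

namespace Crest.Agent.R140.Label

variable {V S : Type} [Fintype V] [DecidableEq V]

/-- The normalised kernel `J v v' / rho v`. -/
noncomputable def nk (rho : V → ℝ) (J : V → V → ℝ) : Matrix V V ℝ := fun v v' => J v v' / rho v

/-- The product of the matrices `A s` along a word. -/
noncomputable def wordMat (A : S → Matrix V V ℝ) : List S → Matrix V V ℝ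
  | [] => 1
  | s :: w => A s * wordMat A w

/-- Sum of `F` over all words of length `t`. -/
noncomputable def wsum {S : Type} [Fintype S] {M : Type} [AddCommMonoid M] :
    ℕ → (List S → M) → M
  | 0, F => F []
  | t + 1, F => ∑ s, wsum t (fun w => F (s :: w))

section wsum

variable [Fintype S] {M : Type} [AddCommMonoid M]

@[simp] theorem wsum_zero (F : List S → M) : wsum 0 F = F [] := rfl

theorem wsum_succ (t : ℕ) (F : List S → M) :
    wsum (t + 1) F = ∑ s, wsum t (fun w => F (s :: w)) := rfl

theorem wsum_eq_sum_ofFn (t : ℕ) (F : List S → M) :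
    wsum t F = ∑ w : Fin t → S, F (List.ofFn w) := by
  induction t generalizing F with
  | zero => simp [wsum]
  | succ t ih =>
    rw [wsum_succ]
    simp_rw [ih]
    rw [← (Fin.consEquiv (fun _ : Fin (t + 1) => S)).sum_comp, Fintype.sum_prod_type]
    refine Finset.sum_congr rfl fun s _ => Finset.sum_congr rfl fun w _ => ?_
    simp [Fin.consEquiv, List.ofFn_succ]

end wsum

theorem wsum_mul_left [Fintype S] (t : ℕ) (F : List S → ℝ) (c : ℝ) :
    wsum t (fun w => c * F w) = c * wsum t F := by
  induction t generalizing F with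
  | zero => rfl
  | succ t ih => simp_rw [wsum_succ, ih, Finset.mul_sum]

theorem wsum_add [Fintype S] (t : ℕ) (F G : List S → ℝ) :
    wsum t (fun w => F w + G w) = wsum t F + wsum t G := by
  induction t generalizing F G with
  | zero => rfl
  | succ t ih => simp_rw [wsum_succ, ih, Finset.sum_add_distrib]

theorem wsum_sum [Fintype S] {ι : Type} (t : ℕ) (I : Finset ι) (F : ι → List S → ℝ) :
    wsum t (fun w => ∑ i ∈ I, F i w) = ∑ i ∈ I, wsum t (F i) := by
  induction t generalizing F with
  | zero => rfl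
  | succ t ih =>
    simp_rw [wsum_succ, ih]
    rw [Finset.sum_comm]

theorem wsum_mono [Fintype S] (t : ℕ) (F G : List S → ℝ)
    (h : ∀ w : List S, w.length = t → F w ≤ G w) : wsum t F ≤ wsum t G := by
  induction t generalizing F G with
  | zero => exact h [] rfl
  | succ t ih =>
    rw [wsum_succ, wsum_succ]
    refine Finset.sum_le_sum fun s _ => ih _ _ fun w hw => h _ (by simp [hw])

theorem wsum_congr [Fintype S] {M : Type} [AddCommMonoid M] (t : ℕ) (F G : List S → M)
    (h : ∀ w : List S, w.length = t → F w = G w) : wsum t F = wsum t G := by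
  induction t generalizing F G with
  | zero => exact h [] rfl
  | succ t ih =>
    rw [wsum_succ, wsum_succ]
    refine Finset.sum_congr rfl fun s _ => ih _ _ fun w hw => h _ (by simp [hw])

theorem wsum_const [Fintype S] (t : ℕ) (c : ℝ) :
    wsum t (fun _ : List S => c) = (Fintype.card S : ℝ) ^ t * c := by
  induction t with
  | zero => simp
  | succ t ih => rw [wsum_succ, ih]; simp [pow_succ]; ring

/-- The `t`-th power of the sum of the matrices is the sum over words. -/
theorem pow_sum_eq_wsum [Fintype S] (A : S → Matrix V V ℝ) (t : ℕ) :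
    (∑ s, A s) ^ t = wsum t (wordMat A) := by
  induction t with
  | zero => simp [wordMat]
  | succ t ih =>
    rw [pow_succ', ih, wsum_succ, Finset.sum_mul]
    refine Finset.sum_congr rfl fun s _ => ?_
    simp only [wordMat]
    have : ∀ (t : ℕ) (B : Matrix V V ℝ) (F : List S → Matrix V V ℝ),
        B * wsum t F = wsum t (fun w => B * F w) := by
      intro t
      induction t with
      | zero => intro B F; rfl
      | succ t ih2 => intro B F; simp_rw [wsum_succ, Finset.mul_sum, ih2]
    exact this t _ _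

omit [Fintype V] [DecidableEq V] in
theorem wsum_apply [Fintype S] (t : ℕ) (F : List S → Matrix V V ℝ) (v v' : V) :
    (wsum t F) v v' = wsum t (fun w => F w v v') := by
  induction t generalizing F with
  | zero => rfl
  | succ t ih =>
    rw [wsum_succ, wsum_succ, Matrix.sum_apply]
    exact Finset.sum_congr rfl fun s _ => ih _

omit [DecidableEq V] in
theorem mul_entry_nonneg {A B : Matrix V V ℝ} (hA : ∀ i j, 0 ≤ A i j) (hB : ∀ i j, 0 ≤ B i j)
    (i j : V) : 0 ≤ (A * B) i j := by
  rw [Matrix.mul_apply]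
  exact Finset.sum_nonneg fun k _ => mul_nonneg (hA _ _) (hB _ _)

theorem wordMat_nonneg {A : S → Matrix V V ℝ} (hA : ∀ s i j, 0 ≤ A s i j) (w : List S) (i j : V) :
    0 ≤ wordMat A w i j := by
  induction w generalizing i j with
  | nil =>
    simp only [wordMat, Matrix.one_apply]
    split_ifs <;> norm_num
  | cons s w ih => exact mul_entry_nonneg (hA s) ih i j

theorem pow_entry_le {A B : Matrix V V ℝ} (hA : ∀ i j, 0 ≤ A i j) (hAB : ∀ i j, A i j ≤ B i j)
    (t : ℕ) : ∀ i j, 0 ≤ (A ^ t) i j ∧ (A ^ t) i j ≤ (B ^ t) i j := by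
  induction t with
  | zero =>
    intro i j
    simp only [pow_zero, Matrix.one_apply]
    split_ifs <;> norm_num
  | succ t ih =>
    intro i j
    rw [pow_succ, pow_succ]
    refine ⟨mul_entry_nonneg (fun i j => (ih i j).1) hA i j, ?_⟩
    rw [Matrix.mul_apply, Matrix.mul_apply]
    refine Finset.sum_le_sum fun k _ => ?_
    exact mul_le_mul (ih i k).2 (hAB k j) (hA k j) (le_trans (ih i k).1 (ih i k).2)

/-- The labelled Markov type inequality.  `J s` are nonnegative kernels with
`J s v v' = J (inv s) v' v` and row sums at most `rho`; missing mass is put on loops. -/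
theorem markov_label {X : Type*} [NormedAddCommGroup X] {p K : ℝ} (hp : 0 < p)
    (hX : HasMarkovType X p K) [Fintype S] [Nonempty S]
    (inv : S → S) (hinv : ∀ s, inv (inv s) = s)
    (rho : V → ℝ) (hrho : ∀ v, 0 ≤ rho v) (J : S → V → V → ℝ) (hJ : ∀ s v v', 0 ≤ J s v v')
    (hsym : ∀ s v v', J s v v' = J (inv s) v' v)
    (hmarg : ∀ s v, ∑ v', J s v v' ≤ rho v) (f : V → X) (t : ℕ) (ht : 1 ≤ t) :
    wsum t (fun w => ∑ v, ∑ v', rho v * wordMat (fun s => nk rho (J s)) w v v' *
        ‖f v' - f v‖ ^ p) ≤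
      K ^ p * t * (Fintype.card S : ℝ) ^ t *
        ((Fintype.card S : ℝ)⁻¹ * ∑ s, ∑ v, ∑ v', J s v v' * ‖f v' - f v‖ ^ p) := by
  classical
  set n : ℝ := (Fintype.card S : ℝ) with hn
  have hn0 : 0 < n := by
    rw [hn]; exact_mod_cast Fintype.card_pos
  have hJ0 : ∀ s v v', rho v = 0 → J s v v' = 0 := by
    intro s v v' h
    have h1 := Finset.single_le_sum (f := fun v' => J s v v') (fun v' _ => hJ s v v')
      (Finset.mem_univ v')
    have h2 := hmarg s v
    have h3 := hJ s v v'
    linarith
  have hrJ : ∀ s v v', rho v * nk rho (J s) v v' = J s v v' := by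
    intro s v v'
    unfold nk
    by_cases h : rho v = 0
    · rw [h, hJ0 s v v' h]; simp
    · field_simp
  have hnk0 : ∀ s v v', 0 ≤ nk rho (J s) v v' := fun s v v' => div_nonneg (hJ _ _ _) (hrho _)
  set R : ℝ := ∑ v, rho v with hR
  have hR0 : 0 ≤ R := Finset.sum_nonneg fun v _ => hrho v
  rcases hR0.eq_or_lt with hRz | hRpos
  · -- everything vanishes
    have hz : ∀ v, rho v = 0 := by
      intro v
      have := (Finset.sum_eq_zero_iff_of_nonneg (fun v _ => hrho v)).1 hRz.symm v
        (Finset.mem_univ v)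
      exact this
    have h1 : wsum t (fun w => ∑ v, ∑ v', rho v * wordMat (fun s => nk rho (J s)) w v v' *
        ‖f v' - f v‖ ^ p) = 0 := by
      have : (fun w => ∑ v, ∑ v', rho v * wordMat (fun s => nk rho (J s)) w v v' *
          ‖f v' - f v‖ ^ p) = fun _ : List S => (0 : ℝ) := by
        funext w
        simp [hz]
      rw [this, wsum_const]; simp
    rw [h1]
    have h2 : ∑ s, ∑ v, ∑ v', J s v v' * ‖f v' - f v‖ ^ p = 0 := by
      refine Finset.sum_eq_zero fun s _ => Finset.sum_eq_zero fun v _ =>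
        Finset.sum_eq_zero fun v' _ => ?_
      rw [hJ0 s v v' (hz v)]; simp
    rw [h2]; simp
  · -- the chain
    set Q : Matrix V V ℝ := ∑ s, nk rho (J s) with hQ
    have hQapp : ∀ v v', Q v v' = ∑ s, nk rho (J s) v v' := by
      intro v v'; rw [hQ, Matrix.sum_apply]
    have hQ0 : ∀ v v', 0 ≤ Q v v' := by
      intro v v'; rw [hQapp]; exact Finset.sum_nonneg fun s _ => hnk0 s v v'
    have hQrow : ∀ v, ∑ v', Q v v' ≤ n := by
      intro v
      simp_rw [hQapp]
      rw [Finset.sum_comm]
      have : ∀ s ∈ (Finset.univ : Finset S), ∑ v', nk rho (J s) v v' ≤ 1 := by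
        intro s _
        unfold nk
        rw [← Finset.sum_div]
        by_cases h : rho v = 0
        · rw [h]; simp
        · rw [div_le_one (lt_of_le_of_ne (hrho v) (Ne.symm h))]
          exact hmarg s v
      calc ∑ s, ∑ v', nk rho (J s) v v' ≤ ∑ s : S, (1 : ℝ) := Finset.sum_le_sum this
        _ = n := by simp [hn]
    set loop : V → ℝ := fun v => 1 - n⁻¹ * ∑ v', Q v v' with hloop
    have hloop0 : ∀ v, 0 ≤ loop v := by
      intro v
      simp only [hloop]
      have : n⁻¹ * ∑ v', Q v v' ≤ n⁻¹ * n :=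
        mul_le_mul_of_nonneg_left (hQrow v) (inv_nonneg.2 hn0.le)
      rw [inv_mul_cancel₀ hn0.ne'] at this
      linarith
    set P : Matrix V V ℝ := fun v v' => n⁻¹ * Q v v' + (if v = v' then loop v else 0) with hP
    have hP0 : ∀ v v', 0 ≤ P v v' := by
      intro v v'
      simp only [hP]
      refine add_nonneg (mul_nonneg (inv_nonneg.2 hn0.le) (hQ0 v v')) ?_
      split_ifs
      · exact hloop0 v
      · exact le_rfl
    have hProw : ∀ v, ∑ v', P v v' = 1 := by
      intro v
      simp only [hP, Finset.sum_add_distrib, ← Finset.mul_sum]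
      simp [hloop]
    have hPQ : ∀ v v', (n⁻¹ • Q) v v' ≤ P v v' := by
      intro v v'
      simp only [hP, Matrix.smul_apply, smul_eq_mul]
      have : 0 ≤ (if v = v' then loop v else 0) := by
        split_ifs
        · exact hloop0 v
        · exact le_rfl
      linarith
    have hrQ : ∀ v v', rho v * Q v v' = ∑ s, J s v v' := by
      intro v v'
      rw [hQapp, Finset.mul_sum]
      exact Finset.sum_congr rfl fun s _ => hrJ s v v'
    have hrQsym : ∀ v v', rho v * Q v v' = rho v' * Q v' v := by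
      intro v v'
      rw [hrQ, hrQ]
      have he : Function.Bijective inv := Function.Involutive.bijective hinv
      calc ∑ s, J s v v' = ∑ s, J (inv s) v' v := Finset.sum_congr rfl fun s _ => hsym s v v'
        _ = ∑ s, J s v' v := he.sum_comp (fun s => J s v' v)
    set w0 : V → ℝ := fun v => rho v / R with hw0
    have hdb : ∀ i j, w0 i * P i j = w0 j * P j i := by
      intro i j
      by_cases hij : i = j
      · rw [hij]
      · simp only [hw0, hP, if_neg hij, if_neg (Ne.symm hij), add_zero]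
        have := hrQsym i j
        field_simp
        linarith
    have key := hX V w0 P (fun i => div_nonneg (hrho i) hR0)
      (by simp only [hw0]; rw [← Finset.sum_div]; exact div_self hRpos.ne') hP0 hProw hdb f t ht
    -- right hand side
    have hRHS : ∑ i, ∑ j, w0 i * P i j * ‖f j - f i‖ ^ p =
        R⁻¹ * (n⁻¹ * ∑ s, ∑ v, ∑ v', J s v v' * ‖f v' - f v‖ ^ p) := by
      have h1 : ∀ i j, w0 i * P i j * ‖f j - f i‖ ^ p =
          R⁻¹ * (n⁻¹ * ∑ s, J s i j * ‖f j - f i‖ ^ p) := by
        intro i j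
        rw [← Finset.sum_mul, ← hrQ]
        by_cases hij : i = j
        · subst hij
          simp [Real.zero_rpow hp.ne']
        · simp only [hw0, hP, if_neg hij, add_zero]
          field_simp
      simp_rw [h1, ← Finset.mul_sum]
      congr 2
      calc ∑ v, ∑ v', ∑ s, J s v v' * ‖f v' - f v‖ ^ p
          = ∑ v, ∑ s, ∑ v', J s v v' * ‖f v' - f v‖ ^ p :=
            Finset.sum_congr rfl fun v _ => Finset.sum_comm
        _ = _ := Finset.sum_comm
    -- left hand side
    have hLHS : R⁻¹ * ((n⁻¹) ^ t * wsum t (fun w => ∑ v, ∑ v', rho v *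
        wordMat (fun s => nk rho (J s)) w v v' * ‖f v' - f v‖ ^ p)) ≤
        ∑ i, ∑ j, w0 i * (P ^ t) i j * ‖f j - f i‖ ^ p := by
      rw [wsum_sum]
      simp_rw [wsum_sum]
      simp_rw [Finset.mul_sum]
      refine Finset.sum_le_sum fun v _ => Finset.sum_le_sum fun v' _ => ?_
      have h1 : wsum t (fun w => rho v * wordMat (fun s => nk rho (J s)) w v v' *
          ‖f v' - f v‖ ^ p) = rho v * (Q ^ t) v v' * ‖f v' - f v‖ ^ p := by
        rw [hQ, pow_sum_eq_wsum, wsum_apply, mul_assoc, mul_comm _ (‖f v' - f v‖ ^ p),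
          ← wsum_mul_left, ← wsum_mul_left]
        refine wsum_congr t _ _ fun w _ => ?_
        ring
      rw [h1]
      have h2 := (pow_entry_le (A := n⁻¹ • Q) (B := P)
        (fun i j => by
          simp only [Matrix.smul_apply, smul_eq_mul]
          exact mul_nonneg (inv_nonneg.2 hn0.le) (hQ0 i j)) hPQ t v v').2
      rw [smul_pow, Matrix.smul_apply, smul_eq_mul] at h2
      have h3 : 0 ≤ ‖f v' - f v‖ ^ p := Real.rpow_nonneg (norm_nonneg _) _
      calc R⁻¹ * ((n⁻¹) ^ t * (rho v * (Q ^ t) v v' * ‖f v' - f v‖ ^ p))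
          = w0 v * ((n⁻¹) ^ t * (Q ^ t) v v') * ‖f v' - f v‖ ^ p := by
            simp only [hw0]; ring
        _ ≤ w0 v * (P ^ t) v v' * ‖f v' - f v‖ ^ p := by
            refine mul_le_mul_of_nonneg_right ?_ h3
            exact mul_le_mul_of_nonneg_left h2 (div_nonneg (hrho v) hR0)
    rw [hRHS] at key
    have h3 := hLHS.trans key
    have hRi : 0 < R⁻¹ := inv_pos.2 hRpos
    set L := wsum t (fun w => ∑ v, ∑ v', rho v *
        wordMat (fun s => nk rho (J s)) w v v' * ‖f v' - f v‖ ^ p) with hL
    set D := ∑ s, ∑ v, ∑ v', J s v v' * ‖f v' - f v‖ ^ p with hD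
    have h4 : (n⁻¹) ^ t * L ≤ K ^ p * t * (n⁻¹ * D) := by
      have h5 : R⁻¹ * ((n⁻¹) ^ t * L) ≤ R⁻¹ * (K ^ p * t * (n⁻¹ * D)) := by
        calc _ ≤ _ := h3
          _ = _ := by ring
      exact le_of_mul_le_mul_left h5 hRi
    have hnt : 0 < n ^ t := pow_pos hn0 t
    calc L = n ^ t * ((n⁻¹) ^ t * L) := by
          rw [← mul_assoc, ← mul_pow, mul_inv_cancel₀ hn0.ne', one_pow, one_mul]
      _ ≤ n ^ t * (K ^ p * t * (n⁻¹ * D)) := mul_le_mul_of_nonneg_left h4 hnt.le
      _ = _ := by ring

/-- Lost mass along a word: each letter loses at most `e`. -/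
theorem mass_word (rho : V → ℝ) (hrho : ∀ v, 0 ≤ rho v) (inv : S → S)
    (J : S → V → V → ℝ) (hJ : ∀ s v v', 0 ≤ J s v v')
    (hsym : ∀ s v v', J s v v' = J (inv s) v' v)
    (hmarg : ∀ s v, ∑ v', J s v v' ≤ rho v) (e : ℝ)
    (he : ∀ s, ∑ v, (rho v - ∑ v', J s v v') ≤ e) (w : List S) (g : V → ℝ)
    (hg : ∀ v, 0 ≤ g v) (hgr : ∀ v, g v ≤ rho v) :
    ∑ v, g v - w.length * e ≤ ∑ v, ∑ v', g v * wordMat (fun s => nk rho (J s)) w v v' := by
  classical
  have hJ0 : ∀ s v v', rho v = 0 → J s v v' = 0 := by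
    intro s v v' h
    have h1 := Finset.single_le_sum (f := fun v' => J s v v') (fun v' _ => hJ s v v')
      (Finset.mem_univ v')
    have h2 := hmarg s v
    have h3 := hJ s v v'
    linarith
  have hrJ : ∀ s v v', rho v * nk rho (J s) v v' = J s v v' := by
    intro s v v'
    unfold nk
    by_cases h : rho v = 0
    · rw [h, hJ0 s v v' h]; simp
    · field_simp
  have hnk0 : ∀ s v v', 0 ≤ nk rho (J s) v v' := fun s v v' => div_nonneg (hJ _ _ _) (hrho _)
  have hnkrow : ∀ s v, ∑ v', nk rho (J s) v v' ≤ 1 := by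
    intro s v
    unfold nk
    rw [← Finset.sum_div]
    by_cases h : rho v = 0
    · rw [h]; simp
    · rw [div_le_one (lt_of_le_of_ne (hrho v) (Ne.symm h))]
      exact hmarg s v
  induction w generalizing g with
  | nil =>
    simp [wordMat, Matrix.one_apply]
  | cons s w ih =>
    -- push g forward
    set g' : V → ℝ := fun v' => ∑ v, g v * nk rho (J s) v v' with hg'
    have hg'0 : ∀ v', 0 ≤ g' v' := fun v' =>
      Finset.sum_nonneg fun v _ => mul_nonneg (hg v) (hnk0 s v v')
    have hg'r : ∀ v', g' v' ≤ rho v' := by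
      intro v'
      calc g' v' ≤ ∑ v, rho v * nk rho (J s) v v' :=
            Finset.sum_le_sum fun v _ => mul_le_mul_of_nonneg_right (hgr v) (hnk0 s v v')
        _ = ∑ v, J (inv s) v' v := Finset.sum_congr rfl fun v _ => by rw [hrJ, hsym]
        _ ≤ rho v' := hmarg _ _
    have h1 := ih g' hg'0 hg'r
    have h2 : ∑ v, ∑ v', g v * wordMat (fun s => nk rho (J s)) (s :: w) v v' =
        ∑ v, ∑ v', g' v * wordMat (fun s => nk rho (J s)) w v v' := by
      simp only [wordMat, Matrix.mul_apply, hg', Finset.mul_sum, Finset.sum_mul]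
      calc ∑ v, ∑ v', ∑ u, g v * (nk rho (J s) v u * wordMat (fun s => nk rho (J s)) w u v')
          = ∑ v, ∑ u, ∑ v', g v * (nk rho (J s) v u *
              wordMat (fun s => nk rho (J s)) w u v') :=
            Finset.sum_congr rfl fun v _ => Finset.sum_comm
        _ = ∑ u, ∑ v, ∑ v', g v * (nk rho (J s) v u *
              wordMat (fun s => nk rho (J s)) w u v') := Finset.sum_comm
        _ = ∑ u, ∑ v', ∑ v, g v * (nk rho (J s) v u *
              wordMat (fun s => nk rho (J s)) w u v') :=
            Finset.sum_congr rfl fun v _ => Finset.sum_comm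
        _ = _ := by
            refine Finset.sum_congr rfl fun u _ => Finset.sum_congr rfl fun v' _ =>
              Finset.sum_congr rfl fun v _ => by ring
    have h3 : ∑ v, g v - e ≤ ∑ v', g' v' := by
      have h4 : ∑ v', g' v' = ∑ v, g v * ∑ v', nk rho (J s) v v' := by
        simp only [hg', Finset.mul_sum]
        exact Finset.sum_comm
      rw [h4]
      have h5 : ∑ v, g v * (1 - ∑ v', nk rho (J s) v v') ≤ e := by
        refine le_trans (Finset.sum_le_sum fun v _ => ?_) (he s)
        calc g v * (1 - ∑ v', nk rho (J s) v v')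
            ≤ rho v * (1 - ∑ v', nk rho (J s) v v') :=
              mul_le_mul_of_nonneg_right (hgr v) (by linarith [hnkrow s v])
          _ = rho v - ∑ v', J s v v' := by
              rw [mul_sub, mul_one, Finset.mul_sum]
              congr 1
              exact Finset.sum_congr rfl fun v' _ => hrJ s v v'
      have h6 : ∑ v, g v * (1 - ∑ v', nk rho (J s) v v') =
          ∑ v, g v - ∑ v, g v * ∑ v', nk rho (J s) v v' := by
        rw [← Finset.sum_sub_distrib]
        exact Finset.sum_congr rfl fun v _ => by ring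
      linarith
    rw [h2]
    have h7 : ((s :: w).length : ℝ) = (w.length : ℝ) + 1 := by simp
    rw [h7]
    linarith

/-- `markov_label` in the form with sums over `Fin t → S`. -/
theorem markov_label_ofFn {X : Type*} [NormedAddCommGroup X] {p K : ℝ} (hp : 0 < p)
    (hX : HasMarkovType X p K) [Fintype S] [Nonempty S]
    (inv : S → S) (hinv : ∀ s, inv (inv s) = s)
    (rho : V → ℝ) (hrho : ∀ v, 0 ≤ rho v) (J : S → V → V → ℝ) (hJ : ∀ s v v', 0 ≤ J s v v')
    (hsym : ∀ s v v', J s v v' = J (inv s) v' v)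
    (hmarg : ∀ s v, ∑ v', J s v v' ≤ rho v) (f : V → X) (t : ℕ) (ht : 1 ≤ t) :
    ∑ w : Fin t → S, ∑ v, ∑ v', rho v * wordMat (fun s => nk rho (J s)) (List.ofFn w) v v' *
        ‖f v' - f v‖ ^ p ≤
      K ^ p * t * (Fintype.card S : ℝ) ^ (t - 1) *
        ∑ s, ∑ v, ∑ v', J s v v' * ‖f v' - f v‖ ^ p := by
  have h := markov_label hp hX inv hinv rho hrho J hJ hsym hmarg f t ht
  rw [wsum_eq_sum_ofFn] at h
  refine h.trans (le_of_eq ?_)
  have hn0 : (Fintype.card S : ℝ) ≠ 0 := by
    exact_mod_cast (Fintype.card_pos (α := S)).ne'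
  obtain ⟨u, rfl⟩ : ∃ u, t = u + 1 := ⟨t - 1, by omega⟩
  simp only [Nat.add_sub_cancel, pow_succ]
  field_simp

/-- `mass_word` in the form with a bounded function `g`. -/
theorem mass_word_bdd (rho : V → ℝ) (hrho : ∀ v, 0 ≤ rho v) (inv : S → S)
    (J : S → V → V → ℝ) (hJ : ∀ s v v', 0 ≤ J s v v')
    (hsym : ∀ s v v', J s v v' = J (inv s) v' v)
    (hmarg : ∀ s v, ∑ v', J s v v' ≤ rho v) (e : ℝ)
    (he : ∀ s, ∑ v, (rho v - ∑ v', J s v v') ≤ e) (w : List S) (g : V → ℝ) (G : ℝ)
    (hG0 : 0 ≤ G) (hg : ∀ v, 0 ≤ g v) (hG : ∀ v, g v ≤ G) :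
    ∑ v, rho v * g v - G * w.length * e ≤
      ∑ v, rho v * g v * ∑ v', wordMat (fun s => nk rho (J s)) w v v' := by
  rcases hG0.eq_or_lt with h0 | hpos
  · have hgz : ∀ v, g v = 0 := fun v => le_antisymm ((hG v).trans h0.symm.le) (hg v)
    simp [hgz, ← h0]
  · have h := mass_word rho hrho inv J hJ hsym hmarg e he w (fun v => rho v * g v / G)
      (fun v => div_nonneg (mul_nonneg (hrho v) (hg v)) hG0)
      (fun v => by
        rw [div_le_iff₀ hpos]
        exact mul_le_mul_of_nonneg_left (hG v) (hrho v))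
    have h2 : ∑ v, rho v * g v / G = (∑ v, rho v * g v) / G := by rw [Finset.sum_div]
    have h3 : ∑ v, ∑ v', rho v * g v / G * wordMat (fun s => nk rho (J s)) w v v' =
        (∑ v, rho v * g v * ∑ v', wordMat (fun s => nk rho (J s)) w v v') / G := by
      rw [Finset.sum_div]
      refine Finset.sum_congr rfl fun v _ => ?_
      rw [Finset.mul_sum, Finset.sum_div]
      exact Finset.sum_congr rfl fun v' _ => by ring
    rw [h2, h3, le_div_iff₀ hpos, sub_mul, div_mul_cancel₀ _ hpos.ne'] at h
    calc ∑ v, rho v * g v - G * w.length * e = ∑ v, rho v * g v - w.length * e * G := by ring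
      _ ≤ _ := h

end Crest.Agent.R140.Label
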