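import Crest.Agent.R140.SpreadNat
import Crest.Agent.R140.C3Defs

/-!
Row 140, part C1 in the form of `C3Defs.Spr`.
-/

set_option autoImplicit false

namespace Crest.Agent.R140

/-- Existence of approximately spreadable tuples. -/
theorem Spr.exists (n : ℕ) (ε : ℝ) (hε : 0 < ε) : Nonempty (Spr n ε) := by
  obtain ⟨N, Ω, hΩ, μ, ζ, h0, h1, hlt, hmono, hspr⟩ := spreadable_nat n ε hε
  exact ⟨{ N := N, Ω := Ω, fin := hΩ, μ := μ, ζ := ζ, μ_nonneg := h0, μ_sum := h1,
           lt := fun ω i _ => hlt ω i, mono := hmono, spr := hspr }⟩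

/-- All the values (not only the first `n`) can be taken below `N`. -/
theorem Spr.exists_lt (n : ℕ) (ε : ℝ) (hε : 0 < ε) : ∃ Z : Spr n ε, ∀ ω i, Z.ζ ω i < Z.N := by
  obtain ⟨N, Ω, hΩ, μ, ζ, h0, h1, hlt, hmono, hspr⟩ := spreadable_nat n ε hε
  exact ⟨{ N := N, Ω := Ω, fin := hΩ, μ := μ, ζ := ζ, μ_nonneg := h0, μ_sum := h1,
           lt := fun ω i _ => hlt ω i, mono := hmono, spr := hspr }, hlt⟩

end Crest.Agent.R140
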