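import Crest.Agent.R140.Defs
import Crest.Agent.R140.C3Defs
import Crest.Agent.R140.SprExists

/-!
# Row 140, module LimitNorm (parts C2 and C3c)
The ultrafilter limit of the `p`-th moment functionals is a spreading invariant seminorm on
lists which satisfies the group inequality.
-/

set_option autoImplicit false

namespace Crest.Agent.R140.LimNorm

open Crest.AnalysisR Crest.Agent.R140 Filter

/-! ### weighted Minkowski and power mean for finite sums -/

theorem wMink {ι : Type*} [Fintype ι] {E : Type*} [NormedAddCommGroup E] (c : ι → ℝ)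
    (hc : ∀ i, 0 ≤ c i) (f g : ι → E) {p : ℝ} (hp : 1 ≤ p) :
    (∑ i, c i * ‖f i + g i‖ ^ p) ^ (1 / p) ≤
      (∑ i, c i * ‖f i‖ ^ p) ^ (1 / p) + (∑ i, c i * ‖g i‖ ^ p) ^ (1 / p) := by
  have hp0 : 0 < p := by linarith
  have key : ∀ (i : ι) (x : ℝ), 0 ≤ x → c i * x ^ p = |c i ^ (1 / p) * x| ^ p := by
    intro i x hx
    rw [abs_of_nonneg (mul_nonneg (Real.rpow_nonneg (hc i) _) hx),
      Real.mul_rpow (Real.rpow_nonneg (hc i) _) hx, ← Real.rpow_mul (hc i), one_div_mul_cancel hp0.ne',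
      Real.rpow_one]
  have h1 : ∑ i, c i * ‖f i + g i‖ ^ p ≤
      ∑ i, |c i ^ (1 / p) * ‖f i‖ + c i ^ (1 / p) * ‖g i‖| ^ p := by
    refine Finset.sum_le_sum fun i _ => ?_
    rw [key i _ (norm_nonneg _)]
    refine Real.rpow_le_rpow (abs_nonneg _) ?_ hp0.le
    rw [← mul_add, abs_of_nonneg (mul_nonneg (Real.rpow_nonneg (hc i) _) (norm_nonneg _)),
      abs_of_nonneg (mul_nonneg (Real.rpow_nonneg (hc i) _)
        (add_nonneg (norm_nonneg _) (norm_nonneg _)))]
    exact mul_le_mul_of_nonneg_left (norm_add_le _ _) (Real.rpow_nonneg (hc i) _)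
  have h2 := Real.Lp_add_le (Finset.univ : Finset ι) (fun i => c i ^ (1 / p) * ‖f i‖)
    (fun i => c i ^ (1 / p) * ‖g i‖) hp
  have h3 : ∀ f' : ι → E, ∑ i, |c i ^ (1 / p) * ‖f' i‖| ^ p = ∑ i, c i * ‖f' i‖ ^ p := fun f' =>
    Finset.sum_congr rfl fun i _ => (key i _ (norm_nonneg _)).symm
  rw [h3 f, h3 g] at h2
  refine le_trans (Real.rpow_le_rpow ?_ h1 (by positivity)) h2
  exact Finset.sum_nonneg fun i _ => mul_nonneg (hc i) (Real.rpow_nonneg (norm_nonneg _) _)


variable {X : Type*} [NormedAddCommGroup X] [NormedSpace ℝ X] {p : ℝ}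

/-- the vector of a list along an index sequence -/
noncomputable def lin (y : ℕ → X) (l : List ℝ) : X :=
  ∑ i ∈ Finset.range l.length, l.getD i 0 • y i

theorem lin_cons (y : ℕ → X) (c : ℝ) (l : List ℝ) :
    lin y (c :: l) = c • y 0 + lin (fun i => y (i + 1)) l := by
  unfold lin
  rw [List.length_cons, Finset.sum_range_succ']
  simp [add_comm]

theorem lin_nil (y : ℕ → X) : lin y [] = 0 := by simp [lin]

theorem lin_map (y : ℕ → X) (c : ℝ) (l : List ℝ) :
    lin y (l.map (fun x => c * x)) = c • lin y l := by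
  induction l generalizing y with
  | nil => simp [lin_nil]
  | cons a l ih => rw [List.map_cons, lin_cons, lin_cons, ih, smul_add, mul_smul]

theorem lin_zipWith (y : ℕ → X) (l l' : List ℝ) (h : l.length = l'.length) :
    lin y (List.zipWith (fun x y => x + y) l l') = lin y l + lin y l' := by
  induction l generalizing y l' with
  | nil =>
    have : l' = [] := by
      cases l' with
      | nil => rfl
      | cons _ _ => simp at h
    subst this
    simp [lin_nil]
  | cons a l ih =>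
    cases l' with
    | nil => simp at h
    | cons b l' =>
      rw [List.zipWith_cons_cons, lin_cons, lin_cons, lin_cons,
        ih (fun i => y (i + 1)) l' (by simpa using h), add_smul]
      abel

theorem lin_append (y : ℕ → X) (l l' : List ℝ) :
    lin y (l ++ l') = lin y l + lin (fun i => y (l.length + i)) l' := by
  induction l generalizing y with
  | nil => simp [lin_nil]
  | cons a l ih =>
    rw [List.cons_append, lin_cons, lin_cons, ih, add_assoc]
    congr 2
    simp only [List.length_cons]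
    congr 1
    funext i
    congr 1
    omega

theorem lin_congr (y y' : ℕ → X)
    (l : List ℝ) (h : ∀ i, i < l.length → y i = y' i) : lin y l = lin y' l := by
  unfold lin
  refine Finset.sum_congr rfl fun i hi => ?_
  rw [h i (Finset.mem_range.1 hi)]

theorem lin_skip (y : ℕ → X) (l₁ l₂ : List ℝ) :
    lin y (l₁ ++ 0 :: l₂) =
      lin (fun j => y (if j < l₁.length then j else j + 1)) (l₁ ++ l₂) := by
  rw [lin_append, lin_append, lin_cons, zero_smul, zero_add]
  congr 1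
  · refine lin_congr _ _ _ fun i hi => ?_
    simp [hi]
  · refine lin_congr _ _ _ fun i _ => ?_
    have : ¬ (l₁.length + i < l₁.length) := by omega
    simp only [this, if_false]
    rfl

theorem lin_get (y : ℕ → X) (l : List ℝ) :
    lin y l = ∑ j : Fin l.length, l.get j • y (j : ℕ) := by
  unfold lin
  rw [Finset.sum_range]
  refine Finset.sum_congr rfl fun j _ => ?_
  simp

theorem lin_replicate (y : ℕ → X) (k : ℕ) (c : ℝ) :
    lin y (List.replicate k c) = c • ∑ i ∈ Finset.range k, y i := by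
  unfold lin
  rw [List.length_replicate, Finset.smul_sum]
  refine Finset.sum_congr rfl fun i hi => ?_
  have hi' := Finset.mem_range.1 hi
  congr 1
  rw [List.getD_eq_getElem _ _ (by simpa using hi'), List.getElem_replicate]

/-- the `ℓ₁` norm of a list -/
def l1 (l : List ℝ) : ℝ := (l.map (fun c => |c|)).sum

theorem l1_nonneg (l : List ℝ) : 0 ≤ l1 l := by
  unfold l1
  refine List.sum_nonneg ?_
  intro x hx
  obtain ⟨a, _, rfl⟩ := List.mem_map.1 hx
  exact abs_nonneg a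

theorem norm_lin_le (y : ℕ → X) (hy : ∀ i, ‖y i‖ ≤ 1) (l : List ℝ) : ‖lin y l‖ ≤ l1 l := by
  induction l generalizing y with
  | nil => simp [lin_nil, l1]
  | cons a l ih =>
    rw [lin_cons]
    refine (norm_add_le _ _).trans ?_
    have h1 : ‖a • y 0‖ ≤ |a| := by
      rw [norm_smul, Real.norm_eq_abs]
      have := hy 0
      nlinarith [abs_nonneg a, norm_nonneg (y 0)]
    have h2 := ih (fun i => y (i + 1)) (fun i => hy _)
    have h3 : l1 (a :: l) = |a| + l1 l := by simp [l1]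
    linarith

section level

variable {n : ℕ} {ε : ℝ} (Z : Spr n ε) (F : Fam X)

/-- the `p`-th moment functional written with one weighted sum -/
noncomputable def Q (p : ℝ) (l : List ℝ) : ℝ :=
  ∑ b : Z.Ω × F.A, (Z.μ b.1 * F.w b.2) * ‖lin (fun i => F.x b.2 (Z.ζ b.1 i)) l‖ ^ p

theorem QF_eq (l : List ℝ) : QF p Z F l.get = Q Z F p l := by
  unfold QF Q
  rw [Fintype.sum_prod_type]
  refine Finset.sum_congr rfl fun ω _ => ?_
  rw [Finset.mul_sum]
  refine Finset.sum_congr rfl fun a _ => ?_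
  rw [mul_assoc, lin_get]

theorem wt_nonneg (b : Z.Ω × F.A) : 0 ≤ Z.μ b.1 * F.w b.2 :=
  mul_nonneg (Z.μ_nonneg _) (F.w_nonneg _)

theorem wt_sum : ∑ b : Z.Ω × F.A, (Z.μ b.1 * F.w b.2) = 1 := by
  rw [Fintype.sum_prod_type]
  simp only [← Finset.mul_sum, F.w_sum, mul_one, Z.μ_sum]

theorem Q_nonneg (l : List ℝ) : 0 ≤ Q Z F p l :=
  Finset.sum_nonneg fun b _ => mul_nonneg (wt_nonneg Z F b) (Real.rpow_nonneg (norm_nonneg _) _)

theorem Q_le (hp : 1 ≤ p) (l : List ℝ) : Q Z F p l ≤ l1 l ^ p := by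
  calc Q Z F p l ≤ ∑ b : Z.Ω × F.A, (Z.μ b.1 * F.w b.2) * l1 l ^ p := by
        refine Finset.sum_le_sum fun b _ => mul_le_mul_of_nonneg_left ?_ (wt_nonneg Z F b)
        exact Real.rpow_le_rpow (norm_nonneg _) (norm_lin_le _ (fun i => F.norm_le _ _) l)
          (by linarith)
    _ = l1 l ^ p := by rw [← Finset.sum_mul, wt_sum, one_mul]

theorem Q_smul (c : ℝ) (l : List ℝ) :
    Q Z F p (l.map (fun x => c * x)) = |c| ^ p * Q Z F p l := by
  unfold Q
  rw [Finset.mul_sum]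
  refine Finset.sum_congr rfl fun b _ => ?_
  rw [lin_map, norm_smul, Real.norm_eq_abs, Real.mul_rpow (abs_nonneg _) (norm_nonneg _)]
  ring

theorem Q_tri (hp : 1 ≤ p) (l l' : List ℝ) (h : l.length = l'.length) :
    Q Z F p (List.zipWith (fun x y => x + y) l l') ^ (1 / p) ≤
      Q Z F p l ^ (1 / p) + Q Z F p l' ^ (1 / p) := by
  unfold Q
  simp only [lin_zipWith _ l l' h]
  exact wMink _ (fun b => wt_nonneg Z F b) _ _ hp

theorem Q_mean (hp : 1 ≤ p) (l : List ℝ) :
    ∑ b : Z.Ω × F.A, (Z.μ b.1 * F.w b.2) * ‖lin (fun i => F.x b.2 (Z.ζ b.1 i)) l‖ ≤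
      Q Z F p l ^ (1 / p) :=
  Real.arith_mean_le_rpow_mean Finset.univ _ _ (fun b _ => wt_nonneg Z F b) (wt_sum Z F)
    (fun _ _ => norm_nonneg _) hp

/-- spreadability of the moment functional of a coefficient vector -/
theorem Q_spread (hp : 1 ≤ p) (l : List ℝ)
    (i i' : Fin l.length → ℕ) (hi : StrictMono i) (hi' : StrictMono i') (hin : ∀ a, i a < n)
    (hin' : ∀ a, i' a < n) :
    |∑ ω, Z.μ ω * (∑ a, F.w a * ‖∑ j : Fin l.length, l.getD j 0 • F.x a (Z.ζ ω (i j))‖ ^ p) -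
      ∑ ω, Z.μ ω * (∑ a, F.w a * ‖∑ j : Fin l.length, l.getD j 0 • F.x a (Z.ζ ω (i' j))‖ ^ p)| ≤
      ε * l1 l ^ p := by
  set C := l1 l ^ p with hC
  have hC0 : 0 ≤ C := Real.rpow_nonneg (l1_nonneg l) _
  have hbd : ∀ v : Fin l.length → ℕ,
      0 ≤ ∑ a, F.w a * ‖∑ j : Fin l.length, l.getD j 0 • F.x a (v j)‖ ^ p ∧
      ∑ a, F.w a * ‖∑ j : Fin l.length, l.getD j 0 • F.x a (v j)‖ ^ p ≤ C := by
    intro v
    refine ⟨Finset.sum_nonneg fun a _ =>
      mul_nonneg (F.w_nonneg a) (Real.rpow_nonneg (norm_nonneg _) _), ?_⟩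
    calc _ ≤ ∑ a, F.w a * C := by
          refine Finset.sum_le_sum fun a _ => mul_le_mul_of_nonneg_left ?_ (F.w_nonneg a)
          refine Real.rpow_le_rpow (norm_nonneg _) ?_ (by linarith)
          have := norm_lin_le (fun i : ℕ => if h : i < l.length then F.x a (v ⟨i, h⟩) else 0)
            (fun i => by by_cases h : i < l.length <;> simp [h, F.norm_le]) l
          refine le_trans (le_of_eq ?_) this
          congr 1
          unfold lin
          rw [Finset.sum_range]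
          refine Finset.sum_congr rfl fun j _ => ?_
          simp
      _ = C := by rw [← Finset.sum_mul, F.w_sum, one_mul]
  rcases hC0.eq_or_lt with h0 | hpos
  · have hz : ∀ v : Fin l.length → ℕ,
        ∑ a, F.w a * ‖∑ j : Fin l.length, l.getD j 0 • F.x a (v j)‖ ^ p = 0 :=
      fun v => le_antisymm ((hbd v).2.trans h0.ge) (hbd v).1
    simp only [hz (fun j => Z.ζ _ (i j)), hz (fun j => Z.ζ _ (i' j))]
    simp [← h0]
  · have := Z.spr l.length i i' hi hi' hin hin'
      (fun v => (∑ a, F.w a * ‖∑ j : Fin l.length, l.getD j 0 • F.x a (v j)‖ ^ p) / C)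
      (fun v => by
        rw [abs_of_nonneg (div_nonneg (hbd v).1 hC0), div_le_one hpos]
        exact (hbd v).2)
    simp only [← mul_div_assoc, ← Finset.sum_div] at this
    rw [← sub_div, abs_div, abs_of_pos hpos, div_le_iff₀ hpos] at this
    exact this

/-! ### zero insertion and lower bound at one level -/

theorem Q_getD (l : List ℝ) : Q Z F p l =
    ∑ ω, Z.μ ω * (∑ a, F.w a * ‖∑ j : Fin l.length, l.getD j 0 • F.x a (Z.ζ ω (j : ℕ))‖ ^ p) := by
  unfold Q
  rw [Fintype.sum_prod_type]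
  refine Finset.sum_congr rfl fun ω _ => ?_
  rw [Finset.mul_sum]
  refine Finset.sum_congr rfl fun a _ => ?_
  unfold lin
  rw [mul_assoc, Finset.sum_range]

theorem Q_zero_ins (hp : 1 ≤ p) (l₁ l₂ : List ℝ) (hn : (l₁ ++ l₂).length < n) :
    |Q Z F p (l₁ ++ 0 :: l₂) - Q Z F p (l₁ ++ l₂)| ≤ ε * l1 (l₁ ++ l₂) ^ p := by
  have h := Q_spread (p := p) Z F hp (l₁ ++ l₂)
    (fun j => if (j : ℕ) < l₁.length then (j : ℕ) else j + 1) (fun j => (j : ℕ))
    (fun a b hab => by
      have hab' : (a : ℕ) < b := hab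
      dsimp only
      split_ifs <;> omega)
    (fun a b hab => hab)
    (fun a => by
      have := a.2
      split_ifs <;> omega)
    (fun a => by have := a.2; omega)
  have e1 : Q Z F p (l₁ ++ 0 :: l₂) =
      ∑ ω, Z.μ ω * (∑ a, F.w a * ‖∑ j : Fin (l₁ ++ l₂).length, (l₁ ++ l₂).getD j 0 •
        F.x a (Z.ζ ω (if (j : ℕ) < l₁.length then (j : ℕ) else j + 1))‖ ^ p) := by
    unfold Q
    rw [Fintype.sum_prod_type]
    refine Finset.sum_congr rfl fun ω _ => ?_
    rw [Finset.mul_sum]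
    refine Finset.sum_congr rfl fun a _ => ?_
    dsimp only
    rw [mul_assoc, lin_skip (fun i => F.x a (Z.ζ ω i)) l₁ l₂]
    unfold lin
    rw [Finset.sum_range]
  rw [e1, Q_getD]
  exact h

theorem Q_lower (hp : 1 ≤ p) {θ : ℝ}
    (hsep : ∀ (m : ℕ) (z : Fin (2 * m) → ℕ), StrictMono z → (∀ j, z j < Z.N) →
      θ * m ≤ ∑ a, F.w a *
        ‖∑ j : Fin (2 * m), (if (j : ℕ) < m then (1 : ℝ) else -1) • F.x a (z j)‖)
    (k : ℕ) (hk : 2 * k ≤ n) :
    θ * k ≤ Q Z F p (List.replicate k 1 ++ List.replicate k (-1)) ^ (1 / p) := by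
  refine le_trans ?_ (Q_mean Z F hp _)
  have e : ∀ (ω : Z.Ω) (a : F.A), lin (fun i => F.x a (Z.ζ ω i))
      (List.replicate k 1 ++ List.replicate k (-1)) =
      ∑ j : Fin (2 * k), (if (j : ℕ) < k then (1 : ℝ) else -1) • F.x a (Z.ζ ω (j : ℕ)) := by
    intro ω a
    rw [lin_append, lin_replicate, lin_replicate, List.length_replicate,
      ← Finset.sum_range (fun j => (if j < k then (1 : ℝ) else -1) • F.x a (Z.ζ ω j)),
      two_mul, Finset.sum_range_add]
    congr 1
    · rw [one_smul]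
      refine Finset.sum_congr rfl fun j hj => ?_
      rw [if_pos (Finset.mem_range.1 hj), one_smul]
    · rw [Finset.smul_sum]
      refine Finset.sum_congr rfl fun j hj => ?_
      rw [if_neg (by omega)]
  rw [Fintype.sum_prod_type]
  simp only [e]
  have h1 : ∀ ω : Z.Ω, θ * k ≤ ∑ a, F.w a *
      ‖∑ j : Fin (2 * k), (if (j : ℕ) < k then (1 : ℝ) else -1) • F.x a (Z.ζ ω (j : ℕ))‖ := by
    intro ω
    exact hsep k (fun j => Z.ζ ω (j : ℕ))
      (fun a b hab => Z.mono ω _ _ hab (by have := b.2; omega))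
      (fun j => Z.lt ω _ (by have := j.2; omega))
  calc θ * k = ∑ ω, Z.μ ω * (θ * k) := by rw [← Finset.sum_mul, Z.μ_sum, one_mul]
    _ ≤ ∑ ω, Z.μ ω * ∑ a, F.w a *
        ‖∑ j : Fin (2 * k), (if (j : ℕ) < k then (1 : ℝ) else -1) • F.x a (Z.ζ ω (j : ℕ))‖ :=
        Finset.sum_le_sum fun ω _ => mul_le_mul_of_nonneg_left (h1 ω) (Z.μ_nonneg ω)
    _ = _ := by
        refine Finset.sum_congr rfl fun ω _ => ?_
        rw [Finset.mul_sum]
        exact Finset.sum_congr rfl fun a _ => by rw [mul_assoc]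

end level

/-! ### limits along an ultrafilter -/

theorem exists_ulim (U : Ultrafilter ℕ) (f : ℕ → ℝ) (C : ℝ) (h0 : ∀ r, 0 ≤ f r)
    (hC : ∀ r, f r ≤ C) : ∃ a, Tendsto f U (nhds a) := by
  have h : ((U.map f : Ultrafilter ℝ) : Filter ℝ) ≤ 𝓟 (Set.Icc 0 C) := by
    rw [le_principal_iff]
    exact Filter.mem_map.2 (Filter.univ_mem' fun r => ⟨h0 r, hC r⟩)
  obtain ⟨a, _, ha⟩ := isCompact_Icc.ultrafilter_le_nhds (U.map f) h
  exact ⟨a, ha⟩

/-- **C2.** The limit norm: for given levels `Z r`, `F r` with `n → ∞`, `ε → 0` along an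
ultrafilter, the `p`-th moments converge to the `p`-th power of a spreading invariant
seminorm on lists. -/
theorem exists_limit (hp : 1 ≤ p) (U : Ultrafilter ℕ) (nn : ℕ → ℕ) (ee : ℕ → ℝ)
    (Z : ∀ r, Spr (nn r) (ee r)) (F : ℕ → Fam X)
    (hn : Tendsto nn U atTop) (hε : Tendsto ee U (nhds 0)) :
    ∃ M : SprNorm, (∀ l : List ℝ, Tendsto (fun r => QF p (Z r) (F r) l.get) U
        (nhds (M.N l ^ p))) ∧
      (∀ l : List ℝ, Tendsto (fun r => QF p (Z r) (F r) l.get ^ (1 / p)) U (nhds (M.N l))) ∧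
      (∀ l : List ℝ, M.N l ≤ (l.map (fun c => |c|)).sum) := by
  have hp0 : 0 < p := by linarith
  have hbase : ∀ (r : ℕ) (l : List ℝ), 0 ≤ Q (Z r) (F r) p l := fun r l => Q_nonneg _ _ l
  have hle : ∀ (r : ℕ) (l : List ℝ), Q (Z r) (F r) p l ^ (1 / p) ≤ l1 l := by
    intro r l
    have := Real.rpow_le_rpow (hbase r l) (Q_le (Z r) (F r) hp l) (by positivity : 0 ≤ 1 / p)
    rwa [← Real.rpow_mul (l1_nonneg l), mul_one_div_cancel hp0.ne', Real.rpow_one] at this
  have hex : ∀ l : List ℝ, ∃ a, Tendsto (fun r => Q (Z r) (F r) p l ^ (1 / p)) U (nhds a) :=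
    fun l => exists_ulim U _ (l1 l) (fun r => Real.rpow_nonneg (hbase r l) _) (fun r => hle r l)
  choose N hN using hex
  have hN0 : ∀ l, 0 ≤ N l := fun l =>
    ge_of_tendsto' (hN l) fun r => Real.rpow_nonneg (hbase r l) _
  have hQ : ∀ l, Tendsto (fun r => Q (Z r) (F r) p l) U (nhds (N l ^ p)) := by
    intro l
    have := (hN l).rpow_const (Or.inr hp0.le : N l ≠ 0 ∨ 0 ≤ p)
    refine this.congr fun r => ?_
    rw [← Real.rpow_mul (hbase r l), one_div_mul_cancel hp0.ne', Real.rpow_one]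
  have hl1 : ∀ l, N l ≤ l1 l := fun l => le_of_tendsto' (hN l) fun r => hle r l
  refine ⟨⟨N, hN0, ?_, ?_, ?_, ?_⟩, ?_, ?_, hl1⟩
  · intro c l
    refine tendsto_nhds_unique (hN _) (((hN l).const_mul |c|).congr fun r => ?_)
    rw [Q_smul, Real.mul_rpow (Real.rpow_nonneg (abs_nonneg _) _) (hbase r l),
      ← Real.rpow_mul (abs_nonneg c), mul_one_div_cancel hp0.ne', Real.rpow_one]
  · intro l l' hll
    exact le_of_tendsto_of_tendsto' (hN _) ((hN l).add (hN l')) fun r => Q_tri _ _ hp l l' hll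
  · intro l₁ l₂
    have h1 : Tendsto (fun r => Q (Z r) (F r) p (l₁ ++ 0 :: l₂) -
        Q (Z r) (F r) p (l₁ ++ l₂)) U (nhds 0) := by
      have hb : Tendsto (fun r : ℕ => ee r * l1 (l₁ ++ l₂) ^ p) U (nhds 0) := by
        simpa using hε.mul_const (l1 (l₁ ++ l₂) ^ p)
      refine squeeze_zero_norm' ?_ hb
      filter_upwards [hn.eventually_gt_atTop (l₁ ++ l₂).length] with r hr
      rw [Real.norm_eq_abs]
      exact Q_zero_ins _ _ hp l₁ l₂ hr
    have h2 := (hQ (l₁ ++ 0 :: l₂)).sub (hQ (l₁ ++ l₂))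
    have h3 : N (l₁ ++ 0 :: l₂) ^ p - N (l₁ ++ l₂) ^ p = 0 := tendsto_nhds_unique h2 h1
    exact (Real.rpow_left_inj (hN0 _) (hN0 _) hp0.ne').1 (sub_eq_zero.1 h3)
  · have := hl1 [1]
    simpa [l1] using this
  · intro l
    simpa only [QF_eq] using hQ l
  · intro l
    simpa only [QF_eq] using hN l

/-- **C2, final form.** From separated families of all lengths: levels, an ultrafilter and a
spreading invariant seminorm on lists which is the limit of the moment functionals and is bounded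
below on `(1,…,1,-1,…,-1)`. -/
theorem limNorm (hp : 1 ≤ p) {θ : ℝ} (hS : ∀ n, SepFam X θ n) :
    ∃ (U : Ultrafilter ℕ) (nn : ℕ → ℕ) (ee : ℕ → ℝ) (Z : ∀ r, Spr (nn r) (ee r))
      (F : ℕ → Fam X) (M : SprNorm),
      Tendsto nn U atTop ∧ Tendsto ee U (nhds 0) ∧
      (∀ l : List ℝ, Tendsto (fun r => QF p (Z r) (F r) l.get) U (nhds (M.N l ^ p))) ∧
      (∀ l : List ℝ, M.N l ≤ (l.map (fun c => |c|)).sum) ∧
      (∀ m : ℕ, θ * m ≤ M.N (List.replicate m 1 ++ List.replicate m (-1))) := by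
  have hZ : ∀ r : ℕ, Nonempty (Spr r (1 / ((r : ℝ) + 1))) := fun r =>
    Spr.exists r _ (by positivity)
  let Z : ∀ r : ℕ, Spr r (1 / ((r : ℝ) + 1)) := fun r => (hZ r).some
  have hF : ∀ r : ℕ, ∃ F : Fam X, ∀ (m : ℕ) (z : Fin (2 * m) → ℕ), StrictMono z →
      (∀ j, z j < (Z r).N) → θ * m ≤ ∑ a, F.w a *
        ‖∑ j : Fin (2 * m), (if (j : ℕ) < m then (1 : ℝ) else -1) • F.x a (z j)‖ := by
    intro r
    obtain ⟨A, fA, w, x, h0, h1, hx, hs⟩ := hS (Z r).N
    exact ⟨⟨A, fA, w, x, h0, h1, hx⟩, hs⟩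
  choose F hF using hF
  let U : Ultrafilter ℕ := hyperfilter ℕ
  have hU : (U : Filter ℕ) ≤ atTop := Nat.hyperfilter_le_atTop
  have hn : Tendsto (fun r : ℕ => r) U atTop := hU
  have hε : Tendsto (fun r : ℕ => 1 / ((r : ℝ) + 1)) U (nhds 0) :=
    (tendsto_one_div_add_atTop_nhds_zero_nat).mono_left hU
  obtain ⟨M, hM1, hM2, hM3⟩ := exists_limit (X := X) hp U _ _ Z F hn hε
  refine ⟨U, _, _, Z, F, M, hn, hε, hM1, hM3, fun k => ?_⟩
  refine ge_of_tendsto (hM2 _) ?_
  filter_upwards [hn.eventually_ge_atTop (2 * k)] with r hr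
  rw [QF_eq]
  exact Q_lower (Z r) (F r) hp (hF r) k hr

end Crest.Agent.R140.LimNorm
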