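import Crest.Agent.R140.MonoN
import Crest.Agent.R140.Dyn

/-!
Row 140: `SubNorm.fnZ` on `ℝ →₀ ℤ` satisfies `Dyn.MonoNorm`; value on `δ₀ - δ₁`.
-/

set_option autoImplicit false

namespace Crest.Agent.R140



/-- The functional of C5. -/
theorem SubNorm.monoNorm (M : SubNorm) :
    Dyn.MonoNorm (fun a : ℝ →₀ ℤ => M.toSprNorm.fnZ a) where
  nonneg := fun a => M.toSprNorm.fnZ_nonneg a
  add_le := fun a b => M.toSprNorm.fnZ_add_le a b
  smul := fun n a => M.toSprNorm.fnZ_smul n a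
  mono := fun f hf a => M.fnZ_mapDomain_le f hf a

theorem SprNorm.fnZ_single_sub (M : SprNorm) :
    M.fnZ (Finsupp.single (0 : ℝ) (1 : ℤ) - Finsupp.single (1 : ℝ) (1 : ℤ)) = M.N [1, -1] := by
  classical
  have h1 : (Finsupp.single (0 : ℝ) (1 : ℤ) - Finsupp.single (1 : ℝ) (1 : ℤ)).support ⊆ ({0, 1} : Finset ℝ) := by
    intro x hx
    by_contra hcon
    simp only [Finset.mem_insert, Finset.mem_singleton, not_or] at hcon
    rw [Finsupp.mem_support_iff, Finsupp.sub_apply, Finsupp.single_apply, Finsupp.single_apply,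
      if_neg (fun h => hcon.1 h.symm), if_neg (fun h => hcon.2 h.symm)] at hx
    exact hx rfl
  rw [M.fnZ_eq_fnZ', M.listNorm.fnZ'_eq _ _ h1]
  have h2 : (({0, 1} : Finset ℝ).sort (· ≤ ·)) = [0, 1] := by
    have := (List.toFinset_sort (· ≤ ·) (l := [(0 : ℝ), 1]) (by simp)).mpr (by simp)
    rw [← this]
    congr 1
    simp
  rw [h2]
  simp

theorem SubNorm.pos_of_sep (M : SubNorm) {θ : ℝ} (hθ : 0 < θ) (h : θ ≤ M.N [1, -1]) :
    0 < (fun a : ℝ →₀ ℤ => M.toSprNorm.fnZ a) (Finsupp.single (0 : ℝ) (1 : ℤ) - Finsupp.single (1 : ℝ) (1 : ℤ)) := by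
  show 0 < M.toSprNorm.fnZ _
  rw [M.toSprNorm.fnZ_single_sub]
  linarith

end Crest.Agent.R140
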