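import Mathlib
import Crest.Agent.R140.Defs

/-!
Row 140 (S0191), PART B: trees in the unit ball and separated families.
-/

set_option autoImplicit false

namespace Crest.Agent.R140

open Finset

/-- finite binary martingale trees -/
inductive Tree (X : Type*) where
  | leaf (x : X) : Tree X
  | node (lam : ℝ) (l r : Tree X) : Tree X

namespace Tree

variable {X : Type*} [NormedAddCommGroup X] [NormedSpace ℝ X]

/-- value at the root -/
noncomputable def val : Tree X → X
  | leaf x => x
  | node lam l r => lam • l.val + (1 - lam) • r.val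

/-- all leaves in the unit ball, all parameters in `[0,1]` -/
def Ok : Tree X → Prop
  | leaf x => ‖x‖ ≤ 1
  | node lam l r => (0 ≤ lam ∧ lam ≤ 1) ∧ l.Ok ∧ r.Ok

/-- `ε`-big nodes -/
def Big (ε lam : ℝ) (l r : Tree X) : Prop := lam = 1 / 2 ∧ 2 * ε ≤ ‖l.val - r.val‖

open Classical in
/-- expected number of big nodes on a random root-leaf path -/
noncomputable def C (ε : ℝ) : Tree X → ℝ
  | leaf _ => 0
  | node lam l r => (if Big ε lam l r then 1 else 0) + (lam * l.C ε + (1 - lam) * r.C ε)

open Classical in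
/-- probability that a random root-leaf path has at least `j` big nodes -/
noncomputable def p (ε : ℝ) : Tree X → ℕ → ℝ
  | leaf _ => fun j => if j = 0 then 1 else 0
  | node lam l r => fun j =>
      if Big ε lam l r then lam * l.p ε (j - 1) + (1 - lam) * r.p ε (j - 1)
      else lam * l.p ε j + (1 - lam) * r.p ε j

lemma val_leaf (x : X) : (leaf x).val = x := rfl
lemma val_node (lam : ℝ) (l r : Tree X) :
    (node lam l r).val = lam • l.val + (1 - lam) • r.val := rfl

lemma norm_val_le {T : Tree X} (h : T.Ok) : ‖T.val‖ ≤ 1 := by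
  induction T with
  | leaf x => exact h
  | node lam l r hl hr =>
    obtain ⟨⟨h0, h1⟩, h2, h3⟩ := h
    rw [val_node]
    calc ‖lam • l.val + (1 - lam) • r.val‖ ≤ ‖lam • l.val‖ + ‖(1 - lam) • r.val‖ := norm_add_le _ _
      _ = lam * ‖l.val‖ + (1 - lam) * ‖r.val‖ := by
          rw [norm_smul, norm_smul, Real.norm_of_nonneg h0, Real.norm_of_nonneg (by linarith)]
      _ ≤ lam * 1 + (1 - lam) * 1 := by
          have := hl h2; have := hr h3
          gcongr
      _ = 1 := by ring

variable {ε : ℝ}

lemma p_zero (T : Tree X) : T.p ε 0 = 1 := by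
  induction T with
  | leaf x => simp [p]
  | node lam l r hl hr =>
    simp only [p, Nat.zero_sub, hl, hr]
    split_ifs <;> ring

lemma p_nonneg {T : Tree X} (h : T.Ok) (j : ℕ) : 0 ≤ T.p ε j := by
  induction T generalizing j with
  | leaf x => simp only [p]; split_ifs <;> norm_num
  | node lam l r hl hr =>
    obtain ⟨⟨h0, h1⟩, h2, h3⟩ := h
    simp only [p]
    have h1' : 0 ≤ 1 - lam := by linarith
    split_ifs
    · have := hl h2 (j - 1); have := hr h3 (j - 1); positivity
    · have := hl h2 j; have := hr h3 j; positivity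

lemma p_antitone {T : Tree X} (h : T.Ok) : Antitone (T.p ε) := by
  induction T with
  | leaf x =>
    intro i j hij
    simp only [p]
    split_ifs with h1 h2 h2
    · norm_num
    · omega
    · norm_num
    · norm_num
  | node lam l r hl hr =>
    obtain ⟨⟨h0, h1⟩, h2, h3⟩ := h
    have h1' : 0 ≤ 1 - lam := by linarith
    intro i j hij
    simp only [p]
    split_ifs
    · have := hl h2 (Nat.sub_le_sub_right hij 1); have := hr h3 (Nat.sub_le_sub_right hij 1)
      gcongr
    · have := hl h2 hij; have := hr h3 hij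
      gcongr

lemma p_add_le {s : ℝ} {j : ℕ} (hs : ∀ T : Tree X, T.Ok → T.p ε j ≤ s) (_hs0 : 0 ≤ s)
    {T : Tree X} (h : T.Ok) (i : ℕ) : T.p ε (i + j) ≤ T.p ε i * s := by
  induction T generalizing i with
  | leaf x =>
    rcases Nat.eq_zero_or_pos i with rfl | hi
    · rw [p_zero, zero_add, one_mul]; exact hs _ h
    · have h1 : (leaf x : Tree X).p ε (i + j) = 0 := by simp only [p]; rw [if_neg (by omega)]
      have h2 : (leaf x : Tree X).p ε i = 0 := by simp only [p]; rw [if_neg (by omega)]
      rw [h1, h2, zero_mul]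
  | node lam l r hl hr =>
    rcases Nat.eq_zero_or_pos i with rfl | hi
    · rw [p_zero, zero_add, one_mul]; exact hs _ h
    obtain ⟨⟨h0, h1⟩, h2, h3⟩ := h
    have h1' : 0 ≤ 1 - lam := by linarith
    simp only [p]
    split_ifs
    · have e : i + j - 1 = (i - 1) + j := by omega
      rw [e, add_mul, mul_assoc, mul_assoc]
      have := hl h2 (i - 1); have := hr h3 (i - 1)
      gcongr
    · rw [add_mul, mul_assoc, mul_assoc]
      have := hl h2 i; have := hr h3 i
      gcongr

/-- height -/
def ht : Tree X → ℕ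
  | leaf _ => 0
  | node _ l r => max l.ht r.ht + 1

lemma p_eq_zero {T : Tree X} {j : ℕ} (hj : T.ht < j) : T.p ε j = 0 := by
  induction T generalizing j with
  | leaf x => simp only [p]; rw [if_neg (by simp only [ht] at hj; omega)]
  | node lam l r hl hr =>
    simp only [ht] at hj
    have a1 : l.ht ≤ max l.ht r.ht := le_max_left _ _
    have a2 : r.ht ≤ max l.ht r.ht := le_max_right _ _
    simp only [p]
    split_ifs
    · rw [hl (by omega), hr (by omega)]; ring
    · rw [hl (by omega), hr (by omega)]; ring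

lemma C_eq {T : Tree X} {n : ℕ} (hn : T.ht ≤ n) : T.C ε = ∑ j ∈ range n, T.p ε (j + 1) := by
  induction T generalizing n with
  | leaf x => simp [C, p]
  | node lam l r hl hr =>
    simp only [ht] at hn
    have a1 : l.ht ≤ max l.ht r.ht := le_max_left _ _
    have a2 : r.ht ≤ max l.ht r.ht := le_max_right _ _
    obtain ⟨m, rfl⟩ : ∃ m, n = m + 1 := ⟨n - 1, by omega⟩
    simp only [C, p]
    split_ifs with hb
    · simp only [Nat.add_sub_cancel]
      rw [sum_add_distrib, ← mul_sum, ← mul_sum, sum_range_succ', sum_range_succ', p_zero, p_zero,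
        ← hl (by omega), ← hr (by omega)]
      ring
    · rw [sum_add_distrib, ← mul_sum, ← mul_sum, ← hl (by omega), ← hr (by omega)]
      ring

/-- (B1): if `p_n ≤ 1/2` on all trees then the expected number of big nodes is at most `2 n`. -/
theorem C_le {n : ℕ} (hn : ∀ T : Tree X, T.Ok → T.p ε n ≤ 1 / 2) {T : Tree X} (h : T.Ok) :
    T.C ε ≤ 2 * n := by
  have hpos : 0 < n := by
    rcases Nat.eq_zero_or_pos n with rfl | h'
    · have := hn T h; rw [p_zero] at this; norm_num at this
    · exact h'
  have key : ∀ k, T.p ε (n * k) ≤ (1 / 2) ^ k := by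
    intro k
    induction k with
    | zero => simp [p_zero]
    | succ k ih =>
      rw [Nat.mul_succ, pow_succ]
      refine (p_add_le hn (by norm_num) h (n * k)).trans ?_
      gcongr
  have key2 : ∀ k, ∑ j ∈ range (n * k), T.p ε j ≤ n * ∑ i ∈ range k, (1 / 2 : ℝ) ^ i := by
    intro k
    induction k with
    | zero => simp
    | succ k ih =>
      rw [Nat.mul_succ, sum_range_add, sum_range_succ, mul_add]
      have : ∑ i ∈ range n, T.p ε (n * k + i) ≤ ∑ _i ∈ range n, (1 / 2 : ℝ) ^ k :=
        sum_le_sum fun i _ => (p_antitone h (Nat.le_add_right _ _)).trans (key k)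
      rw [sum_const, card_range, nsmul_eq_mul] at this
      linarith
  have hgeo : ∀ k : ℕ, ∑ i ∈ range k, (1 / 2 : ℝ) ^ i ≤ 2 := by
    intro k
    have := geom_sum_eq (x := (1 / 2 : ℝ)) (by norm_num) k
    rw [this]
    have h2 : (0 : ℝ) ≤ (1 / 2) ^ k := by positivity
    rw [div_le_iff_of_neg (by norm_num)]
    linarith
  rw [C_eq (n := T.ht) le_rfl]
  have h3 : ∑ j ∈ range T.ht, T.p ε (j + 1) ≤ ∑ j ∈ range (n * (T.ht + 1)), T.p ε j := by
    have h4 : ∑ j ∈ range (T.ht + 1), T.p ε j ≤ ∑ j ∈ range (n * (T.ht + 1)), T.p ε j := by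
      apply sum_le_sum_of_subset_of_nonneg
      · intro j hj; rw [mem_range] at *; nlinarith
      · intro j _ _; exact p_nonneg h j
    rw [sum_range_succ'] at h4
    have := p_nonneg (ε := ε) h 0
    linarith
  refine h3.trans ((key2 _).trans ?_)
  have := hgeo (T.ht + 1)
  have h5 : (0 : ℝ) ≤ n := Nat.cast_nonneg n
  nlinarith

/-- (B2) the family of a tree. -/
theorem exists_family (ε : ℝ) (T : Tree X) (h : T.Ok) :
    ∃ (A : Type) (_ : Fintype A) (w : A → ℝ) (x : A → ℕ → X),
      (∀ a, 0 ≤ w a) ∧ (∑ a, w a = 1) ∧ (∀ a i, ‖x a i‖ ≤ 1) ∧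
      (∀ i, ∑ a, w a • x a i = T.val) ∧
      (∀ (n j : ℕ) (_ : 1 ≤ j) (c : ℕ → ℝ) (v : X), ∑ i ∈ Ico j n, c i = 1 →
        ε * T.p ε j ≤ ∑ a, w a * ‖∑ i ∈ range n, c i • x a i - v‖) := by
  classical
  induction T with
  | leaf x =>
    refine ⟨Unit, inferInstance, fun _ => 1, fun _ _ => x, by simp, by simp, fun _ _ => h,
      by simp [val], ?_⟩
    intro n j hj c v _
    have : (leaf x : Tree X).p ε j = 0 := by simp only [p]; rw [if_neg (by omega)]
    rw [this, mul_zero]
    positivity
  | node lam l r hl hr =>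
    obtain ⟨⟨h0, h1⟩, h2, h3⟩ := id h
    have h1' : 0 ≤ 1 - lam := by linarith
    obtain ⟨A, iA, w, x, hw, hw1, hx, hm, hs⟩ := hl h2
    obtain ⟨B, iB, w', x', hw', hw1', hx', hm', hs'⟩ := hr h3
    by_cases hb : Big ε lam l r
    · refine ⟨A ⊕ B, inferInstance, Sum.elim (fun a => lam * w a) (fun b => (1 - lam) * w' b),
        Sum.elim (fun a i => if i = 0 then (node lam l r).val else x a (i - 1))
          (fun b i => if i = 0 then (node lam l r).val else x' b (i - 1)), ?_, ?_, ?_, ?_, ?_⟩
      · rintro (a | b)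
        · exact mul_nonneg h0 (hw a)
        · exact mul_nonneg h1' (hw' b)
      · simp only [Fintype.sum_sum_type, Sum.elim_inl, Sum.elim_inr]
        rw [← mul_sum, ← mul_sum, hw1, hw1']; ring
      · rintro (a | b) i
        · simp only [Sum.elim_inl]
          split_ifs
          · exact norm_val_le h
          · exact hx _ _
        · simp only [Sum.elim_inr]
          split_ifs
          · exact norm_val_le h
          · exact hx' _ _
      · intro i
        simp only [Fintype.sum_sum_type, Sum.elim_inl, Sum.elim_inr, mul_smul]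
        rw [← smul_sum, ← smul_sum]
        rcases Nat.eq_zero_or_pos i with rfl | hi
        · simp only [if_true]
          rw [← sum_smul, ← sum_smul, hw1, hw1', one_smul, ← add_smul]
          simp
        · have : i ≠ 0 := by omega
          simp only [this, if_false]
          rw [hm, hm', val_node]
      · intro n j hj c v hc
        obtain ⟨m, rfl⟩ : ∃ m, n = m + 1 := by
          rcases n with _ | m
          · simp at hc
          · exact ⟨m, rfl⟩
        obtain ⟨k, rfl⟩ : ∃ k, j = k + 1 := ⟨j - 1, by omega⟩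
        have hc' : ∑ i ∈ Ico k m, c (i + 1) = 1 := by
          rw [← hc, sum_Ico_add' (fun i => c i) k m 1]
        simp only [Fintype.sum_sum_type, Sum.elim_inl, Sum.elim_inr]
        have e1 : ∀ a, ∑ i ∈ range (m + 1), c i • (if i = 0 then (node lam l r).val else x a (i - 1)) - v
            = ∑ i ∈ range m, c (i + 1) • x a i - (v - c 0 • (node lam l r).val) := by
          intro a
          rw [sum_range_succ']
          simp only [Nat.add_eq_zero_iff, one_ne_zero, and_false, if_false, if_true,
            Nat.add_sub_cancel]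
          abel
        have e2 : ∀ a, ∑ i ∈ range (m + 1), c i • (if i = 0 then (node lam l r).val else x' a (i - 1)) - v
            = ∑ i ∈ range m, c (i + 1) • x' a i - (v - c 0 • (node lam l r).val) := by
          intro a
          rw [sum_range_succ']
          simp only [Nat.add_eq_zero_iff, one_ne_zero, and_false, if_false, if_true,
            Nat.add_sub_cancel]
          abel
        simp only [e1, e2]
        set v' := v - c 0 • (node lam l r).val
        have hp : (node lam l r).p ε (k + 1) = lam * l.p ε k + (1 - lam) * r.p ε k := by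
          simp only [p]; rw [if_pos hb, Nat.add_sub_cancel]
        rw [hp]
        have g1 : ∀ (F : A → ℝ), ∑ a, lam * w a * F a = lam * ∑ a, w a * F a := by
          intro F; rw [mul_sum]; exact sum_congr rfl fun a _ => by ring
        have g2 : ∀ (F : B → ℝ), ∑ a, (1 - lam) * w' a * F a = (1 - lam) * ∑ a, w' a * F a := by
          intro F; rw [mul_sum]; exact sum_congr rfl fun a _ => by ring
        rw [g1, g2]
        rcases Nat.eq_zero_or_pos k with rfl | hk
        · -- the big node itself
          rw [p_zero, p_zero]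
          obtain ⟨hlam, hbig⟩ := hb
          have mean : ∀ (A : Type) (_ : Fintype A) (w : A → ℝ) (x : A → ℕ → X) (u : X),
              (∀ a, 0 ≤ w a) → (∑ a, w a = 1) → (∀ i, ∑ a, w a • x a i = u) →
              ‖u - v'‖ ≤ ∑ a, w a * ‖∑ i ∈ range m, c (i + 1) • x a i - v'‖ := by
            intro A _ w x u hw hw1 hm
            have e3 : u - v' = ∑ a, w a • (∑ i ∈ range m, c (i + 1) • x a i - v') := by
              simp only [smul_sub, sum_sub_distrib, smul_sum]
              rw [sum_comm, ← sum_smul, hw1, one_smul]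
              congr 1
              have : ∀ i ∈ range m, ∑ a, w a • c (i + 1) • x a i = c (i + 1) • u := by
                intro i _
                rw [← hm i, smul_sum]
                exact sum_congr rfl fun a _ => smul_comm _ _ _
              rw [sum_congr rfl this, ← sum_smul, range_eq_Ico, hc', one_smul]
            rw [e3]
            refine (norm_sum_le _ _).trans (le_of_eq (sum_congr rfl fun a _ => ?_))
            rw [norm_smul, Real.norm_of_nonneg (hw a)]
          have m1 := mean A iA w x _ hw hw1 hm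
          have m2 := mean B iB w' x' _ hw' hw1' hm'
          have m3 : ‖l.val - r.val‖ ≤ ‖l.val - v'‖ + ‖r.val - v'‖ := by
            have : l.val - r.val = (l.val - v') - (r.val - v') := by abel
            rw [this]; exact norm_sub_le _ _
          rw [hlam]
          linarith
        · have i1 := hs m k hk (fun i => c (i + 1)) v' hc'
          have i2 := hs' m k hk (fun i => c (i + 1)) v' hc'
          have j1 := mul_le_mul_of_nonneg_left i1 h0
          have j2 := mul_le_mul_of_nonneg_left i2 h1'
          linarith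
    · refine ⟨A ⊕ B, inferInstance, Sum.elim (fun a => lam * w a) (fun b => (1 - lam) * w' b),
        Sum.elim x x', ?_, ?_, ?_, ?_, ?_⟩
      · rintro (a | b)
        · exact mul_nonneg h0 (hw a)
        · exact mul_nonneg h1' (hw' b)
      · simp only [Fintype.sum_sum_type, Sum.elim_inl, Sum.elim_inr]
        rw [← mul_sum, ← mul_sum, hw1, hw1']; ring
      · rintro (a | b) i
        · exact hx _ _
        · exact hx' _ _
      · intro i
        simp only [Fintype.sum_sum_type, Sum.elim_inl, Sum.elim_inr, mul_smul]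
        rw [← smul_sum, ← smul_sum, hm, hm', val_node]
      · intro n j hj c v hc
        simp only [Fintype.sum_sum_type, Sum.elim_inl, Sum.elim_inr]
        have hp : (node lam l r).p ε j = lam * l.p ε j + (1 - lam) * r.p ε j := by
          simp only [p]; rw [if_neg hb]
        rw [hp]
        have g1 : ∀ (F : A → ℝ), ∑ a, lam * w a * F a = lam * ∑ a, w a * F a := by
          intro F; rw [mul_sum]; exact sum_congr rfl fun a _ => by ring
        have g2 : ∀ (F : B → ℝ), ∑ a, (1 - lam) * w' a * F a = (1 - lam) * ∑ a, w' a * F a := by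
          intro F; rw [mul_sum]; exact sum_congr rfl fun a _ => by ring
        rw [g1, g2]
        have i1 := hs n j hj c v hc
        have i2 := hs' n j hj c v hc
        have j1 := mul_le_mul_of_nonneg_left i1 h0
        have j2 := mul_le_mul_of_nonneg_left i2 h1'
        linarith

end Tree

/-- `SepFamN X θ n`: a finite weighted family of sequences in the unit ball, `θ`-separated on `[n]`. -/
def SepFamN (X : Type*) [NormedAddCommGroup X] [NormedSpace ℝ X] (θ : ℝ) (n : ℕ) : Prop :=
  ∃ (A : Type) (_ : Fintype A) (w : A → ℝ) (x : A → ℕ → X),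
    (∀ a, 0 ≤ w a) ∧ (∑ a, w a = 1) ∧ (∀ a i, ‖x a i‖ ≤ 1) ∧
    ∀ (m : ℕ) (z : ℕ → ℕ), (∀ i j, i < j → j < 2 * m → z i < z j) → (∀ i, i < 2 * m → z i < n) →
      θ * m ≤ ∑ a, w a * ‖∑ i ∈ range m, x a (z i) - ∑ i ∈ Ico m (2 * m), x a (z i)‖

variable {X : Type*} [NormedAddCommGroup X] [NormedSpace ℝ X]

theorem sepFamN_of_tree {ε : ℝ} (hε : 0 ≤ ε) {n : ℕ} {T : Tree X} (h : T.Ok)
    (hp : 1 / 2 ≤ T.p ε n) : SepFamN X (ε / 2) n := by
  obtain ⟨A, iA, w, x, hw, hw1, hx, -, hs⟩ := T.exists_family ε h
  refine ⟨A, iA, w, x, hw, hw1, hx, ?_⟩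
  intro m z hz hzn
  rcases Nat.eq_zero_or_pos m with rfl | hm
  · simp
  have hm' : (0 : ℝ) < m := by exact_mod_cast hm
  -- `i ≤ z i`
  have hiz : ∀ i, i < 2 * m → i ≤ z i := by
    intro i
    induction i with
    | zero => intro _; exact Nat.zero_le _
    | succ i ih => intro hi; have := ih (by omega); have := hz i (i + 1) (by omega) hi; omega
  have hinj : ∀ i j, i < 2 * m → j < 2 * m → z i = z j → i = j := by
    intro i j hi hj hij
    rcases lt_trichotomy i j with h1 | h1 | h1
    · have := hz i j h1 hj; omega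
    · exact h1
    · have := hz j i h1 hi; omega
  set c : ℕ → ℝ := fun k => ∑ i ∈ range (2 * m), if z i = k then (if i < m then -(1 / m : ℝ) else 1 / m) else 0
    with hc
  have hsum : ∀ (a : A), ∑ k ∈ range n, c k • x a k
      = -((1 / m : ℝ) • (∑ i ∈ range m, x a (z i) - ∑ i ∈ Ico m (2 * m), x a (z i))) := by
    intro a
    have e1 : ∑ k ∈ range n, c k • x a k
        = ∑ i ∈ range (2 * m), (if i < m then -(1 / m : ℝ) else 1 / m) • x a (z i) := by
      simp only [hc, sum_smul]
      rw [sum_comm]
      refine sum_congr rfl fun i hi => ?_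
      rw [sum_eq_single (z i)]
      · simp
      · intro k _ hk; rw [if_neg (Ne.symm hk), zero_smul]
      · intro hk; exact absurd (mem_range.2 (hzn i (mem_range.1 hi))) hk
    rw [e1, ← sum_range_add_sum_Ico _ (by omega : m ≤ 2 * m)]
    have e2 : ∑ i ∈ range m, (if i < m then -(1 / m : ℝ) else 1 / m) • x a (z i)
        = -((1 / m : ℝ) • ∑ i ∈ range m, x a (z i)) := by
      rw [smul_sum, ← sum_neg_distrib]
      exact sum_congr rfl fun i hi => by rw [if_pos (mem_range.1 hi), neg_smul]
    have e3 : ∑ i ∈ Ico m (2 * m), (if i < m then -(1 / m : ℝ) else 1 / m) • x a (z i)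
        = (1 / m : ℝ) • ∑ i ∈ Ico m (2 * m), x a (z i) := by
      rw [smul_sum]
      exact sum_congr rfl fun i hi => by rw [if_neg (not_lt.2 (mem_Ico.1 hi).1)]
    rw [e2, e3, smul_sub]
    abel
  have hcsum : ∑ k ∈ Ico (z m) n, c k = 1 := by
    simp only [hc]
    rw [sum_comm]
    have e1 : ∀ i ∈ range (2 * m), ∑ k ∈ Ico (z m) n,
        (if z i = k then (if i < m then -(1 / m : ℝ) else 1 / m) else 0)
        = if i < m then (0 : ℝ) else 1 / m := by
      intro i hi
      have hi' := mem_range.1 hi
      by_cases him : i < m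
      · rw [if_pos him, if_pos him]
        refine sum_eq_zero fun k hk => ?_
        have := (mem_Ico.1 hk).1
        have := hz i m him (by omega)
        rw [if_neg (by omega)]
      · have hzi : z m ≤ z i := by
          rcases Nat.eq_or_lt_of_le (not_lt.1 him) with h1 | h1
          · rw [h1]
          · exact (hz m i h1 hi').le
        rw [sum_eq_single (z i)]
        · simp [him]
        · intro k _ hk; rw [if_neg (Ne.symm hk)]
        · intro hk; exact absurd (mem_Ico.2 ⟨hzi, hzn i hi'⟩) hk
    rw [sum_congr rfl e1, ← sum_range_add_sum_Ico _ (by omega : m ≤ 2 * m)]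
    have e2 : ∑ i ∈ range m, (if i < m then (0 : ℝ) else 1 / m) = 0 :=
      sum_eq_zero fun i hi => by rw [if_pos (mem_range.1 hi)]
    have e3 : ∑ i ∈ Ico m (2 * m), (if i < m then (0 : ℝ) else 1 / m)
        = ∑ _i ∈ Ico m (2 * m), (1 / m : ℝ) :=
      sum_congr rfl fun i hi => by rw [if_neg (not_lt.2 (mem_Ico.1 hi).1)]
    rw [e2, e3, sum_const, Nat.card_Ico, zero_add, nsmul_eq_mul]
    have : 2 * m - m = m := by omega
    rw [this]
    field_simp
  have hzm : 1 ≤ z m := by have := hiz m (by omega); omega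
  have key := hs n (z m) hzm c 0 hcsum
  have hpm : 1 / 2 ≤ T.p ε (z m) :=
    hp.trans (Tree.p_antitone h (hzn m (by omega)).le)
  have e4 : ∀ a, ‖∑ i ∈ range n, c i • x a i - 0‖
      = (1 / m : ℝ) * ‖∑ i ∈ range m, x a (z i) - ∑ i ∈ Ico m (2 * m), x a (z i)‖ := by
    intro a
    rw [sub_zero, hsum a, norm_neg, norm_smul, Real.norm_of_nonneg (by positivity)]
  simp only [e4] at key
  have e5 : ∑ a, w a * ((1 / m : ℝ) * ‖∑ i ∈ range m, x a (z i) - ∑ i ∈ Ico m (2 * m), x a (z i)‖)
      = (1 / m : ℝ) * ∑ a, w a * ‖∑ i ∈ range m, x a (z i) - ∑ i ∈ Ico m (2 * m), x a (z i)‖ := by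
    rw [mul_sum]; exact sum_congr rfl fun a _ => by ring
  rw [e5] at key
  have h1 : ε / 2 ≤ ε * T.p ε (z m) := by nlinarith
  have h2 := h1.trans key
  rw [one_div, inv_mul_eq_div, le_div_iff₀ hm'] at h2
  exact h2

/-- PART B: if the number of big nodes is unbounded then separated families exist for every `n`. -/
theorem sepFamN_of_unbounded {ε : ℝ} (hε : 0 ≤ ε)
    (hU : ∀ W : ℝ, ∃ T : Tree X, T.Ok ∧ W < T.C ε) (n : ℕ) : SepFamN X (ε / 2) n := by
  by_contra hcon
  have hn : ∀ T : Tree X, T.Ok → T.p ε n ≤ 1 / 2 := by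
    intro T hT
    by_contra hlt
    exact hcon (sepFamN_of_tree hε hT (not_le.1 hlt).le)
  obtain ⟨T, hT, hW⟩ := hU (2 * n)
  exact absurd (Tree.C_le hn hT) (not_le.2 hW)

/-- dichotomy. -/
theorem bounded_or_sepFamN {ε : ℝ} (hε : 0 ≤ ε) :
    (∃ W : ℝ, ∀ T : Tree X, T.Ok → T.C ε ≤ W) ∨ ∀ n, SepFamN X (ε / 2) n := by
  by_cases h : ∃ W : ℝ, ∀ T : Tree X, T.Ok → T.C ε ≤ W
  · exact Or.inl h
  · push Not at h
    exact Or.inr (sepFamN_of_unbounded hε h)

/-- conversion to the form of `Defs.lean` -/
theorem SepFamN.sepFam {θ : ℝ} {n : ℕ} (h : SepFamN X θ n) : SepFam X θ n := by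
  obtain ⟨A, iA, w, x, hw, hw1, hx, hs⟩ := h
  refine ⟨A, iA, w, x, hw, hw1, hx, ?_⟩
  intro m z hz hzn
  set z' : ℕ → ℕ := fun i => if h : i < 2 * m then z ⟨i, h⟩ else 0 with hz'
  have e0 : ∀ j : Fin (2 * m), z' j = z j := by
    intro j; simp only [hz']; rw [dif_pos j.2]
  have h1 := hs m z' ?_ ?_
  · refine h1.trans (le_of_eq (sum_congr rfl fun a _ => ?_))
    congr 2
    have e1 : ∑ j : Fin (2 * m), (if (j : ℕ) < m then (1 : ℝ) else -1) • x a (z j)
        = ∑ i ∈ range (2 * m), (if i < m then (1 : ℝ) else -1) • x a (z' i) := by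
      rw [← Fin.sum_univ_eq_sum_range (fun i => (if i < m then (1 : ℝ) else -1) • x a (z' i))]
      exact sum_congr rfl fun j _ => by rw [e0]
    rw [e1, ← sum_range_add_sum_Ico _ (by omega : m ≤ 2 * m), sub_eq_add_neg, ← sum_neg_distrib]
    congr 1
    · exact sum_congr rfl fun i hi => by rw [if_pos (mem_range.1 hi), one_smul]
    · exact sum_congr rfl fun i hi => by
        rw [if_neg (not_lt.2 (mem_Ico.1 hi).1), neg_smul, one_smul]
  · intro i j hij hj
    simp only [hz']
    rw [dif_pos hj, dif_pos (by omega)]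
    exact hz (by simpa using hij)
  · intro i hi
    simp only [hz']
    rw [dif_pos hi]
    exact hzn _

/-- PART B: if the number of big nodes is unbounded then separated families exist for every `n`. -/
theorem sepFam_of_unbounded {ε : ℝ} (hε : 0 ≤ ε)
    (hU : ∀ W : ℝ, ∃ T : Tree X, T.Ok ∧ W < T.C ε) (n : ℕ) : SepFam X (ε / 2) n :=
  (sepFamN_of_unbounded hε hU n).sepFam

/-- dichotomy. -/
theorem bounded_or_sepFam {ε : ℝ} (hε : 0 ≤ ε) :
    (∃ W : ℝ, ∀ T : Tree X, T.Ok → T.C ε ≤ W) ∨ ∀ n, SepFam X (ε / 2) n := by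
  rcases bounded_or_sepFamN (X := X) hε with h | h
  · exact Or.inl h
  · exact Or.inr fun n => (h n).sepFam

end Crest.Agent.R140
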