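import Crest.Agent.R140.Contract
import Crest.Agent.R140.Blow2
import Crest.Agent.R140.MonoLink
import Crest.Agent.R140.Trees

/-!
# Row 140: a space of Markov type `p > 1` has no separated families of all lengths
-/

set_option autoImplicit false

namespace Crest.Agent.R140

open Crest.AnalysisR

theorem bw_eq_bvec {S : Type} (h : S → ℝ ≃o ℝ) (m : S → ℝ →₀ ℤ) :
    ∀ w : List S, bw h m w = Dyn.bvec h m w := by
  intro w
  induction w with
  | nil => rfl
  | cons s w ih => rw [bw, Dyn.bvec, ih]

theorem no_sepFam {X : Type*} [NormedAddCommGroup X] [NormedSpace ℝ X] {p K θ : ℝ}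
    (hX : HasMarkovType X p K) (hp : 1 < p) (hK : 0 < K) (hθ : 0 < θ) :
    ¬ ∀ n, SepFam X θ n := by
  intro hsep
  obtain ⟨M, hM1, hM2⟩ := exists_spr hX hp hK hsep
  have h1 := M.inf_sep hM1
  have hmono := M.inf.monoNorm
  have hpos := M.inf.pos_of_sep hθ h1
  refine Dyn.dyn_false hmono hpos hp hK ?_
  intro S _ _ inv h m e1 e2 e3 t _
  have := M.inf_group (by linarith : 0 < p) hK.le t
    (fun Λ _ S _ _ inv h m a b c => hM2 Λ S inv h m a b c t) ℝ S inv h m e1 e2 e3
  simpa only [bw_eq_bvec] using this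

/-- The expected number of big nodes of trees in the unit ball is bounded. -/
theorem tree_bound {X : Type*} [NormedAddCommGroup X] [NormedSpace ℝ X] {p K : ℝ}
    (hX : HasMarkovType X p K) (hp : 1 < p) (hK : 0 < K) (ε : ℝ) (hε : 0 < ε) :
    ∃ W : ℝ, ∀ T : Tree X, T.Ok → T.C ε ≤ W := by
  rcases bounded_or_sepFam (X := X) hε.le with h | h
  · exact h
  · exact absurd h (no_sepFam hX hp hK (by positivity))

end Crest.Agent.R140
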