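import Mathlib
import Crest.Prelude.Def_MarkovType
import Crest.Agent.R140.Trees

/-!
Row 140 (S0191), PART A: renorming.  Bounded tree cost for every `ε` gives an equivalent
uniformly convex norm.
-/

set_option autoImplicit false
set_option linter.unusedSectionVars false

namespace Crest.Agent.R140.Renorm

open Crest.AnalysisR

variable {X : Type*} [NormedAddCommGroup X] [NormedSpace ℝ X]

/-- the function `φ` of the blueprint -/
structure Mod (φ : X → ℝ) : Prop where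
  le0 : ∀ x, ‖x‖ ≤ 1 → φ x ≤ 0
  ge : ∀ x, ‖x‖ ≤ 1 → -1 ≤ φ x
  even : ∀ x, ‖x‖ ≤ 1 → φ (-x) = φ x
  conv : ∀ x y, ‖x‖ ≤ 1 → ‖y‖ ≤ 1 → ∀ a : ℝ, 0 ≤ a → a ≤ 1 →
    φ (a • x + (1 - a) • y) ≤ a * φ x + (1 - a) * φ y
  gain : ∀ ε : ℝ, 0 < ε → ∃ η : ℝ, 0 < η ∧ η ≤ 1 ∧ ∀ x y, ‖x‖ ≤ 1 → ‖y‖ ≤ 1 → ε ≤ ‖x - y‖ →
    φ ((1 / 2 : ℝ) • (x + y)) ≤ (φ x + φ y) / 2 - η

theorem norm_comb_le {x y : X} {R : ℝ} (hx : ‖x‖ ≤ R) (hy : ‖y‖ ≤ R) {a : ℝ} (h0 : 0 ≤ a)
    (h1 : a ≤ 1) : ‖a • x + (1 - a) • y‖ ≤ R := by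
  calc ‖a • x + (1 - a) • y‖ ≤ ‖a • x‖ + ‖(1 - a) • y‖ := norm_add_le _ _
    _ = a * ‖x‖ + (1 - a) * ‖y‖ := by
        rw [norm_smul, norm_smul, Real.norm_of_nonneg h0, Real.norm_of_nonneg (by linarith)]
    _ ≤ a * R + (1 - a) * R := by
        have : 0 ≤ 1 - a := by linarith
        gcongr
    _ = R := by ring

theorem exists_mod (h : ∀ e : ℝ, 0 < e → e ≤ 1 → ∃ (V : X → ℝ) (W : ℝ),
    (∀ x, ‖x‖ ≤ 1 → 0 ≤ V x ∧ V x ≤ W) ∧ (∀ x, ‖x‖ ≤ 1 → V (-x) = V x) ∧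
    (∀ x y, ‖x‖ ≤ 1 → ‖y‖ ≤ 1 → ∀ a : ℝ, 0 ≤ a → a ≤ 1 →
      a * V x + (1 - a) * V y ≤ V (a • x + (1 - a) • y)) ∧
    (∀ x y, ‖x‖ ≤ 1 → ‖y‖ ≤ 1 → 2 * e ≤ ‖x - y‖ →
      (V x + V y) / 2 + 1 ≤ V ((1 / 2 : ℝ) • (x + y)))) :
    ∃ φ : X → ℝ, Mod φ := by
  have h' := fun j : ℕ => h ((1 / 2) ^ j) (by positivity)
    (pow_le_one₀ (by norm_num) (by norm_num))
  choose V W hb he hc hg using h'
  have hW : ∀ j, 0 ≤ W j := fun j => (hb j 0 (by simp)).1.trans (hb j 0 (by simp)).2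
  set c : ℕ → ℝ := fun j => (1 / 2) ^ (j + 1) / (W j + 1) with hcdef
  have hcpos : ∀ j, 0 < c j := fun j => div_pos (by positivity) (by linarith [hW j])
  have hterm0 : ∀ x, ‖x‖ ≤ 1 → ∀ j, 0 ≤ c j * V j x := fun x hx j =>
    mul_nonneg (hcpos j).le (hb j x hx).1
  have hterm1 : ∀ x, ‖x‖ ≤ 1 → ∀ j, c j * V j x ≤ (1 / 2) ^ (j + 1) := by
    intro x hx j
    have h1 : c j * (W j + 1) = (1 / 2) ^ (j + 1) := by
      rw [hcdef]
      have : W j + 1 ≠ 0 := by linarith [hW j]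
      field_simp
    rw [← h1]
    exact mul_le_mul_of_nonneg_left (by linarith [(hb j x hx).2]) (hcpos j).le
  have hgeo : HasSum (fun j : ℕ => ((1 / 2 : ℝ)) ^ (j + 1)) 1 := by
    have h1 := (hasSum_geometric_of_lt_one (r := (1 / 2 : ℝ)) (by norm_num) (by norm_num)).mul_left
      (1 / 2 : ℝ)
    have e1 : (1 / 2 : ℝ) * (1 - 1 / 2)⁻¹ = 1 := by norm_num
    have e2 : (fun j : ℕ => ((1 / 2 : ℝ)) ^ (j + 1)) = fun j : ℕ => 1 / 2 * (1 / 2 : ℝ) ^ j := by
      funext j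
      rw [pow_succ, mul_comm]
    rw [e1] at h1
    rw [e2]
    exact h1
  have hsum : ∀ x, ‖x‖ ≤ 1 → Summable (fun j => c j * V j x) := fun x hx =>
    Summable.of_nonneg_of_le (hterm0 x hx) (hterm1 x hx) hgeo.summable
  refine ⟨fun x => - ∑' j, c j * V j x, ?_, ?_, ?_, ?_, ?_⟩
  · intro x hx
    exact neg_nonpos.2 (tsum_nonneg (hterm0 x hx))
  · intro x hx
    have := (hsum x hx).tsum_le_tsum (hterm1 x hx) hgeo.summable
    rw [hgeo.tsum_eq] at this
    linarith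
  · intro x hx
    congr 2
    ext j
    rw [he j x hx]
  · intro x y hx hy a h0 h1
    have hxy := norm_comb_le hx hy h0 h1
    have hs := ((hsum x hx).mul_left a).add ((hsum y hy).mul_left (1 - a))
    have h2 : ∑' j, (a * (c j * V j x) + (1 - a) * (c j * V j y)) ≤
        ∑' j, c j * V j (a • x + (1 - a) • y) := by
      refine hs.tsum_le_tsum (fun j => ?_) (hsum _ hxy)
      have := mul_le_mul_of_nonneg_left (hc j x y hx hy a h0 h1) (hcpos j).le
      linarith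
    rw [((hsum x hx).mul_left a).tsum_add ((hsum y hy).mul_left (1 - a)), tsum_mul_left,
      tsum_mul_left] at h2
    linarith
  · intro ε hε
    obtain ⟨j, hj⟩ := exists_pow_lt_of_lt_one (show 0 < ε / 2 by linarith)
      (show (1 / 2 : ℝ) < 1 by norm_num)
    refine ⟨c j, hcpos j, ?_, ?_⟩
    · have h1 : (1 / 2 : ℝ) ^ (j + 1) ≤ 1 := pow_le_one₀ (by norm_num) (by norm_num)
      rw [hcdef]
      exact (div_le_one (by linarith [hW j])).2 (by linarith [hW j])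
    · intro x y hx hy hxy
      have hm : ‖(1 / 2 : ℝ) • (x + y)‖ ≤ 1 := by
        have := norm_comb_le hx hy (a := 1 / 2) (by norm_num) (by norm_num)
        convert this using 2
        rw [smul_add]; norm_num
      have hs := (((hsum x hx).mul_left (1 / 2)).add ((hsum y hy).mul_left (1 / 2)))
      have hs2 : Summable (fun i => if i = j then c j else 0) :=
        summable_of_ne_finset_zero (s := {j}) (fun i hi => by
          rw [Finset.mem_singleton] at hi; rw [if_neg hi])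
      have h2 : ∑' i, ((1 / 2 * (c i * V i x) + 1 / 2 * (c i * V i y)) +
          (if i = j then c j else 0)) ≤ ∑' i, c i * V i ((1 / 2 : ℝ) • (x + y)) := by
        refine (hs.add hs2).tsum_le_tsum (fun i => ?_) (hsum _ hm)
        by_cases hij : i = j
        · subst hij
          rw [if_pos rfl]
          have := mul_le_mul_of_nonneg_left (hg i x y hx hy (by linarith)) (hcpos i).le
          linarith
        · rw [if_neg hij]
          have h3 := hc i x y hx hy (1 / 2) (by norm_num) (by norm_num)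
          have e : (1 / 2 : ℝ) • x + (1 - 1 / 2 : ℝ) • y = (1 / 2 : ℝ) • (x + y) := by
            rw [smul_add]; norm_num
          rw [e] at h3
          have := mul_le_mul_of_nonneg_left h3 (hcpos i).le
          linarith
      rw [hs.tsum_add hs2, ((hsum x hx).mul_left (1 / 2)).tsum_add ((hsum y hy).mul_left (1 / 2)),
        tsum_mul_left, tsum_mul_left, tsum_ite_eq] at h2
      linarith

/-- the unit ball of the new norm -/
def K (φ : X → ℝ) : Set X := {x | ‖x‖ ≤ 1 ∧ φ x + 4 * ‖x‖ ≤ 1}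

section

variable {φ : X → ℝ} (hφ : Mod φ)
include hφ

theorem U_conv {x y : X} (hx : ‖x‖ ≤ 1) (hy : ‖y‖ ≤ 1) {a : ℝ} (h0 : 0 ≤ a) (h1 : a ≤ 1) :
    φ (a • x + (1 - a) • y) + 4 * ‖a • x + (1 - a) • y‖ ≤
      a * (φ x + 4 * ‖x‖) + (1 - a) * (φ y + 4 * ‖y‖) := by
  have h2 := hφ.conv x y hx hy a h0 h1
  have h3 : ‖a • x + (1 - a) • y‖ ≤ a * ‖x‖ + (1 - a) * ‖y‖ := by
    refine (norm_add_le _ _).trans ?_
    rw [norm_smul, norm_smul, Real.norm_of_nonneg h0, Real.norm_of_nonneg (by linarith)]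
  linarith

theorem K_convex : Convex ℝ (K φ) := by
  intro x hx y hy a b ha hb hab
  obtain rfl : b = 1 - a := by linarith
  refine ⟨norm_comb_le hx.1 hy.1 ha (by linarith), ?_⟩
  refine (U_conv hφ hx.1 hy.1 ha (by linarith)).trans ?_
  have := mul_le_mul_of_nonneg_left hx.2 ha
  have := mul_le_mul_of_nonneg_left hy.2 hb
  linarith

theorem ball_sub : Metric.ball (0 : X) (1 / 4) ⊆ K φ := by
  intro x hx
  rw [mem_ball_zero_iff] at hx
  exact ⟨by linarith, by linarith [hφ.le0 x (by linarith)]⟩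

theorem sub_ball : K φ ⊆ Metric.closedBall (0 : X) (1 / 2) := by
  intro x hx
  rw [mem_closedBall_zero_iff]
  linarith [hx.2, hφ.ge x hx.1]

theorem K_absorbent : Absorbent ℝ (K φ) :=
  (absorbent_ball_zero (by norm_num : (0 : ℝ) < 1 / 4)).mono (ball_sub hφ)

theorem K_zero : (0 : X) ∈ K φ := ball_sub hφ (by simp)

theorem K_balanced : Balanced ℝ (K φ) := by
  rw [balanced_iff_neg_mem (K_convex hφ)]
  intro x hx
  refine ⟨by rw [norm_neg]; exact hx.1, ?_⟩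
  rw [hφ.even x hx.1, norm_neg]
  exact hx.2

/-- the new norm -/
noncomputable def Nrm : Seminorm ℝ X :=
  gaugeSeminorm (K_balanced hφ) (K_convex hφ) (K_absorbent hφ)

theorem Nrm_apply (x : X) : Nrm hφ x = gauge (K φ) x := rfl

theorem two_le (x : X) : 2 * ‖x‖ ≤ Nrm hφ x := by
  have := le_gauge_of_subset_closedBall (K_absorbent hφ) (by norm_num : (0 : ℝ) ≤ 1 / 2)
    (sub_ball hφ) (x := x)
  rw [Nrm_apply]
  linarith

theorem le_four (x : X) : Nrm hφ x ≤ 4 * ‖x‖ := by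
  have := mul_gauge_le_norm (ball_sub hφ) (x := x)
  rw [Nrm_apply]
  linarith

theorem Nrm_le_one {x : X} (hx : x ∈ K φ) : Nrm hφ x ≤ 1 := gauge_le_one_of_mem hx

theorem mem_K {x : X} (hx : Nrm hφ x ≤ 1) : x ∈ K φ := by
  have hx2 : ‖x‖ ≤ 1 / 2 := by linarith [two_le hφ x]
  refine ⟨by linarith, ?_⟩
  -- for every `t ∈ (0,1/2)`: `U x ≤ 1 + 3 t`
  have key : ∀ t : ℝ, 0 < t → t < 1 / 2 → φ x + 4 * ‖x‖ ≤ 1 + 3 * t := by
    intro t ht0 ht1
    set r : ℝ := (1 - 2 * t) / (1 - t) with hr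
    have h1t : 0 < 1 - t := by linarith
    have hr0 : 0 ≤ r := div_nonneg (by linarith) h1t.le
    have hr1 : r < 1 := (div_lt_one h1t).2 (by linarith)
    have hrx : r • x ∈ K φ := by
      apply setOfPred_gauge_lt_one_subset_self (K_convex hφ) (K_zero hφ) (K_absorbent hφ)
      show gauge (K φ) (r • x) < 1
      have e : gauge (K φ) (r • x) = r * gauge (K φ) x := by
        rw [gauge_smul_of_nonneg hr0, smul_eq_mul]
      rw [e]
      have h0 : 0 ≤ gauge (K φ) x := gauge_nonneg x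
      have h1 : gauge (K φ) x ≤ 1 := hx
      nlinarith
    have h2x : ‖(2 : ℝ) • x‖ ≤ 1 := by
      rw [norm_smul, Real.norm_of_nonneg (by norm_num)]; linarith
    have e : x = (1 - t) • (r • x) + (1 - (1 - t)) • ((2 : ℝ) • x) := by
      rw [smul_smul, smul_smul, ← add_smul]
      have : (1 - t) * r + (1 - (1 - t)) * 2 = 1 := by
        rw [hr]; field_simp; ring
      rw [this, one_smul]
    have h3 := U_conv hφ hrx.1 h2x h1t.le (by linarith : 1 - t ≤ 1)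
    rw [← e] at h3
    have h4 := mul_le_mul_of_nonneg_left hrx.2 h1t.le
    have h5 : φ ((2 : ℝ) • x) + 4 * ‖(2 : ℝ) • x‖ ≤ 4 := by linarith [hφ.le0 _ h2x]
    have h6 := mul_le_mul_of_nonneg_left h5 ht0.le
    linarith
  by_contra hcon
  push Not at hcon
  set d := φ x + 4 * ‖x‖ - 1 with hd
  have hd0 : 0 < d := by linarith
  have := key (min (d / 6) (1 / 4)) (lt_min (by linarith) (by norm_num))
    ((min_le_right _ _).trans_lt (by norm_num))
  have h2 := min_le_left (d / 6) (1 / 4)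
  linarith

theorem uc : ∀ ε : ℝ, 0 < ε → ε ≤ 2 → ∃ δ : ℝ, 0 < δ ∧
    ∀ x y : X, Nrm hφ x ≤ 1 → Nrm hφ y ≤ 1 → ε ≤ Nrm hφ (x - y) →
      Nrm hφ ((1 / 2 : ℝ) • (x + y)) ≤ 1 - δ := by
  intro ε hε _
  obtain ⟨η, hη0, hη1, hη⟩ := hφ.gain (ε / 4) (by linarith)
  refine ⟨η / 8, by linarith, ?_⟩
  intro x y hx hy hxy
  have hxK := mem_K hφ hx
  have hyK := mem_K hφ hy
  have hx2 : ‖x‖ ≤ 1 / 2 := by linarith [two_le hφ x]
  have hy2 : ‖y‖ ≤ 1 / 2 := by linarith [two_le hφ y]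
  have hd : ε / 4 ≤ ‖x - y‖ := by linarith [le_four hφ (x - y)]
  set m : X := (1 / 2 : ℝ) • (x + y) with hm
  have hm' : m = (1 / 2 : ℝ) • x + (1 - 1 / 2 : ℝ) • y := by
    rw [hm, smul_add]; norm_num
  have hm2 : ‖m‖ ≤ 1 / 2 := by
    rw [hm']; exact norm_comb_le hx2 hy2 (by norm_num) (by norm_num)
  have hmn : ‖m‖ ≤ (‖x‖ + ‖y‖) / 2 := by
    rw [hm, norm_smul, Real.norm_of_nonneg (by norm_num)]
    have := norm_add_le x y
    linarith
  have hUm : φ m + 4 * ‖m‖ ≤ 1 - η := by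
    have h1 := hη x y hxK.1 hyK.1 hd
    have h2 := hxK.2
    have h3 := hyK.2
    linarith
  set d : ℝ := η / 4 with hdd
  have hd0 : 0 < d := by linarith
  have hd1 : d ≤ 1 / 4 := by linarith
  have h2m : ‖(2 : ℝ) • m‖ ≤ 1 := by
    rw [norm_smul, Real.norm_of_nonneg (by norm_num)]; linarith
  have e : (1 + d) • m = (1 - d) • m + (1 - (1 - d)) • ((2 : ℝ) • m) := by
    rw [smul_smul (1 - (1 - d)) 2 m, ← add_smul]
    congr 1
    ring
  have hmem : (1 + d) • m ∈ K φ := by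
    refine ⟨?_, ?_⟩
    · rw [norm_smul, Real.norm_of_nonneg (by linarith)]
      nlinarith [norm_nonneg m]
    · rw [e]
      refine (U_conv hφ (by linarith) h2m (by linarith) (by linarith)).trans ?_
      have h5 : φ ((2 : ℝ) • m) + 4 * ‖(2 : ℝ) • m‖ ≤ 4 := by linarith [hφ.le0 _ h2m]
      have h6 := mul_le_mul_of_nonneg_left h5 hd0.le
      have h7 := mul_le_mul_of_nonneg_left hUm (by linarith : 0 ≤ 1 - d)
      have h8 : (1 - d) * (1 - η) = (1 - d) * (1 - 4 * d) := by rw [hdd]; ring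
      nlinarith
  have h9 := Nrm_le_one hφ hmem
  rw [map_smul_eq_mul, Real.norm_of_nonneg (by linarith)] at h9
  have h10 : 0 ≤ Nrm hφ m := apply_nonneg _ _
  have h11 : Nrm hφ m ≤ 1 := by nlinarith
  nlinarith

theorem hasEquiv : HasEquivUniformlyConvexNorm X :=
  ⟨Nrm hφ, 2, 4, by norm_num, by norm_num, fun x => ⟨two_le hφ x, le_four hφ x⟩, uc hφ⟩

end

theorem renorm (h : ∀ e : ℝ, 0 < e → e ≤ 1 → ∃ (V : X → ℝ) (W : ℝ),
    (∀ x, ‖x‖ ≤ 1 → 0 ≤ V x ∧ V x ≤ W) ∧ (∀ x, ‖x‖ ≤ 1 → V (-x) = V x) ∧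
    (∀ x y, ‖x‖ ≤ 1 → ‖y‖ ≤ 1 → ∀ a : ℝ, 0 ≤ a → a ≤ 1 →
      a * V x + (1 - a) * V y ≤ V (a • x + (1 - a) • y)) ∧
    (∀ x y, ‖x‖ ≤ 1 → ‖y‖ ≤ 1 → 2 * e ≤ ‖x - y‖ →
      (V x + V y) / 2 + 1 ≤ V ((1 / 2 : ℝ) • (x + y)))) :
    HasEquivUniformlyConvexNorm X := by
  obtain ⟨φ, hφ⟩ := exists_mod h
  exact hasEquiv hφ

/-! ### trees -/

/-- the negated tree -/
def neg : Tree X → Tree X
  | .leaf x => .leaf (-x)
  | .node lam l r => .node lam (neg l) (neg r)

theorem neg_val (T : Tree X) : (neg T).val = -T.val := by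
  induction T with
  | leaf x => rfl
  | node lam l r hl hr =>
    show lam • (neg l).val + (1 - lam) • (neg r).val = -(lam • l.val + (1 - lam) • r.val)
    rw [hl, hr, smul_neg, smul_neg, neg_add]

theorem neg_Ok {T : Tree X} (h : T.Ok) : (neg T).Ok := by
  induction T with
  | leaf x =>
    show ‖-x‖ ≤ 1
    rw [norm_neg]; exact h
  | node lam l r hl hr => exact ⟨h.1, hl h.2.1, hr h.2.2⟩

theorem neg_C (ε : ℝ) (T : Tree X) : (neg T).C ε = T.C ε := by
  classical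
  induction T with
  | leaf x => rfl
  | node lam l r hl hr =>
    show (if Tree.Big ε lam (neg l) (neg r) then (1 : ℝ) else 0) +
      (lam * (neg l).C ε + (1 - lam) * (neg r).C ε) =
      (if Tree.Big ε lam l r then (1 : ℝ) else 0) + (lam * l.C ε + (1 - lam) * r.C ε)
    rw [hl, hr]
    have : Tree.Big ε lam (neg l) (neg r) ↔ Tree.Big ε lam l r := by
      unfold Tree.Big
      rw [neg_val, neg_val]
      have e : ‖-l.val - -r.val‖ = ‖l.val - r.val‖ := by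
        rw [← norm_neg]; congr 1; abel
      rw [e]
    simp only [this]

theorem C_nonneg {ε : ℝ} {T : Tree X} (h : T.Ok) : 0 ≤ T.C ε := by
  classical
  induction T with
  | leaf x => exact le_refl _
  | node lam l r hl hr =>
    show 0 ≤ (if Tree.Big ε lam l r then (1 : ℝ) else 0) + (lam * l.C ε + (1 - lam) * r.C ε)
    have h1 := mul_nonneg h.1.1 (hl h.2.1)
    have h2 := mul_nonneg (sub_nonneg.2 h.1.2) (hr h.2.2)
    split_ifs <;> linarith

theorem C_node_ge {ε lam : ℝ} {l r : Tree X} :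
    lam * l.C ε + (1 - lam) * r.C ε ≤ (Tree.node lam l r).C ε := by
  classical
  show _ ≤ (if Tree.Big ε lam l r then (1 : ℝ) else 0) + (lam * l.C ε + (1 - lam) * r.C ε)
  split_ifs <;> linarith

theorem C_node_big {ε : ℝ} {l r : Tree X} (h : 2 * ε ≤ ‖l.val - r.val‖) :
    (Tree.node (1 / 2) l r).C ε = 1 + (1 / 2 * l.C ε + (1 - 1 / 2) * r.C ε) := by
  classical
  show (if Tree.Big ε (1 / 2) l r then (1 : ℝ) else 0) + _ = _
  rw [if_pos ⟨rfl, h⟩]

/-- Part A: bounded tree cost gives an equivalent uniformly convex norm -/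
theorem renorm_trees (h : ∀ eps : ℝ, 0 < eps → eps ≤ 1 →
    ∃ W : ℝ, ∀ T : Tree X, T.Ok → T.C eps ≤ W) : HasEquivUniformlyConvexNorm X := by
  apply renorm
  intro e he0 he1
  obtain ⟨W, hW⟩ := h e he0 he1
  set S : X → Set ℝ := fun x => {c | ∃ T : Tree X, T.Ok ∧ T.val = x ∧ T.C e = c} with hS
  have hbdd : ∀ x, BddAbove (S x) := fun x => ⟨W, by rintro c ⟨T, hT, -, rfl⟩; exact hW T hT⟩
  have hleaf : ∀ x : X, ‖x‖ ≤ 1 → (0 : ℝ) ∈ S x := fun x hx => ⟨Tree.leaf x, hx, rfl, rfl⟩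
  have hcomb : ∀ (x y : X), ‖x‖ ≤ 1 → ‖y‖ ≤ 1 → ∀ (a g B : ℝ), 0 ≤ a → a ≤ 1 →
      (∀ c ∈ S x, ∀ c' ∈ S y, a * c + (1 - a) * c' + g ≤ B) →
      a * sSup (S x) + (1 - a) * sSup (S y) + g ≤ B := by
    intro x y hx hy a g B h0 h1 hB
    have h2 : ∀ c ∈ S x, a * c + (1 - a) * sSup (S y) + g ≤ B := by
      intro c hc
      rcases h1.lt_or_eq with h1 | h1
      · have h3 : sSup (S y) ≤ (B - g - a * c) / (1 - a) := by
          refine csSup_le ⟨0, hleaf y hy⟩ (fun c' hc' => ?_)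
          rw [le_div_iff₀ (by linarith)]
          have := hB c hc c' hc'
          linarith
        rw [le_div_iff₀ (by linarith)] at h3
        linarith
      · subst h1
        have := hB c hc 0 (hleaf y hy)
        linarith
    rcases h0.lt_or_eq with h0 | h0
    · have h3 : sSup (S x) ≤ (B - g - (1 - a) * sSup (S y)) / a := by
        refine csSup_le ⟨0, hleaf x hx⟩ (fun c hc => ?_)
        rw [le_div_iff₀ h0]
        have := h2 c hc
        linarith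
      rw [le_div_iff₀ h0] at h3
      linarith
    · subst h0
      have := h2 0 (hleaf x hx)
      linarith
  refine ⟨fun x => sSup (S x), W, ?_, ?_, ?_, ?_⟩
  · intro x hx
    refine ⟨le_csSup (hbdd x) (hleaf x hx), csSup_le ⟨0, hleaf x hx⟩ ?_⟩
    rintro c ⟨T, hT, -, rfl⟩
    exact hW T hT
  · intro x hx
    have : S (-x) = S x := by
      ext c
      constructor
      · rintro ⟨T, hT, h1, h2⟩
        exact ⟨neg T, neg_Ok hT, by rw [neg_val, h1, neg_neg], by rw [neg_C, h2]⟩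
      · rintro ⟨T, hT, h1, h2⟩
        exact ⟨neg T, neg_Ok hT, by rw [neg_val, h1], by rw [neg_C, h2]⟩
    simp only [this]
  · intro x y hx hy a h0 h1
    have := hcomb x y hx hy a 0 (sSup (S (a • x + (1 - a) • y))) h0 h1 (by
      rintro c ⟨T, hT, hTx, rfl⟩ c' ⟨T', hT', hTy, rfl⟩
      rw [add_zero]
      refine C_node_ge.trans (le_csSup (hbdd _) ⟨Tree.node a T T', ⟨⟨h0, h1⟩, hT, hT'⟩, ?_, rfl⟩)
      rw [Tree.val_node, hTx, hTy])
    linarith
  · intro x y hx hy hxy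
    have := hcomb x y hx hy (1 / 2) 1 (sSup (S ((1 / 2 : ℝ) • (x + y)))) (by norm_num)
      (by norm_num) (by
      rintro c ⟨T, hT, hTx, rfl⟩ c' ⟨T', hT', hTy, rfl⟩
      refine le_trans (le_of_eq ?_) (le_csSup (hbdd _)
        ⟨Tree.node (1 / 2) T T', ⟨⟨by norm_num, by norm_num⟩, hT, hT'⟩, ?_, rfl⟩)
      · rw [C_node_big (by rw [hTx, hTy]; exact hxy)]
        ring
      · rw [Tree.val_node, hTx, hTy, smul_add]; norm_num)
    linarith

end Crest.Agent.R140.Renorm
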