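import Mathlib

/-!
Row 140, part C1: spreadable tuples.
-/

set_option autoImplicit false

namespace Crest.Agent.R140

open Finset

section Psi

variable {d M : ℕ}

/-- The digit vector `Ψ(a)`. -/
def Psi (y : Fin d → Fin (M + 1)) (R : Fin d → Fin d → Fin (M + 1)) (a : Fin d) :
    Fin d → Fin (M + 1) :=
  fun l => if l < a then y l else if l = a then y a - 1 else R a l

/-- The swapping bijection. -/
def swapEquiv (a : Fin d) :
    ((Fin d → Fin (M + 1)) × (Fin d → Fin d → Fin (M + 1))) ≃
      ((Fin d → Fin (M + 1)) × (Fin d → Fin d → Fin (M + 1))) where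
  toFun p := (Psi p.1 p.2 a, fun b l => if b = a ∧ a < l then p.1 l else p.2 b l)
  invFun q := (fun l => if l < a then q.1 l else if l = a then q.1 a + 1 else q.2 a l,
    fun b l => if b = a ∧ a < l then q.1 l else q.2 b l)
  left_inv := by
    rintro ⟨y, R⟩
    refine Prod.ext ?_ ?_
    · funext l
      simp only [Psi]
      rcases lt_trichotomy l a with h | h | h
      · simp [h]
      · subst h; simp
      · have h1 : ¬ l < a := not_lt.mpr h.le
        have h2 : l ≠ a := h.ne'
        simp [h1, h2, h]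
    · funext b l
      simp only [Psi]
      by_cases hb : b = a ∧ a < l
      · obtain ⟨rfl, h⟩ := hb
        have h1 : ¬ l < b := not_lt.mpr h.le
        have h2 : l ≠ b := h.ne'
        simp [h1, h2, h]
      · simp [hb]
  right_inv := by
    rintro ⟨y, R⟩
    refine Prod.ext ?_ ?_
    · funext l
      simp only [Psi]
      rcases lt_trichotomy l a with h | h | h
      · simp [h]
      · subst h; simp
      · have h1 : ¬ l < a := not_lt.mpr h.le
        have h2 : l ≠ a := h.ne'
        simp [h1, h2, h]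
    · funext b l
      by_cases hb : b = a ∧ a < l
      · obtain ⟨rfl, h⟩ := hb
        have h1 : ¬ l < b := not_lt.mpr h.le
        have h2 : l ≠ b := h.ne'
        simp [h1, h2, h]
      · simp [hb]

theorem swapEquiv_fst (a : Fin d) (p : (Fin d → Fin (M + 1)) × (Fin d → Fin d → Fin (M + 1))) :
    (swapEquiv a p).1 = Psi p.1 p.2 a := rfl

theorem Psi_swapEquiv (a b : Fin d) (hb : b < a)
    (p : (Fin d → Fin (M + 1)) × (Fin d → Fin d → Fin (M + 1))) :
    Psi (swapEquiv a p).1 (swapEquiv a p).2 b = Psi p.1 p.2 b := by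
  obtain ⟨y, R⟩ := p
  funext l
  simp only [Psi, swapEquiv, Equiv.coe_fn_mk]
  rcases lt_trichotomy l b with h | h | h
  · have h1 : l < a := h.trans hb
    simp [h, h1]
  · subst h; simp [hb]
  · have h1 : ¬ l < b := not_lt.mpr h.le
    have h2 : l ≠ b := h.ne'
    simp [h1, h2, hb.ne]

/-- The exact identity. -/
theorem sum_Psi_eq {k : ℕ} (D : Fin k → Fin d) (a : Fin d) (hD : ∀ j, D j < a)
    (F : (Fin k → (Fin d → Fin (M + 1))) → (Fin d → Fin (M + 1)) → ℝ) :
    ∑ p : (Fin d → Fin (M + 1)) × (Fin d → Fin d → Fin (M + 1)),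
        F (fun j => Psi p.1 p.2 (D j)) (Psi p.1 p.2 a)
      = ∑ p : (Fin d → Fin (M + 1)) × (Fin d → Fin d → Fin (M + 1)),
        F (fun j => Psi p.1 p.2 (D j)) p.1 := by
  rw [← (swapEquiv (M := M) a).sum_comp (fun p => F (fun j => Psi p.1 p.2 (D j)) p.1)]
  refine Finset.sum_congr rfl (fun p _ => ?_)
  have h : (fun j => Psi (swapEquiv a p).1 (swapEquiv a p).2 (D j))
      = fun j => Psi p.1 p.2 (D j) := by
    funext j
    rw [Psi_swapEquiv a (D j) (hD j)]
  rw [h, swapEquiv_fst]

/-- Lexicographic comparison. -/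
theorem Psi_lt (y : Fin d → Fin (M + 1)) (R : Fin d → Fin d → Fin (M + 1)) {a b : Fin d}
    (hab : a < b) (hy : y a ≠ 0) : toLex (Psi y R a) < toLex (Psi y R b) := by
  refine ⟨a, ?_, ?_⟩
  · intro j hj
    have hj' : j < b := lt_trans hj hab
    have hj2 : j < a := hj
    simp [Psi, hj', hj2]
  · have h : y a - 1 < y a := by
      rw [Fin.lt_def, Fin.coe_sub_one, if_neg hy]
      have := Fin.pos_iff_ne_zero.mpr hy
      rw [Fin.lt_def] at this
      simp at this
      omega
    simpa [Psi, hab] using h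

/-- Encoding of digit vectors, order preserving for the lexicographic order. -/
noncomputable def enc (d M : ℕ) :
    Lex (Fin d → Fin (M + 1)) ≃o Fin (Fintype.card (Lex (Fin d → Fin (M + 1)))) :=
  (Fintype.orderIsoFinOfCardEq _ rfl).symm

end Psi

/-- Uniform version. -/
def Good (k n N : ℕ) (ε : ℝ) (Ω : Type) [Fintype Ω] (ζ : Ω → Fin n → Fin N) : Prop :=
  (((univ.filter (fun ω => ¬ StrictMono (ζ ω))).card : ℝ) ≤ ε * Fintype.card Ω) ∧
  ∀ i i' : Fin k → Fin n, StrictMono i → StrictMono i' →
    ∀ F : (Fin k → Fin N) → ℝ, (∀ v, |F v| ≤ 1) →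
      |∑ ω, F (ζ ω ∘ i) - ∑ ω, F (ζ ω ∘ i')| ≤ ε * Fintype.card Ω

section Step

variable {d M : ℕ}

theorem card_fiber_zero (a : Fin d) :
    ((univ.filter (fun f : Fin d → Fin (M + 1) => f a = 0)).card) * (M + 1)
      = Fintype.card (Fin d → Fin (M + 1)) := by
  have h1 : Fintype.card (Fin d → Fin (M + 1)) =
      ∑ c : Fin (M + 1), (univ.filter (fun f : Fin d → Fin (M + 1) => f a = c)).card := by
    rw [← Finset.card_univ]
    exact Finset.card_eq_sum_card_fiberwise (fun x _ => Finset.mem_coe.mpr (Finset.mem_univ _))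
  have h2 : ∀ c : Fin (M + 1), (univ.filter (fun f : Fin d → Fin (M + 1) => f a = c)).card
      = (univ.filter (fun f : Fin d → Fin (M + 1) => f a = 0)).card := by
    intro c
    refine Finset.card_equiv (Equiv.subRight (fun _ => c)) ?_
    intro f
    simp [sub_eq_zero]
  rw [h1, Finset.sum_congr rfl (fun c _ => h2 c), Finset.sum_const, Finset.card_univ,
    Fintype.card_fin, smul_eq_mul, mul_comm]

theorem card_bad (d M : ℕ) :
    ((univ.filter (fun p : (Fin d → Fin (M + 1)) × (Fin d → Fin d → Fin (M + 1)) =>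
        ∃ a, p.1 a = 0)).card) * (M + 1)
      ≤ d * Fintype.card ((Fin d → Fin (M + 1)) × (Fin d → Fin d → Fin (M + 1))) := by
  classical
  have hsub : (univ.filter (fun p : (Fin d → Fin (M + 1)) × (Fin d → Fin d → Fin (M + 1)) =>
        ∃ a, p.1 a = 0)) ⊆ (univ : Finset (Fin d)).biUnion (fun a =>
          (univ.filter (fun f : Fin d → Fin (M + 1) => f a = 0)) ×ˢ
            (univ : Finset (Fin d → Fin d → Fin (M + 1)))) := by
    intro p hp
    simp only [mem_filter, mem_univ, true_and] at hp
    obtain ⟨a, ha⟩ := hp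
    simp only [mem_biUnion, mem_univ, true_and, mem_product, mem_filter, and_true]
    exact ⟨a, ha⟩
  calc _ ≤ ((univ : Finset (Fin d)).biUnion (fun a =>
          (univ.filter (fun f : Fin d → Fin (M + 1) => f a = 0)) ×ˢ
            (univ : Finset (Fin d → Fin d → Fin (M + 1))))).card * (M + 1) :=
        Nat.mul_le_mul_right _ (Finset.card_le_card hsub)
    _ ≤ (∑ a : Fin d, ((univ.filter (fun f : Fin d → Fin (M + 1) => f a = 0)) ×ˢ
            (univ : Finset (Fin d → Fin d → Fin (M + 1)))).card) * (M + 1) :=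
        Nat.mul_le_mul_right _ Finset.card_biUnion_le
    _ = ∑ a : Fin d, (((univ.filter (fun f : Fin d → Fin (M + 1) => f a = 0)).card * (M + 1)) *
            Fintype.card (Fin d → Fin d → Fin (M + 1))) := by
        rw [Finset.sum_mul]
        refine Finset.sum_congr rfl (fun a _ => ?_)
        rw [Finset.card_product, Finset.card_univ]
        ring
    _ = _ := by
        simp_rw [card_fiber_zero]
        rw [Finset.sum_const, Finset.card_univ, Fintype.card_fin, smul_eq_mul,
          Fintype.card_prod]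

end Step

theorem good_step (k n : ℕ) (ε : ℝ) (hε : 0 < ε) (N : ℕ) (Ω : Type) [Fintype Ω] [Nonempty Ω]
    (δ : Ω → Fin n → Fin N) (hδ : Good k n N (ε / 5) Ω δ) (M : ℕ)
    (hM : (N : ℝ) ≤ ε / 5 * (M + 1)) :
    Good (k + 1) n (Fintype.card (Lex (Fin N → Fin (M + 1)))) ε
      (Ω × ((Fin N → Fin (M + 1)) × (Fin N → Fin N → Fin (M + 1))))
      (fun q j => enc N M (toLex (Psi q.2.1 q.2.2 (δ q.1 j)))) := by
  classical
  set P := (Fin N → Fin (M + 1)) × (Fin N → Fin N → Fin (M + 1)) with hP
  have hPpos : (0 : ℝ) < Fintype.card P := by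
    have : 0 < Fintype.card P := Fintype.card_pos
    exact_mod_cast this
  have hΩpos : (0 : ℝ) < Fintype.card Ω := by
    have : 0 < Fintype.card Ω := Fintype.card_pos
    exact_mod_cast this
  obtain ⟨hbad, hclose⟩ := hδ
  have hcard : ((Fintype.card (Ω × P) : ℕ) : ℝ) = Fintype.card Ω * Fintype.card P := by
    rw [Fintype.card_prod]; push_cast; ring
  refine ⟨?_, ?_⟩
  · -- strict monotonicity
    have hsub : (univ.filter (fun q : Ω × P =>
        ¬ StrictMono (fun j => enc N M (toLex (Psi q.2.1 q.2.2 (δ q.1 j)))))) ⊆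
        ((univ.filter (fun ω => ¬ StrictMono (δ ω))) ×ˢ (univ : Finset P)) ∪
        ((univ : Finset Ω) ×ˢ (univ.filter (fun p : P => ∃ a, p.1 a = 0))) := by
      intro q hq
      simp only [mem_filter, mem_univ, true_and] at hq
      simp only [mem_union, mem_product, mem_filter, mem_univ, true_and, and_true]
      by_contra hcon
      push Not at hcon
      obtain ⟨h1, h2⟩ := hcon
      apply hq
      intro a b hab
      exact (enc N M).strictMono (Psi_lt _ _ (h1 hab) (h2 _))
    have hb := card_bad N M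
    have hb' : (((univ.filter (fun p : P => ∃ a, p.1 a = 0)).card : ℝ)) * (M + 1)
        ≤ N * Fintype.card P := by exact_mod_cast hb
    have hM1 : (0 : ℝ) < (M : ℝ) + 1 := by positivity
    have hb'' : ((univ.filter (fun p : P => ∃ a, p.1 a = 0)).card : ℝ)
        ≤ ε / 5 * Fintype.card P := by
      have : (((univ.filter (fun p : P => ∃ a, p.1 a = 0)).card : ℝ)) * (M + 1)
        ≤ (ε / 5 * Fintype.card P) * (M + 1) := by
        calc _ ≤ (N : ℝ) * Fintype.card P := hb'
          _ ≤ (ε / 5 * (M + 1)) * Fintype.card P := by gcongr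
          _ = _ := by ring
      exact le_of_mul_le_mul_right this hM1
    calc ((univ.filter (fun q : Ω × P =>
        ¬ StrictMono (fun j => enc N M (toLex (Psi q.2.1 q.2.2 (δ q.1 j)))))).card : ℝ)
        ≤ ((((univ.filter (fun ω => ¬ StrictMono (δ ω))) ×ˢ (univ : Finset P)) ∪
        ((univ : Finset Ω) ×ˢ (univ.filter (fun p : P => ∃ a, p.1 a = 0)))).card : ℝ) := by
          exact_mod_cast Finset.card_le_card hsub
      _ ≤ ((((univ.filter (fun ω => ¬ StrictMono (δ ω))) ×ˢ (univ : Finset P)).card +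
        ((univ : Finset Ω) ×ˢ (univ.filter (fun p : P => ∃ a, p.1 a = 0))).card : ℕ) : ℝ) := by
          exact_mod_cast Finset.card_union_le _ _
      _ = ((univ.filter (fun ω => ¬ StrictMono (δ ω))).card : ℝ) * Fintype.card P +
          Fintype.card Ω * ((univ.filter (fun p : P => ∃ a, p.1 a = 0)).card : ℝ) := by
          rw [Finset.card_product, Finset.card_product, Finset.card_univ, Finset.card_univ]
          push_cast
          ring
      _ ≤ (ε / 5 * Fintype.card Ω) * Fintype.card P +
          Fintype.card Ω * (ε / 5 * Fintype.card P) := by gcongr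
      _ ≤ ε * Fintype.card (Ω × P) := by
          rw [hcard]
          have : 0 < ε * (Fintype.card Ω * Fintype.card P) := by positivity
          nlinarith
  · intro i i' hi hi' F hF
    -- the function G
    let G : (Fin k → Fin N) → ℝ := fun D =>
      (∑ p : P, F (Fin.snoc (fun j => enc N M (toLex (Psi p.1 p.2 (D j))))
        (enc N M (toLex p.1)))) / Fintype.card P
    have hG : ∀ v, |G v| ≤ 1 := by
      intro v
      simp only [G]
      rw [abs_div, abs_of_pos hPpos, div_le_one hPpos]
      calc _ ≤ ∑ p : P, |F (Fin.snoc (fun j => enc N M (toLex (Psi p.1 p.2 (v j))))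
        (enc N M (toLex p.1)))| := Finset.abs_sum_le_sum_abs _ _
        _ ≤ ∑ p : P, (1 : ℝ) := Finset.sum_le_sum (fun p _ => hF _)
        _ = _ := by simp
    have key : ∀ (i : Fin (k + 1) → Fin n), StrictMono i →
        |∑ q : Ω × P, F ((fun j => enc N M (toLex (Psi q.2.1 q.2.2 (δ q.1 j)))) ∘ i) -
          Fintype.card P * ∑ ω, G (δ ω ∘ (fun j : Fin k => i j.castSucc))|
          ≤ 2 * (ε / 5) * (Fintype.card Ω * Fintype.card P) := by
      intro i hi
      rw [Fintype.sum_prod_type, Finset.mul_sum, ← Finset.sum_sub_distrib]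
      have hgood : ∀ ω, StrictMono (δ ω) →
          ∑ p : P, F ((fun j => enc N M (toLex (Psi p.1 p.2 (δ ω j)))) ∘ i) -
          Fintype.card P * G (δ ω ∘ (fun j : Fin k => i j.castSucc)) = 0 := by
        intro ω hω
        have h1 := sum_Psi_eq (M := M) (fun j : Fin k => δ ω (i j.castSucc))
          (δ ω (i (Fin.last k))) (fun j => hω (hi (Fin.castSucc_lt_last j)))
          (fun D y => F (Fin.snoc (fun j => enc N M (toLex (D j))) (enc N M (toLex y))))
        have h2 : Fintype.card P * G (δ ω ∘ (fun j : Fin k => i j.castSucc)) =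
            ∑ p : P, F (Fin.snoc (fun j => enc N M (toLex (Psi p.1 p.2
              (δ ω (i j.castSucc))))) (enc N M (toLex p.1))) := by
          simp only [G]
          rw [mul_div_cancel₀ _ hPpos.ne']
          rfl
        rw [h2, ← h1, sub_eq_zero]
        refine Finset.sum_congr rfl (fun p _ => ?_)
        congr 1
        funext j
        refine Fin.lastCases ?_ (fun j => ?_) j
        · rw [Fin.snoc_last]; rfl
        · rw [Fin.snoc_castSucc]; rfl
      calc _ ≤ ∑ ω, |∑ p : P, F ((fun j => enc N M (toLex (Psi p.1 p.2 (δ ω j)))) ∘ i) -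
          Fintype.card P * G (δ ω ∘ (fun j : Fin k => i j.castSucc))| :=
            Finset.abs_sum_le_sum_abs _ _
        _ ≤ ∑ ω, (if ¬ StrictMono (δ ω) then 2 * (Fintype.card P : ℝ) else 0) := by
            refine Finset.sum_le_sum (fun ω _ => ?_)
            split_ifs with h
            · rw [hgood ω h, abs_zero]
            · calc _ ≤ |∑ p : P, F ((fun j => enc N M (toLex (Psi p.1 p.2 (δ ω j)))) ∘ i)| +
                  |Fintype.card P * G (δ ω ∘ (fun j : Fin k => i j.castSucc))| := abs_sub _ _
                _ ≤ Fintype.card P + Fintype.card P := by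
                  refine add_le_add ?_ ?_
                  · calc _ ≤ ∑ p : P, |F ((fun j => enc N M (toLex (Psi p.1 p.2 (δ ω j)))) ∘ i)| :=
                        Finset.abs_sum_le_sum_abs _ _
                      _ ≤ ∑ p : P, (1 : ℝ) := Finset.sum_le_sum (fun p _ => hF _)
                      _ = _ := by simp
                  · rw [abs_mul, abs_of_pos hPpos]
                    have := hG (δ ω ∘ (fun j : Fin k => i j.castSucc))
                    nlinarith
                _ = _ := by ring
        _ = ((univ.filter (fun ω => ¬ StrictMono (δ ω))).card : ℝ) * (2 * Fintype.card P) := by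
            rw [← Finset.sum_filter, Finset.sum_const, nsmul_eq_mul]
        _ ≤ (ε / 5 * Fintype.card Ω) * (2 * Fintype.card P) := by gcongr
        _ = _ := by ring
    have h1 := key i hi
    have h2 := key i' hi'
    have h3 := hclose (fun j => i j.castSucc) (fun j => i' j.castSucc)
      (fun a b hab => hi (Fin.castSucc_lt_castSucc_iff.mpr hab))
      (fun a b hab => hi' (Fin.castSucc_lt_castSucc_iff.mpr hab)) G hG
    have h4 : |Fintype.card P * ∑ ω, G (δ ω ∘ (fun j : Fin k => i j.castSucc)) -
        Fintype.card P * ∑ ω, G (δ ω ∘ (fun j : Fin k => i' j.castSucc))| ≤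
        ε / 5 * (Fintype.card Ω * Fintype.card P) := by
      rw [← mul_sub, abs_mul, abs_of_pos hPpos]
      calc _ ≤ (Fintype.card P : ℝ) * (ε / 5 * Fintype.card Ω) := by gcongr
        _ = _ := by ring
    rw [hcard]
    rw [abs_le] at h1 h2 h4 ⊢
    constructor <;> nlinarith [h1.1, h1.2, h2.1, h2.2, h4.1, h4.2]

/-- Spreadable tuples, uniform version. -/
theorem exists_good (k : ℕ) : ∀ (n : ℕ) (ε : ℝ), 0 < ε →
    ∃ (N : ℕ) (Ω : Type) (_ : Fintype Ω) (_ : Nonempty Ω) (ζ : Ω → Fin n → Fin N),
      Good k n N ε Ω ζ := by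
  induction k with
  | zero =>
    intro n ε hε
    refine ⟨n, Unit, inferInstance, inferInstance, fun _ => id, ?_, ?_⟩
    · have : (univ.filter (fun ω : Unit => ¬ StrictMono ((fun _ => id : Unit → Fin n → Fin n) ω)))
          = ∅ := by
        ext ω
        simp [strictMono_id]
      rw [this]
      simp
      exact hε.le
    · intro i i' _ _ F _
      have : i = i' := Subsingleton.elim _ _
      subst this
      simp
      exact hε.le
  | succ k ih =>
    intro n ε hε
    obtain ⟨N, Ω, hF, hN, δ, hδ⟩ := ih n (ε / 5) (by positivity)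
    obtain ⟨M, hM⟩ := exists_nat_ge ((N : ℝ) / (ε / 5))
    refine ⟨_, _, _, inferInstance, _, good_step k n ε hε N Ω δ hδ M ?_⟩
    rw [div_le_iff₀ (by positivity)] at hM
    nlinarith

/-- Restriction and conditioning: all tuples strictly increasing, all `k` at once. -/
theorem spreadable (n : ℕ) (ε : ℝ) (hε : 0 < ε) :
    ∃ (N : ℕ) (Ω : Type) (_ : Fintype Ω) (_ : Nonempty Ω) (ζ : Ω → Fin n → Fin N),
      (∀ ω, StrictMono (ζ ω)) ∧
      ∀ (k : ℕ) (i i' : Fin k → Fin n), StrictMono i → StrictMono i' →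
        ∀ F : (Fin k → Fin N) → ℝ, (∀ v, |F v| ≤ 1) →
          |∑ ω, F (ζ ω ∘ i) - ∑ ω, F (ζ ω ∘ i')| ≤ ε * Fintype.card Ω := by
  classical
  -- it is enough to treat small ε
  set e : ℝ := min (ε / 6) (1 / 2) with he
  have he0 : 0 < e := lt_min (by positivity) (by norm_num)
  have he1 : e ≤ ε / 6 := min_le_left _ _
  have he2 : e ≤ 1 / 2 := min_le_right _ _
  obtain ⟨N, Ω, hΩ, hne, ζ, hbad, hclose⟩ := exists_good n (n + n) e he0
  have hΩpos : (0 : ℝ) < Fintype.card Ω := by
    have : 0 < Fintype.card Ω := Fintype.card_pos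
    exact_mod_cast this
  set bad := univ.filter (fun ω => ¬ StrictMono (ζ ω)) with hbaddef
  set good := univ.filter (fun ω => StrictMono (ζ ω)) with hgooddef
  have hsum : good.card + bad.card = Fintype.card Ω := by
    rw [hbaddef, hgooddef, Finset.card_filter_add_card_filter_not, Finset.card_univ]
  have hsum' : (good.card : ℝ) + bad.card = Fintype.card Ω := by exact_mod_cast hsum
  have hgoodcard : (Fintype.card Ω : ℝ) / 2 ≤ good.card := by nlinarith
  have hcardsub : Fintype.card {ω // StrictMono (ζ ω)} = good.card := by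
    rw [Fintype.card_subtype]
  have hgpos : 0 < good.card := by
    have : (0 : ℝ) < good.card := by linarith
    exact_mod_cast this
  refine ⟨N, {ω // StrictMono (ζ ω)}, inferInstance, ?_, fun ω j => ζ ω.1 (Fin.natAdd n j),
    ?_, ?_⟩
  · rw [← Fintype.card_pos_iff, hcardsub]; exact hgpos
  · intro ω a b hab
    exact ω.2 (by simpa using hab)
  · intro k i i' hi hi' F hF
    -- extend by an initial segment
    have hkn : k ≤ n := by
      simpa using Fintype.card_le_of_injective i hi.injective
    have hn : (n - k) + k = n := by omega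
    let ext : (Fin k → Fin n) → Fin n → Fin (n + n) := fun i j =>
      if h : (j : ℕ) < n - k then ⟨j, by omega⟩
      else Fin.natAdd n (i ⟨(j : ℕ) - (n - k), by omega⟩)
    have hext : ∀ i : Fin k → Fin n, StrictMono i → StrictMono (ext i) := by
      intro i hi a b hab
      simp only [ext]
      have hab' : (a : ℕ) < b := hab
      by_cases ha : (a : ℕ) < n - k
      · by_cases hb : (b : ℕ) < n - k
        · rw [dif_pos ha, dif_pos hb]
          exact hab'
        · rw [dif_pos ha, dif_neg hb, Fin.lt_def]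
          simp only [Fin.val_natAdd]
          omega
      · have hb : ¬ (b : ℕ) < n - k := by omega
        rw [dif_neg ha, dif_neg hb]
        have : i ⟨(a : ℕ) - (n - k), by omega⟩ < i ⟨(b : ℕ) - (n - k), by omega⟩ := by
          apply hi
          rw [Fin.lt_def]
          simp only
          omega
        simpa using this
    let pos : Fin k → Fin n := fun j => ⟨(n - k) + j, by omega⟩
    have hpos : ∀ (i : Fin k → Fin n) (ω : Ω), (ζ ω ∘ ext i) ∘ pos =
        (fun j => ζ ω (Fin.natAdd n j)) ∘ i := by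
      intro i ω
      funext j
      simp only [Function.comp, ext, pos]
      have h : ¬ ((n - k) + (j : ℕ)) < n - k := by omega
      rw [dif_neg h]
      congr 3
      apply Fin.ext
      simp
    have hc := hclose (ext i) (ext i') (hext i hi) (hext i' hi') (fun v => F (v ∘ pos))
      (fun v => hF _)
    simp only [hpos] at hc
    -- from the subtype to the full type
    have hsub : ∀ G : Ω → ℝ, (∀ ω, |G ω| ≤ 1) →
        |∑ ω, G ω - ∑ ω : {ω // StrictMono (ζ ω)}, G ω.1| ≤ e * Fintype.card Ω := by
      intro G hG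
      have h1 : ∑ ω : {ω // StrictMono (ζ ω)}, G ω.1 = ∑ ω ∈ good, G ω := by
        rw [hgooddef]
        exact (Finset.sum_subtype (univ.filter (fun ω => StrictMono (ζ ω)))
          (fun x => by simp) G).symm
      have h2 : ∑ ω, G ω = ∑ ω ∈ good, G ω + ∑ ω ∈ bad, G ω := by
        rw [hgooddef, hbaddef, Finset.sum_filter_add_sum_filter_not]
      rw [h1, h2, add_sub_cancel_left]
      calc _ ≤ ∑ ω ∈ bad, |G ω| := Finset.abs_sum_le_sum_abs _ _
        _ ≤ ∑ ω ∈ bad, (1 : ℝ) := Finset.sum_le_sum (fun ω _ => hG ω)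
        _ = bad.card := by simp
        _ ≤ _ := hbad
    have h1 := hsub (fun ω => F ((fun j => ζ ω (Fin.natAdd n j)) ∘ i)) (fun ω => hF _)
    have h2 := hsub (fun ω => F ((fun j => ζ ω (Fin.natAdd n j)) ∘ i')) (fun ω => hF _)
    have hfin : (3 * e) * Fintype.card Ω ≤ ε * Fintype.card {ω // StrictMono (ζ ω)} := by
      rw [hcardsub]
      nlinarith
    refine le_trans ?_ hfin
    rw [abs_le] at h1 h2 hc ⊢
    constructor <;> linarith [h1.1, h1.2, h2.1, h2.2, hc.1, hc.2]

/-- The laws are close in `L¹`. -/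
theorem spreadable_law {n N : ℕ} {ε : ℝ} {Ω : Type} [Fintype Ω] {ζ : Ω → Fin n → Fin N}
    {k : ℕ} {i i' : Fin k → Fin n}
    (h : ∀ F : (Fin k → Fin N) → ℝ, (∀ v, |F v| ≤ 1) →
          |∑ ω, F (ζ ω ∘ i) - ∑ ω, F (ζ ω ∘ i')| ≤ ε * Fintype.card Ω) :
    ∑ v : Fin k → Fin N, |((univ.filter (fun ω => ζ ω ∘ i = v)).card : ℝ) -
      (univ.filter (fun ω => ζ ω ∘ i' = v)).card| ≤ ε * Fintype.card Ω := by
  classical
  let F : (Fin k → Fin N) → ℝ := fun v =>
    if (0 : ℝ) ≤ ((univ.filter (fun ω => ζ ω ∘ i = v)).card : ℝ) -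
      (univ.filter (fun ω => ζ ω ∘ i' = v)).card then 1 else -1
  have hF : ∀ v, |F v| ≤ 1 := by
    intro v
    simp only [F]
    split_ifs <;> simp
  have hsum : ∀ j : Fin k → Fin n, ∑ ω, F (ζ ω ∘ j) =
      ∑ v : Fin k → Fin N, ((univ.filter (fun ω => ζ ω ∘ j = v)).card : ℝ) * F v := by
    intro j
    rw [← Finset.sum_fiberwise (s := univ) (g := fun ω => ζ ω ∘ j)]
    refine Finset.sum_congr rfl (fun v _ => ?_)
    rw [Finset.sum_congr rfl (g := fun _ => F v), Finset.sum_const, nsmul_eq_mul]
    intro ω hω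
    rw [(Finset.mem_filter.mp hω).2]
  have h' := h F hF
  rw [hsum, hsum, ← Finset.sum_sub_distrib] at h'
  refine le_trans (le_of_eq ?_) (le_trans (le_abs_self _) h')
  refine Finset.sum_congr rfl (fun v _ => ?_)
  rw [← sub_mul]
  simp only [F]
  split_ifs with hv
  · rw [abs_of_nonneg hv, mul_one]
  · rw [abs_of_neg (not_le.mp hv)]; ring

end Crest.Agent.R140
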