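import Crest.Agent.R140.Spread

/-!
Row 140, part C1: spreadable tuples, ℕ-indexed form (`C1` interface for C2 and C3).
-/

set_option autoImplicit false

namespace Crest.Agent.R140

/-- Spreadable tuples indexed by naturals. -/
theorem spreadable_nat (n : ℕ) (ε : ℝ) (hε : 0 < ε) :
    ∃ (N : ℕ) (Ω : Type) (_ : Fintype Ω) (μ : Ω → ℝ) (ζ : Ω → ℕ → ℕ),
      (∀ ω, 0 ≤ μ ω) ∧ ∑ ω, μ ω = 1 ∧ (∀ ω i, ζ ω i < N) ∧
      (∀ ω i j, i < j → j < n → ζ ω i < ζ ω j) ∧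
      ∀ (k : ℕ) (i i' : Fin k → ℕ), StrictMono i → StrictMono i' →
        (∀ j, i j < n) → (∀ j, i' j < n) → ∀ F : (Fin k → ℕ) → ℝ, (∀ v, |F v| ≤ 1) →
        |∑ ω, μ ω * F (fun j => ζ ω (i j)) - ∑ ω, μ ω * F (fun j => ζ ω (i' j))| ≤ ε := by
  classical
  obtain ⟨N, Ω, hΩ, hne, ζ, hmono, hspr⟩ := spreadable n ε hε
  have hpos : (0 : ℝ) < Fintype.card Ω := by
    have : 0 < Fintype.card Ω := Fintype.card_pos
    exact_mod_cast this
  refine ⟨N + 1, Ω, hΩ, fun _ => (Fintype.card Ω : ℝ)⁻¹,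
    fun ω i => if h : i < n then (ζ ω ⟨i, h⟩ : ℕ) else 0, ?_, ?_, ?_, ?_, ?_⟩
  · intro ω; positivity
  · simp [hpos.ne']
  · intro ω i
    by_cases h : i < n
    · simp only [dif_pos h]
      exact lt_trans (ζ ω ⟨i, h⟩).isLt (Nat.lt_succ_self _)
    · simp only [dif_neg h]
      exact Nat.succ_pos _
  · intro ω i j hij hj
    have hi : i < n := lt_trans hij hj
    simp only [dif_pos hi, dif_pos hj]
    exact hmono ω (show (⟨i, hi⟩ : Fin n) < ⟨j, hj⟩ from hij)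
  · intro k i i' hi hi' hin hin' F hF
    have h := hspr k (fun j => ⟨i j, hin j⟩) (fun j => ⟨i' j, hin' j⟩)
      (fun a b hab => hi hab) (fun a b hab => hi' hab) (fun v => F (fun j => (v j : ℕ)))
      (fun v => hF _)
    have e1 : ∀ ω, (fun j => if h : i j < n then ((ζ ω ⟨i j, h⟩ : Fin N) : ℕ) else 0)
        = fun j => (((ζ ω ∘ fun j => (⟨i j, hin j⟩ : Fin n)) j : Fin N) : ℕ) := by
      intro ω; funext j; simp [hin j]
    have e2 : ∀ ω, (fun j => if h : i' j < n then ((ζ ω ⟨i' j, h⟩ : Fin N) : ℕ) else 0)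
        = fun j => (((ζ ω ∘ fun j => (⟨i' j, hin' j⟩ : Fin n)) j : Fin N) : ℕ) := by
      intro ω; funext j; simp [hin' j]
    simp only [e1, e2]
    rw [← Finset.mul_sum, ← Finset.mul_sum, ← mul_sub, abs_mul,
      abs_of_pos (inv_pos.mpr hpos), inv_mul_le_iff₀ hpos]
    simpa [mul_comm] using h

end Crest.Agent.R140
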